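import Mathlib.Algebra.BigOperators.Group.List.Basic
import Mathlib.Data.Fintype.EquivFin
import Mathlib.Data.Fintype.Option
import Mathlib.Data.Fintype.Pi
import Mathlib.Data.Fintype.Sum
import Mathlib.Tactic
import Mathlib.Algebra.Polynomial.Eval.Degree
import Mathlib.Analysis.SpecificLimits.Normed
import Mathlib.Data.Fintype.Basic
import Mathlib.Data.List.Sublists
import Mathlib.Logic.Embedding.Set
import Mathlib.Logic.Relation
import Vale.Agent.P343.Defs

set_option linter.all false

section

section

namespace Vale.Agent.P343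

/-- Possible outcomes of a visit: stop with a verdict, leave to the left, leave to the right. -/
inductive Out (K Q : Type) : Type
  | stop : K → Out K Q
  | lft : Q → Out K Q
  | rgt : Q → Out K Q

/-- A deterministic two-way box.  `f false q` is the outcome when `f` is entered from its left
boundary in state `q`; `f true q` when it is entered from its right boundary. -/
def Box (K Q : Type) : Type := Bool → Q → Option (Out K Q)

namespace Box

variable {K Q : Type}

@[ext] theorem ext' {f g : Box K Q} (h : ∀ s q, f s q = g s q) : f = g := by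
  funext s q; exact h s q

open Classical in
/-- The unique outcome satisfying `P`, if there is one. -/
noncomputable def pick {X : Type} (P : X → Prop) : Option X :=
  if h : ∃ o, P o then some h.choose else none

theorem pick_eq_some {X : Type} {P : X → Prop} (hdet : ∀ o o', P o → P o' → o = o') {o : X} :
    pick P = some o ↔ P o := by
  unfold pick
  by_cases h : ∃ o, P o
  · rw [dif_pos h]
    constructor
    · intro h1
      have := h.choose_spec
      simp only [Option.some.injEq] at h1
      rwa [h1] at this
    · intro h1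
      rw [Option.some.injEq]
      exact hdet _ _ h.choose_spec h1
  · rw [dif_neg h]
    constructor
    · intro h1; simp at h1
    · intro h1; exact absurd ⟨o, h1⟩ h

/-- Runs that start at the boundary between `f` (left) and `g` (right); `false` = moving right. -/
inductive Mid (f g : Box K Q) : Bool → Q → Out K Q → Prop
  | stopR {q : Q} {k : K} : g false q = some (Out.stop k) → Mid f g false q (Out.stop k)
  | outR {q q' : Q} : g false q = some (Out.rgt q') → Mid f g false q (Out.rgt q')
  | backR {q q' : Q} {o : Out K Q} : g false q = some (Out.lft q') → Mid f g true q' o →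
      Mid f g false q o
  | stopL {q : Q} {k : K} : f true q = some (Out.stop k) → Mid f g true q (Out.stop k)
  | outL {q q' : Q} : f true q = some (Out.lft q') → Mid f g true q (Out.lft q')
  | backL {q q' : Q} {o : Out K Q} : f true q = some (Out.rgt q') → Mid f g false q' o →
      Mid f g true q o

theorem Mid.det {f g : Box K Q} {d : Bool} {q : Q} {o o' : Out K Q}
    (h : Mid f g d q o) (h' : Mid f g d q o') : o = o' := by
  induction h with
  | stopR h1 =>
    cases h' with
    | stopR h2 => rw [h1] at h2; simpa using h2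
    | outR h2 => rw [h1] at h2; simp at h2
    | backR h2 _ => rw [h1] at h2; simp at h2
  | outR h1 =>
    cases h' with
    | stopR h2 => rw [h1] at h2; simp at h2
    | outR h2 => rw [h1] at h2; simpa using h2
    | backR h2 _ => rw [h1] at h2; simp at h2
  | backR h1 _ ih =>
    cases h' with
    | stopR h2 => rw [h1] at h2; simp at h2
    | outR h2 => rw [h1] at h2; simp at h2
    | backR h2 h3 =>
      rw [h1] at h2
      simp only [Option.some.injEq, Out.lft.injEq] at h2
      subst h2
      exact ih h3
  | stopL h1 =>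
    cases h' with
    | stopL h2 => rw [h1] at h2; simpa using h2
    | outL h2 => rw [h1] at h2; simp at h2
    | backL h2 _ => rw [h1] at h2; simp at h2
  | outL h1 =>
    cases h' with
    | stopL h2 => rw [h1] at h2; simp at h2
    | outL h2 => rw [h1] at h2; simpa using h2
    | backL h2 _ => rw [h1] at h2; simp at h2
  | backL h1 _ ih =>
    cases h' with
    | stopL h2 => rw [h1] at h2; simp at h2
    | outL h2 => rw [h1] at h2; simp at h2
    | backL h2 h3 =>
      rw [h1] at h2
      simp only [Option.some.injEq, Out.rgt.injEq] at h2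
      subst h2
      exact ih h3

/-- The outcome of the run from the middle boundary. -/
noncomputable def midOut (f g : Box K Q) (d : Bool) (q : Q) : Option (Out K Q) :=
  pick (Mid f g d q)

theorem midOut_eq_some {f g : Box K Q} {d : Bool} {q : Q} {o : Out K Q} :
    midOut f g d q = some o ↔ Mid f g d q o :=
  pick_eq_some (fun _ _ h h' => Mid.det h h')

/-- Relational description of the composition. -/
inductive Comp (f g : Box K Q) : Bool → Q → Out K Q → Prop
  | stopR {q : Q} {k : K} : f false q = some (Out.stop k) → Comp f g false q (Out.stop k)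
  | lftR {q q' : Q} : f false q = some (Out.lft q') → Comp f g false q (Out.lft q')
  | midR {q q' : Q} {o : Out K Q} : f false q = some (Out.rgt q') → Mid f g false q' o →
      Comp f g false q o
  | stopL {q : Q} {k : K} : g true q = some (Out.stop k) → Comp f g true q (Out.stop k)
  | rgtL {q q' : Q} : g true q = some (Out.rgt q') → Comp f g true q (Out.rgt q')
  | midL {q q' : Q} {o : Out K Q} : g true q = some (Out.lft q') → Mid f g true q' o →
      Comp f g true q o

theorem Comp.det {f g : Box K Q} {d : Bool} {q : Q} {o o' : Out K Q}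
    (h : Comp f g d q o) (h' : Comp f g d q o') : o = o' := by
  cases h with
  | stopR h1 =>
    cases h' with
    | stopR h2 => rw [h1] at h2; simpa using h2
    | lftR h2 => rw [h1] at h2; simp at h2
    | midR h2 _ => rw [h1] at h2; simp at h2
  | lftR h1 =>
    cases h' with
    | stopR h2 => rw [h1] at h2; simp at h2
    | lftR h2 => rw [h1] at h2; simpa using h2
    | midR h2 _ => rw [h1] at h2; simp at h2
  | midR h1 h3 =>
    cases h' with
    | stopR h2 => rw [h1] at h2; simp at h2
    | lftR h2 => rw [h1] at h2; simp at h2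
    | midR h2 h4 =>
      rw [h1] at h2
      simp only [Option.some.injEq, Out.rgt.injEq] at h2
      subst h2
      exact h3.det h4
  | stopL h1 =>
    cases h' with
    | stopL h2 => rw [h1] at h2; simpa using h2
    | rgtL h2 => rw [h1] at h2; simp at h2
    | midL h2 _ => rw [h1] at h2; simp at h2
  | rgtL h1 =>
    cases h' with
    | stopL h2 => rw [h1] at h2; simp at h2
    | rgtL h2 => rw [h1] at h2; simpa using h2
    | midL h2 _ => rw [h1] at h2; simp at h2
  | midL h1 h3 =>
    cases h' with
    | stopL h2 => rw [h1] at h2; simp at h2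
    | rgtL h2 => rw [h1] at h2; simp at h2
    | midL h2 h4 =>
      rw [h1] at h2
      simp only [Option.some.injEq, Out.lft.injEq] at h2
      subst h2
      exact h3.det h4

/-- Composition of boxes (`f` to the left of `g`). -/
noncomputable def mul (f g : Box K Q) : Box K Q := fun s q => pick (Comp f g s q)

noncomputable instance : Mul (Box K Q) := ⟨mul⟩

theorem mul_eq_some {f g : Box K Q} {s : Bool} {q : Q} {o : Out K Q} :
    (f * g) s q = some o ↔ Comp f g s q o :=
  pick_eq_some (P := Comp f g s q) (fun _ _ h h' => Comp.det h h')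

/-- The box of the empty word. -/
def one : Box K Q := fun s q => if s then some (Out.lft q) else some (Out.rgt q)

instance : One (Box K Q) := ⟨one⟩

theorem one_false (q : Q) : (1 : Box K Q) false q = some (Out.rgt q) := rfl
theorem one_true (q : Q) : (1 : Box K Q) true q = some (Out.lft q) := rfl

/-- Two boxes are equal if their `some` outcomes agree. -/
theorem ext_some {f g : Box K Q} (h : ∀ s q o, f s q = some o ↔ g s q = some o) : f = g := by
  apply ext'
  intro s q
  exact Option.ext (fun o => h s q o)

/-- Runs in the chain of boxes `b lo, ..., b (hi - 1)`: `Ev b lo hi i d q o` says that the run that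
starts at boundary `i` (box `b i` is between the boundaries `i` and `i+1`), moving right if
`d = false` and left if `d = true`, in state `q`, leaves the segment with outcome `o`. -/
inductive Ev (b : ℕ → Box K Q) (lo hi : ℕ) : ℕ → Bool → Q → Out K Q → Prop
  | exitR {i : ℕ} {q : Q} : i = hi → Ev b lo hi i false q (Out.rgt q)
  | exitL {i : ℕ} {q : Q} : i = lo → Ev b lo hi i true q (Out.lft q)
  | stopR {i : ℕ} {q : Q} {k : K} : i < hi → b i false q = some (Out.stop k) →
      Ev b lo hi i false q (Out.stop k)
  | rr {i : ℕ} {q q' : Q} {o : Out K Q} : i < hi → b i false q = some (Out.rgt q') →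
      Ev b lo hi (i + 1) false q' o → Ev b lo hi i false q o
  | rl {i : ℕ} {q q' : Q} {o : Out K Q} : i < hi → b i false q = some (Out.lft q') →
      Ev b lo hi i true q' o → Ev b lo hi i false q o
  | stopL {i j : ℕ} {q : Q} {k : K} : j = i + 1 → lo ≤ i → b i true q = some (Out.stop k) →
      Ev b lo hi j true q (Out.stop k)
  | ll {i j : ℕ} {q q' : Q} {o : Out K Q} : j = i + 1 → lo ≤ i → b i true q = some (Out.lft q') →
      Ev b lo hi i true q' o → Ev b lo hi j true q o
  | lr {i j : ℕ} {q q' : Q} {o : Out K Q} : j = i + 1 → lo ≤ i → b i true q = some (Out.rgt q') →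
      Ev b lo hi j false q' o → Ev b lo hi j true q o

theorem Ev.det {b : ℕ → Box K Q} {lo hi i : ℕ} {d : Bool} {q : Q} {o o' : Out K Q}
    (h : Ev b lo hi i d q o) (h' : Ev b lo hi i d q o') : o = o' := by
  induction h with
  | exitR h1 =>
    cases h' with
    | exitR _ => rfl
    | stopR h2 _ => omega
    | rr h2 _ _ => omega
    | rl h2 _ _ => omega
  | exitL h1 =>
    cases h' with
    | exitL _ => rfl
    | stopL h2 _ _ => omega
    | ll h2 _ _ _ => omega
    | lr h2 _ _ _ => omega
  | stopR h1 h2 =>
    cases h' with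
    | exitR h3 => omega
    | stopR _ h3 => rw [h2] at h3; simpa using h3
    | rr _ h3 _ => rw [h2] at h3; simp at h3
    | rl _ h3 _ => rw [h2] at h3; simp at h3
  | rr h1 h2 _ ih =>
    cases h' with
    | exitR h3 => omega
    | stopR _ h3 => rw [h2] at h3; simp at h3
    | rr _ h3 h4 =>
      rw [h2] at h3; simp only [Option.some.injEq, Out.rgt.injEq] at h3; subst h3; exact ih h4
    | rl _ h3 _ => rw [h2] at h3; simp at h3
  | rl h1 h2 _ ih =>
    cases h' with
    | exitR h3 => omega
    | stopR _ h3 => rw [h2] at h3; simp at h3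
    | rr _ h3 _ => rw [h2] at h3; simp at h3
    | rl _ h3 h4 =>
      rw [h2] at h3; simp only [Option.some.injEq, Out.lft.injEq] at h3; subst h3; exact ih h4
  | @stopL i1 j1 _ _ hj h1 h2 =>
    cases h' with
    | exitL h3 => omega
    | @stopL i2 _ _ _ hj2 _ h3 =>
      have : i1 = i2 := by omega
      subst this; rw [h2] at h3; simpa using h3
    | @ll i2 _ _ _ _ hj2 _ h3 _ =>
      have : i1 = i2 := by omega
      subst this; rw [h2] at h3; simp at h3
    | @lr i2 _ _ _ _ hj2 _ h3 _ =>
      have : i1 = i2 := by omega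
      subst this; rw [h2] at h3; simp at h3
  | @ll i1 j1 _ _ _ hj h1 h2 _ ih =>
    cases h' with
    | exitL h3 => omega
    | @stopL i2 _ _ _ hj2 _ h3 =>
      have : i1 = i2 := by omega
      subst this; rw [h2] at h3; simp at h3
    | @ll i2 _ _ _ _ hj2 _ h3 h4 =>
      have : i1 = i2 := by omega
      subst this; rw [h2] at h3; simp only [Option.some.injEq, Out.lft.injEq] at h3
      subst h3; exact ih h4
    | @lr i2 _ _ _ _ hj2 _ h3 _ =>
      have : i1 = i2 := by omega
      subst this; rw [h2] at h3; simp at h3
  | @lr i1 j1 _ _ _ hj h1 h2 _ ih =>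
    cases h' with
    | exitL h3 => omega
    | @stopL i2 _ _ _ hj2 _ h3 =>
      have : i1 = i2 := by omega
      subst this; rw [h2] at h3; simp at h3
    | @ll i2 _ _ _ _ hj2 _ h3 _ =>
      have : i1 = i2 := by omega
      subst this; rw [h2] at h3; simp at h3
    | @lr i2 _ _ _ _ hj2 _ h3 h4 =>
      have : i1 = i2 := by omega
      subst this; rw [h2] at h3; simp only [Option.some.injEq, Out.rgt.injEq] at h3
      subst h3; exact ih h4

/-- The box of a whole segment of a chain. -/
noncomputable def evalBox (b : ℕ → Box K Q) (lo hi : ℕ) : Box K Q := fun s q =>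
  pick (Ev b lo hi (if s then hi else lo) s q)

theorem evalBox_eq_some {b : ℕ → Box K Q} {lo hi : ℕ} {s : Bool} {q : Q} {o : Out K Q} :
    evalBox b lo hi s q = some o ↔ Ev b lo hi (if s then hi else lo) s q o :=
  pick_eq_some (P := Ev b lo hi (if s then hi else lo) s q) (fun _ _ h h' => Ev.det h h')

theorem evalBox_false {b : ℕ → Box K Q} {lo hi : ℕ} {q : Q} {o : Out K Q} :
    evalBox b lo hi false q = some o ↔ Ev b lo hi lo false q o := by
  simpa using evalBox_eq_some (b := b) (lo := lo) (hi := hi) (s := false) (q := q) (o := o)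

theorem evalBox_true {b : ℕ → Box K Q} {lo hi : ℕ} {q : Q} {o : Out K Q} :
    evalBox b lo hi true q = some o ↔ Ev b lo hi hi true q o := by
  simpa using evalBox_eq_some (b := b) (lo := lo) (hi := hi) (s := true) (q := q) (o := o)

end Box

end Vale.Agent.P343
end
end

section

section

namespace Vale.Agent.P343
namespace Box

variable {K Q : Type}

/-- How a run continues in the middle after leaving the right part. -/
inductive Cont2 (f g : Box K Q) : Out K Q → Out K Q → Prop
  | stop {k : K} : Cont2 f g (Out.stop k) (Out.stop k)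
  | rgt {q : Q} : Cont2 f g (Out.rgt q) (Out.rgt q)
  | lft {q : Q} {o : Out K Q} : Mid f g true q o → Cont2 f g (Out.lft q) o

/-- How a run continues in the middle after leaving the left part. -/
inductive Cont1 (f g : Box K Q) : Out K Q → Out K Q → Prop
  | stop {k : K} : Cont1 f g (Out.stop k) (Out.stop k)
  | lft {q : Q} : Cont1 f g (Out.lft q) (Out.lft q)
  | rgt {q : Q} {o : Out K Q} : Mid f g false q o → Cont1 f g (Out.rgt q) o

theorem mid_of_cont2 {f g : Box K Q} {q : Q} {o1 o : Out K Q} (h1 : g false q = some o1)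
    (h2 : Cont2 f g o1 o) : Mid f g false q o := by
  cases h2 with
  | stop => exact Mid.stopR h1
  | rgt => exact Mid.outR h1
  | lft h => exact Mid.backR h1 h

theorem mid_of_cont1 {f g : Box K Q} {q : Q} {o1 o : Out K Q} (h1 : f true q = some o1)
    (h2 : Cont1 f g o1 o) : Mid f g true q o := by
  cases h2 with
  | stop => exact Mid.stopL h1
  | lft => exact Mid.outL h1
  | rgt h => exact Mid.backL h1 h

theorem split_aux {b : ℕ → Box K Q} {lo mid hi : ℕ} (hlm : lo ≤ mid) (hmh : mid ≤ hi)
    {i : ℕ} {d : Bool} {q : Q} {o : Out K Q} (h : Ev b lo hi i d q o) :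
    (mid ≤ i → (i = mid → d = false) → ∃ o1, Ev b mid hi i d q o1 ∧
      Cont2 (evalBox b lo mid) (evalBox b mid hi) o1 o) ∧
    (i ≤ mid → (i = mid → d = true) → ∃ o1, Ev b lo mid i d q o1 ∧
      Cont1 (evalBox b lo mid) (evalBox b mid hi) o1 o) := by
  induction h with
  | exitR h1 =>
    refine ⟨fun _ _ => ⟨_, Ev.exitR h1, Cont2.rgt⟩, fun h2 h3 => ?_⟩
    have := h3 (by omega)
    simp at this
  | exitL h1 =>
    refine ⟨fun h2 h3 => ?_, fun _ _ => ⟨_, Ev.exitL h1, Cont1.lft⟩⟩
    have := h3 (by omega)
    simp at this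
  | @stopR i q k h1 h2 =>
    refine ⟨fun _ _ => ⟨_, Ev.stopR h1 h2, Cont2.stop⟩, fun h3 h4 => ?_⟩
    have : i ≠ mid := fun h => by simpa using h4 h
    exact ⟨_, Ev.stopR (by omega) h2, Cont1.stop⟩
  | @rr i q q' o h1 h2 _ ih =>
    refine ⟨fun h3 _ => ?_, fun h3 h4 => ?_⟩
    · obtain ⟨o1, h5, h6⟩ := ih.1 (by omega) (fun _ => rfl)
      exact ⟨o1, Ev.rr h1 h2 h5, h6⟩
    · have h5 : i ≠ mid := fun h => by simpa using h4 h
      by_cases h6 : i + 1 = mid
      · obtain ⟨o1, h7, h8⟩ := ih.1 (by omega) (fun _ => rfl)
        rw [h6] at h7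
        exact ⟨_, Ev.rr (by omega) h2 (Ev.exitR h6),
          Cont1.rgt (mid_of_cont2 (evalBox_false.2 h7) h8)⟩
      · obtain ⟨o1, h7, h8⟩ := ih.2 (by omega) (fun h => absurd h h6)
        exact ⟨o1, Ev.rr (by omega) h2 h7, h8⟩
  | @rl i q q' o h1 h2 _ ih =>
    refine ⟨fun h3 _ => ?_, fun h3 h4 => ?_⟩
    · by_cases h6 : i = mid
      · obtain ⟨o1, h7, h8⟩ := ih.2 (by omega) (fun _ => rfl)
        rw [h6] at h7
        exact ⟨_, Ev.rl h1 h2 (Ev.exitL h6),
          Cont2.lft (mid_of_cont1 (evalBox_true.2 h7) h8)⟩
      · obtain ⟨o1, h7, h8⟩ := ih.1 (by omega) (fun h => absurd h h6)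
        exact ⟨o1, Ev.rl h1 h2 h7, h8⟩
    · have h5 : i ≠ mid := fun h => by simpa using h4 h
      obtain ⟨o1, h7, h8⟩ := ih.2 (by omega) (fun _ => rfl)
      exact ⟨o1, Ev.rl (by omega) h2 h7, h8⟩
  | @stopL i j q k hj h1 h2 =>
    refine ⟨fun h3 h4 => ?_, fun h3 h4 => ⟨_, Ev.stopL hj h1 h2, Cont1.stop⟩⟩
    have : j ≠ mid := fun h => by simpa using h4 h
    exact ⟨_, Ev.stopL hj (by omega) h2, Cont2.stop⟩
  | @ll i j q q' o hj h1 h2 _ ih =>
    refine ⟨fun h3 h4 => ?_, fun h3 h4 => ?_⟩
    · have h5 : j ≠ mid := fun h => by simpa using h4 h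
      by_cases h6 : i = mid
      · obtain ⟨o1, h7, h8⟩ := ih.2 (by omega) (fun _ => rfl)
        rw [h6] at h7
        exact ⟨_, Ev.ll hj (by omega) h2 (Ev.exitL h6),
          Cont2.lft (mid_of_cont1 (evalBox_true.2 h7) h8)⟩
      · obtain ⟨o1, h7, h8⟩ := ih.1 (by omega) (fun h => absurd h h6)
        exact ⟨o1, Ev.ll hj (by omega) h2 h7, h8⟩
    · obtain ⟨o1, h7, h8⟩ := ih.2 (by omega) (fun _ => rfl)
      exact ⟨o1, Ev.ll hj (by omega) h2 h7, h8⟩
  | @lr i j q q' o hj h1 h2 _ ih =>
    refine ⟨fun h3 h4 => ?_, fun h3 h4 => ?_⟩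
    · have h5 : j ≠ mid := fun h => by simpa using h4 h
      obtain ⟨o1, h7, h8⟩ := ih.1 (by omega) (fun _ => rfl)
      exact ⟨o1, Ev.lr hj (by omega) h2 h7, h8⟩
    · by_cases h6 : j = mid
      · obtain ⟨o1, h7, h8⟩ := ih.1 (by omega) (fun _ => rfl)
        rw [h6] at h7
        exact ⟨_, Ev.lr hj (by omega) h2 (Ev.exitR h6),
          Cont1.rgt (mid_of_cont2 (evalBox_false.2 h7) h8)⟩
      · obtain ⟨o1, h7, h8⟩ := ih.2 (by omega) (fun h => absurd h h6)
        exact ⟨o1, Ev.lr hj (by omega) h2 h7, h8⟩

/-- Extending a run inside the right part. -/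
theorem extend2 {b : ℕ → Box K Q} {lo mid hi : ℕ} (hlm : lo ≤ mid)
    {i : ℕ} {d : Bool} {q : Q} {o1 : Out K Q} (h : Ev b mid hi i d q o1) :
    ∀ o, (∀ k, o1 = Out.stop k → o = Out.stop k) → (∀ q', o1 = Out.rgt q' → o = Out.rgt q') →
      (∀ q', o1 = Out.lft q' → Ev b lo hi mid true q' o) → Ev b lo hi i d q o := by
  induction h with
  | exitR h1 => intro o _ h3 _; rw [h3 _ rfl]; exact Ev.exitR h1
  | exitL h1 => intro o _ _ h4; subst h1; exact h4 _ rfl
  | stopR h1 h2 => intro o h3 _ _; rw [h3 _ rfl]; exact Ev.stopR h1 h2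
  | rr h1 h2 _ ih => intro o h3 h4 h5; exact Ev.rr h1 h2 (ih o h3 h4 h5)
  | rl h1 h2 _ ih => intro o h3 h4 h5; exact Ev.rl h1 h2 (ih o h3 h4 h5)
  | stopL hj h1 h2 => intro o h3 _ _; rw [h3 _ rfl]; exact Ev.stopL hj (by omega) h2
  | ll hj h1 h2 _ ih => intro o h3 h4 h5; exact Ev.ll hj (by omega) h2 (ih o h3 h4 h5)
  | lr hj h1 h2 _ ih => intro o h3 h4 h5; exact Ev.lr hj (by omega) h2 (ih o h3 h4 h5)

/-- Extending a run inside the left part. -/
theorem extend1 {b : ℕ → Box K Q} {lo mid hi : ℕ} (hmh : mid ≤ hi)
    {i : ℕ} {d : Bool} {q : Q} {o1 : Out K Q} (h : Ev b lo mid i d q o1) :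
    ∀ o, (∀ k, o1 = Out.stop k → o = Out.stop k) → (∀ q', o1 = Out.lft q' → o = Out.lft q') →
      (∀ q', o1 = Out.rgt q' → Ev b lo hi mid false q' o) → Ev b lo hi i d q o := by
  induction h with
  | exitR h1 => intro o _ _ h4; subst h1; exact h4 _ rfl
  | exitL h1 => intro o _ h3 _; rw [h3 _ rfl]; exact Ev.exitL h1
  | stopR h1 h2 => intro o h3 _ _; rw [h3 _ rfl]; exact Ev.stopR (by omega) h2
  | rr h1 h2 _ ih => intro o h3 h4 h5; exact Ev.rr (by omega) h2 (ih o h3 h4 h5)
  | rl h1 h2 _ ih => intro o h3 h4 h5; exact Ev.rl (by omega) h2 (ih o h3 h4 h5)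
  | stopL hj h1 h2 => intro o h3 _ _; rw [h3 _ rfl]; exact Ev.stopL hj h1 h2
  | ll hj h1 h2 _ ih => intro o h3 h4 h5; exact Ev.ll hj h1 h2 (ih o h3 h4 h5)
  | lr hj h1 h2 _ ih => intro o h3 h4 h5; exact Ev.lr hj h1 h2 (ih o h3 h4 h5)

theorem mid_to_ev {b : ℕ → Box K Q} {lo mid hi : ℕ} (hlm : lo ≤ mid) (hmh : mid ≤ hi)
    {d : Bool} {q : Q} {o : Out K Q} (h : Mid (evalBox b lo mid) (evalBox b mid hi) d q o) :
    Ev b lo hi mid d q o := by
  induction h with
  | stopR h1 =>
    exact extend2 hlm (evalBox_false.1 h1) _ (by simp) (by simp) (by simp)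
  | outR h1 =>
    exact extend2 hlm (evalBox_false.1 h1) _ (by simp) (by simp) (by simp)
  | backR h1 _ ih =>
    refine extend2 hlm (evalBox_false.1 h1) _ (by simp) (by simp) ?_
    intro q' h; simp only [Out.lft.injEq] at h; subst h; exact ih
  | stopL h1 =>
    exact extend1 hmh (evalBox_true.1 h1) _ (by simp) (by simp) (by simp)
  | outL h1 =>
    exact extend1 hmh (evalBox_true.1 h1) _ (by simp) (by simp) (by simp)
  | backL h1 _ ih =>
    refine extend1 hmh (evalBox_true.1 h1) _ (by simp) (by simp) ?_
    intro q' h; simp only [Out.rgt.injEq] at h; subst h; exact ih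

/-- A segment can be cut in two. -/
theorem evalBox_split (b : ℕ → Box K Q) {lo mid hi : ℕ} (hlm : lo ≤ mid) (hmh : mid ≤ hi) :
    evalBox b lo hi = evalBox b lo mid * evalBox b mid hi := by
  apply ext_some
  intro s q o
  rw [mul_eq_some]
  cases s with
  | false =>
    rw [evalBox_false]
    constructor
    · intro h
      have key : ∃ o1, Ev b lo mid lo false q o1 ∧
          Cont1 (evalBox b lo mid) (evalBox b mid hi) o1 o := by
        by_cases h1 : lo = mid
        · obtain ⟨o1, h2, h3⟩ := (split_aux hlm hmh h).1 (by omega) (fun _ => rfl)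
          refine ⟨_, Ev.exitR h1, Cont1.rgt (mid_of_cont2 (evalBox_false.2 ?_) h3)⟩
          rw [← h1]; rw [← h1] at h2; exact h2
        · exact (split_aux hlm hmh h).2 hlm (fun h2 => absurd h2 h1)
      obtain ⟨o1, h2, h3⟩ := key
      cases h3 with
      | stop => exact Comp.stopR (evalBox_false.2 h2)
      | lft => exact Comp.lftR (evalBox_false.2 h2)
      | rgt h4 => exact Comp.midR (evalBox_false.2 h2) h4
    · intro h
      cases h with
      | stopR h1 => exact extend1 hmh (evalBox_false.1 h1) _ (by simp) (by simp) (by simp)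
      | lftR h1 => exact extend1 hmh (evalBox_false.1 h1) _ (by simp) (by simp) (by simp)
      | midR h1 h2 =>
        refine extend1 hmh (evalBox_false.1 h1) _ (by simp) (by simp) ?_
        intro q' h; simp only [Out.rgt.injEq] at h; subst h; exact mid_to_ev hlm hmh h2
  | true =>
    rw [evalBox_true]
    constructor
    · intro h
      have key : ∃ o1, Ev b mid hi hi true q o1 ∧
          Cont2 (evalBox b lo mid) (evalBox b mid hi) o1 o := by
        by_cases h1 : hi = mid
        · obtain ⟨o1, h2, h3⟩ := (split_aux hlm hmh h).2 (by omega) (fun _ => rfl)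
          refine ⟨_, Ev.exitL h1, Cont2.lft (mid_of_cont1 (evalBox_true.2 ?_) h3)⟩
          rw [← h1]; rw [← h1] at h2; exact h2
        · exact (split_aux hlm hmh h).1 hmh (fun h2 => absurd h2 h1)
      obtain ⟨o1, h2, h3⟩ := key
      cases h3 with
      | stop => exact Comp.stopL (evalBox_true.2 h2)
      | rgt => exact Comp.rgtL (evalBox_true.2 h2)
      | lft h4 => exact Comp.midL (evalBox_true.2 h2) h4
    · intro h
      cases h with
      | stopL h1 => exact extend2 hlm (evalBox_true.1 h1) _ (by simp) (by simp) (by simp)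
      | rgtL h1 => exact extend2 hlm (evalBox_true.1 h1) _ (by simp) (by simp) (by simp)
      | midL h1 h2 =>
        refine extend2 hlm (evalBox_true.1 h1) _ (by simp) (by simp) ?_
        intro q' h; simp only [Out.lft.injEq] at h; subst h; exact mid_to_ev hlm hmh h2

theorem evalBox_self (b : ℕ → Box K Q) (n : ℕ) : evalBox b n n = 1 := by
  apply ext_some
  intro s q o
  cases s with
  | false =>
    rw [evalBox_false, one_false]
    constructor
    · intro h
      cases h with
      | exitR _ => rfl
      | stopR h1 _ => omega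
      | rr h1 _ _ => omega
      | rl h1 _ _ => omega
    · intro h
      simp only [Option.some.injEq] at h
      subst h
      exact Ev.exitR rfl
  | true =>
    rw [evalBox_true, one_true]
    constructor
    · intro h
      cases h with
      | exitL _ => rfl
      | stopL _ h1 _ => omega
      | ll _ h1 _ _ => omega
      | lr _ h1 _ _ => omega
    · intro h
      simp only [Option.some.injEq] at h
      subst h
      exact Ev.exitL rfl

theorem evalBox_single (b : ℕ → Box K Q) (n : ℕ) : evalBox b n (n + 1) = b n := by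
  apply ext_some
  intro s q o
  cases s with
  | false =>
    rw [evalBox_false]
    constructor
    · intro h
      cases h with
      | exitR h1 => omega
      | stopR _ h2 => exact h2
      | rr _ h2 h3 =>
        cases h3 with
        | exitR _ => exact h2
        | stopR h1 _ => omega
        | rr h1 _ _ => omega
        | rl h1 _ _ => omega
      | rl _ h2 h3 =>
        cases h3 with
        | exitL _ => exact h2
        | stopL _ h1 _ => omega
        | ll _ h1 _ _ => omega
        | lr _ h1 _ _ => omega
    · intro h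
      cases o with
      | stop k => exact Ev.stopR (by omega) h
      | lft q' => exact Ev.rl (by omega) h (Ev.exitL rfl)
      | rgt q' => exact Ev.rr (by omega) h (Ev.exitR rfl)
  | true =>
    rw [evalBox_true]
    constructor
    · intro h
      cases h with
      | exitL h1 => omega
      | @stopL i _ _ _ hj _ h2 =>
        have : i = n := by omega
        subst this; exact h2
      | @ll i _ _ _ _ hj _ h2 h3 =>
        have : i = n := by omega
        subst this
        cases h3 with
        | exitL _ => exact h2
        | stopL _ h1 _ => omega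
        | ll _ h1 _ _ => omega
        | lr _ h1 _ _ => omega
      | @lr i _ _ _ _ hj _ h2 h3 =>
        have : i = n := by omega
        subst this
        cases h3 with
        | exitR _ => exact h2
        | stopR h1 _ => omega
        | rr h1 _ _ => omega
        | rl h1 _ _ => omega
    · intro h
      cases o with
      | stop k => exact Ev.stopL rfl (by omega) h
      | lft q' => exact Ev.ll rfl (by omega) h (Ev.exitL rfl)
      | rgt q' => exact Ev.lr rfl (by omega) h (Ev.exitR rfl)

theorem mul_assoc' (f g h : Box K Q) : f * g * h = f * (g * h) := by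
  let b : ℕ → Box K Q := fun i => if i = 0 then f else if i = 1 then g else h
  have e0 : evalBox b 0 1 = f := evalBox_single b 0
  have e1 : evalBox b 1 2 = g := evalBox_single b 1
  have e2 : evalBox b 2 3 = h := evalBox_single b 2
  have h1 : evalBox b 0 3 = f * g * h := by
    rw [evalBox_split b (mid := 2) (by omega) (by omega),
      evalBox_split b (lo := 0) (mid := 1) (hi := 2) (by omega) (by omega), e0, e1, e2]
  have h2 : evalBox b 0 3 = f * (g * h) := by
    rw [evalBox_split b (mid := 1) (by omega) (by omega),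
      evalBox_split b (lo := 1) (mid := 2) (hi := 3) (by omega) (by omega), e0, e1, e2]
  rw [← h1, h2]

theorem one_mul' (f : Box K Q) : 1 * f = f := by
  let b : ℕ → Box K Q := fun _ => f
  have e0 : evalBox b 0 1 = f := evalBox_single b 0
  have := evalBox_split b (lo := 0) (mid := 0) (hi := 1) (by omega) (by omega)
  rw [evalBox_self, e0] at this
  exact this.symm

theorem mul_one' (f : Box K Q) : f * 1 = f := by
  let b : ℕ → Box K Q := fun _ => f
  have e0 : evalBox b 0 1 = f := evalBox_single b 0
  have := evalBox_split b (lo := 0) (mid := 1) (hi := 1) (by omega) (by omega)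
  rw [evalBox_self, e0] at this
  exact this.symm

noncomputable instance : Monoid (Box K Q) where
  mul_assoc := mul_assoc'
  one_mul := one_mul'
  mul_one := mul_one'

end Box
end Vale.Agent.P343
end
end

section

section

namespace Vale.Agent.P343
namespace Box

variable {K Q : Type}

/-! ### Mirror images -/

def Out.swap : Out K Q → Out K Q
  | Out.stop k => Out.stop k
  | Out.lft q => Out.rgt q
  | Out.rgt q => Out.lft q

theorem Out.swap_swap (o : Out K Q) : Out.swap (Out.swap o) = o := by
  cases o <;> rfl

def mirror (f : Box K Q) : Box K Q := fun s q => (f (!s) q).map Out.swap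

theorem mirror_eq_some {f : Box K Q} {s : Bool} {q : Q} {o : Out K Q} :
    mirror f s q = some o ↔ f (!s) q = some (Out.swap o) := by
  unfold mirror
  rw [Option.map_eq_some_iff]
  constructor
  · rintro ⟨a, h1, h2⟩
    rw [h1, ← h2, Out.swap_swap]
  · intro h
    exact ⟨_, h, Out.swap_swap o⟩

theorem mirror_mirror (f : Box K Q) : mirror (mirror f) = f := by
  apply ext_some
  intro s q o
  rw [mirror_eq_some, mirror_eq_some, Out.swap_swap, Bool.not_not]

theorem mirror_mid {f g : Box K Q} {d : Bool} {q : Q} {o : Out K Q} (h : Mid f g d q o) :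
    Mid (mirror g) (mirror f) (!d) q (Out.swap o) := by
  induction h with
  | stopR h1 => exact Mid.stopL (mirror_eq_some.2 (by simpa [Out.swap] using h1))
  | outR h1 => exact Mid.outL (mirror_eq_some.2 (by simpa [Out.swap] using h1))
  | backR h1 _ ih => exact Mid.backL (mirror_eq_some.2 (by simpa [Out.swap] using h1)) ih
  | stopL h1 => exact Mid.stopR (mirror_eq_some.2 (by simpa [Out.swap] using h1))
  | outL h1 => exact Mid.outR (mirror_eq_some.2 (by simpa [Out.swap] using h1))
  | backL h1 _ ih => exact Mid.backR (mirror_eq_some.2 (by simpa [Out.swap] using h1)) ih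

theorem mirror_comp {f g : Box K Q} {d : Bool} {q : Q} {o : Out K Q} (h : Comp f g d q o) :
    Comp (mirror g) (mirror f) (!d) q (Out.swap o) := by
  cases h with
  | stopR h1 => exact Comp.stopL (mirror_eq_some.2 (by simpa [Out.swap] using h1))
  | lftR h1 => exact Comp.rgtL (mirror_eq_some.2 (by simpa [Out.swap] using h1))
  | midR h1 h2 => exact Comp.midL (mirror_eq_some.2 (by simpa [Out.swap] using h1)) (mirror_mid h2)
  | stopL h1 => exact Comp.stopR (mirror_eq_some.2 (by simpa [Out.swap] using h1))
  | rgtL h1 => exact Comp.lftR (mirror_eq_some.2 (by simpa [Out.swap] using h1))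
  | midL h1 h2 => exact Comp.midR (mirror_eq_some.2 (by simpa [Out.swap] using h1)) (mirror_mid h2)

theorem mirror_mul (f g : Box K Q) : mirror (f * g) = mirror g * mirror f := by
  apply ext_some
  intro s q o
  rw [mirror_eq_some, mul_eq_some, mul_eq_some]
  constructor
  · intro h
    have := mirror_comp h
    rwa [Bool.not_not, Out.swap_swap] at this
  · intro h
    have := mirror_comp h
    rwa [mirror_mirror, mirror_mirror] at this

/-! ### Images and rank -/

variable [Fintype Q]

open Classical in
/-- States in which the box can be left to the right after being entered from the left. -/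
noncomputable def imR (f : Box K Q) : Finset Q :=
  Finset.univ.filter (fun q' => ∃ q, f false q = some (Out.rgt q'))

open Classical in
/-- States in which the box can be left to the left after being entered from the right. -/
noncomputable def imL (f : Box K Q) : Finset Q :=
  Finset.univ.filter (fun q' => ∃ q, f true q = some (Out.lft q'))

theorem mem_imR {f : Box K Q} {q' : Q} : q' ∈ imR f ↔ ∃ q, f false q = some (Out.rgt q') := by
  simp only [imR, Finset.mem_filter, Finset.mem_univ, true_and]

theorem mem_imL {f : Box K Q} {q' : Q} : q' ∈ imL f ↔ ∃ q, f true q = some (Out.lft q') := by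
  simp only [imL, Finset.mem_filter, Finset.mem_univ, true_and]

theorem imL_mirror (f : Box K Q) : imL (mirror f) = imR f := by
  ext q'
  rw [mem_imL, mem_imR]
  constructor
  · rintro ⟨q, h⟩
    exact ⟨q, by simpa [Out.swap] using mirror_eq_some.1 h⟩
  · rintro ⟨q, h⟩
    exact ⟨q, mirror_eq_some.2 (by simpa [Out.swap] using h)⟩

theorem imR_mirror (f : Box K Q) : imR (mirror f) = imL f := by
  rw [← imL_mirror, mirror_mirror]

noncomputable def rank (f : Box K Q) : ℕ := (imR f).card + (imL f).card

theorem rank_le (f : Box K Q) : rank f ≤ 2 * Fintype.card Q := by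
  unfold rank
  have h1 : (imR f).card ≤ Fintype.card Q := Finset.card_le_univ _
  have h2 : (imL f).card ≤ Fintype.card Q := Finset.card_le_univ _
  omega

theorem mid_rgt_mem {f g : Box K Q} {d : Bool} {q : Q} {o : Out K Q} (h : Mid f g d q o) :
    ∀ q', o = Out.rgt q' → q' ∈ imR g := by
  induction h with
  | stopR _ => intro q' h; simp at h
  | @outR q q1 h1 => intro q' h; simp only [Out.rgt.injEq] at h; subst h; exact mem_imR.2 ⟨_, h1⟩
  | backR _ _ ih => exact ih
  | stopL _ => intro q' h; simp at h
  | outL _ => intro q' h; simp at h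
  | backL _ _ ih => exact ih

theorem imR_mul_subset (f g : Box K Q) : imR (f * g) ⊆ imR g := by
  intro q' h
  obtain ⟨q, h1⟩ := mem_imR.1 h
  rw [mul_eq_some] at h1
  cases h1 with
  | midR _ h2 => exact mid_rgt_mem h2 _ rfl

theorem card_imR_mul_le (f g : Box K Q) : (imR (f * g)).card ≤ (imR f).card := by
  classical
  have h : ∀ q' ∈ imR (f * g), ∃ a ∈ imR f, Mid f g false a (Out.rgt q') := by
    intro q' h
    obtain ⟨q, h1⟩ := mem_imR.1 h
    rw [mul_eq_some] at h1
    cases h1 with
    | midR h2 h3 => exact ⟨_, mem_imR.2 ⟨_, h2⟩, h3⟩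
  choose! φ h1 h2 using h
  refine Finset.card_le_card_of_injOn φ h1 ?_
  intro x hx y hy hxy
  have h3 := h2 x hx
  have h4 := h2 y hy
  rw [hxy] at h3
  have := h3.det h4
  simpa using this

theorem imL_mul_subset (f g : Box K Q) : imL (f * g) ⊆ imL f := by
  rw [← imR_mirror, mirror_mul, ← imR_mirror]
  exact imR_mul_subset _ _

theorem card_imL_mul_le (f g : Box K Q) : (imL (f * g)).card ≤ (imL g).card := by
  rw [← imR_mirror, mirror_mul, ← imR_mirror]
  exact card_imR_mul_le _ _

theorem rank_mul_le_left (f g : Box K Q) : rank (f * g) ≤ rank f := by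
  unfold rank
  have h1 := card_imR_mul_le f g
  have h2 := Finset.card_le_card (imL_mul_subset f g)
  omega

theorem rank_mul_le_right (f g : Box K Q) : rank (f * g) ≤ rank g := by
  unfold rank
  have h1 := card_imL_mul_le f g
  have h2 := Finset.card_le_card (imR_mul_subset f g)
  omega

/-! ### Splitting an idempotent -/

open Classical in
noncomputable def splitU (e : Box K Q) : Box K Q := fun s q =>
  if s then (if q ∈ imL e then some (Out.lft q) else none) else e false q

open Classical in
noncomputable def splitV (e : Box K Q) : Box K Q := fun s q =>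
  if s then e true q else (if q ∈ imR e then some (Out.rgt q) else none)

theorem splitU_false (e : Box K Q) (q : Q) : splitU e false q = e false q := rfl

theorem splitU_true {e : Box K Q} {q : Q} {o : Out K Q} :
    splitU e true q = some o ↔ q ∈ imL e ∧ o = Out.lft q := by
  classical
  unfold splitU
  by_cases h : q ∈ imL e
  · simp only [if_true, Option.some.injEq, h, true_and]
    exact eq_comm
  · simp [h]

theorem splitV_true (e : Box K Q) (q : Q) : splitV e true q = e true q := rfl

theorem splitV_false {e : Box K Q} {q : Q} {o : Out K Q} :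
    splitV e false q = some o ↔ q ∈ imR e ∧ o = Out.rgt q := by
  classical
  unfold splitV
  by_cases h : q ∈ imR e
  · simp only [Bool.false_eq_true, if_false, h, true_and, if_true, Option.some.injEq]
    exact eq_comm
  · simp [h]

theorem split_mul (e : Box K Q) : splitU e * splitV e = e := by
  apply ext_some
  intro s q o
  rw [mul_eq_some]
  cases s with
  | false =>
    constructor
    · intro h
      cases h with
      | stopR h1 => exact h1
      | lftR h1 => exact h1
      | @midR _ a _ h1 h2 =>
        rw [splitU_false] at h1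
        cases h2 with
        | stopR h3 => simp [splitV_false] at h3
        | outR h3 =>
          rw [splitV_false] at h3
          have := h3.2
          simp only [Out.rgt.injEq] at this
          rw [this]; exact h1
        | backR h3 _ => simp [splitV_false] at h3
    · intro h
      cases o with
      | stop k => exact Comp.stopR h
      | lft q' => exact Comp.lftR h
      | rgt q' =>
        exact Comp.midR (q' := q') h (Mid.outR (splitV_false.2 ⟨mem_imR.2 ⟨_, h⟩, rfl⟩))
  | true =>
    constructor
    · intro h
      cases h with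
      | stopL h1 => exact h1
      | rgtL h1 => exact h1
      | @midL _ a _ h1 h2 =>
        rw [splitV_true] at h1
        cases h2 with
        | stopL h3 => simp [splitU_true] at h3
        | outL h3 =>
          rw [splitU_true] at h3
          have := h3.2
          simp only [Out.lft.injEq] at this
          rw [this]; exact h1
        | backL h3 _ => simp [splitU_true] at h3
    · intro h
      cases o with
      | stop k => exact Comp.stopL h
      | rgt q' => exact Comp.rgtL h
      | lft q' =>
        exact Comp.midL (q' := q') h (Mid.outL (splitU_true.2 ⟨mem_imL.2 ⟨_, h⟩, rfl⟩))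

/-- The local identity at the idempotent `e`. -/
noncomputable def loc (e : Box K Q) : Box K Q := splitV e * splitU e

theorem mid_split {e : Box K Q} {d : Bool} {q : Q} {o : Out K Q} :
    Mid (splitV e) (splitU e) d q o ↔ Mid e e d q o := by
  constructor
  · intro h
    induction h with
    | stopR h1 => exact Mid.stopR h1
    | outR h1 => exact Mid.outR h1
    | backR h1 _ ih => exact Mid.backR h1 ih
    | stopL h1 => exact Mid.stopL h1
    | outL h1 => exact Mid.outL h1
    | backL h1 _ ih => exact Mid.backL h1 ih
  · intro h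
    induction h with
    | stopR h1 => exact Mid.stopR h1
    | outR h1 => exact Mid.outR h1
    | backR h1 _ ih => exact Mid.backR h1 ih
    | stopL h1 => exact Mid.stopL h1
    | outL h1 => exact Mid.outL h1
    | backL h1 _ ih => exact Mid.backL h1 ih

theorem loc_false {e : Box K Q} (he : e * e = e) {q : Q} {o : Out K Q} :
    loc e false q = some o ↔ q ∈ imR e ∧ o = Out.rgt q := by
  unfold loc
  rw [mul_eq_some]
  have key : ∀ a ∈ imR e, Mid e e false a (Out.rgt a) := by
    intro a ha
    obtain ⟨p, hp⟩ := mem_imR.1 ha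
    have h1 : (e * e) false p = some (Out.rgt a) := by rw [he]; exact hp
    rw [mul_eq_some] at h1
    cases h1 with
    | @midR _ a' _ h2 h3 =>
      rw [hp] at h2
      simp only [Option.some.injEq, Out.rgt.injEq] at h2
      rw [← h2] at h3
      exact h3
  constructor
  · intro h
    cases h with
    | stopR h1 => simp [splitV_false] at h1
    | lftR h1 => simp [splitV_false] at h1
    | @midR _ a _ h1 h2 =>
      rw [splitV_false] at h1
      obtain ⟨h3, h4⟩ := h1
      simp only [Out.rgt.injEq] at h4
      subst h4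
      exact ⟨h3, (mid_split.1 h2).det (key _ h3)⟩
  · rintro ⟨h1, rfl⟩
    exact Comp.midR (splitV_false.2 ⟨h1, rfl⟩) (mid_split.2 (key _ h1))

theorem loc_true {e : Box K Q} (he : e * e = e) {q : Q} {o : Out K Q} :
    loc e true q = some o ↔ q ∈ imL e ∧ o = Out.lft q := by
  unfold loc
  rw [mul_eq_some]
  have key : ∀ a ∈ imL e, Mid e e true a (Out.lft a) := by
    intro a ha
    obtain ⟨p, hp⟩ := mem_imL.1 ha
    have h1 : (e * e) true p = some (Out.lft a) := by rw [he]; exact hp
    rw [mul_eq_some] at h1
    cases h1 with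
    | @midL _ a' _ h2 h3 =>
      rw [hp] at h2
      simp only [Option.some.injEq, Out.lft.injEq] at h2
      rw [← h2] at h3
      exact h3
  constructor
  · intro h
    cases h with
    | stopL h1 => simp [splitU_true] at h1
    | rgtL h1 => simp [splitU_true] at h1
    | @midL _ a _ h1 h2 =>
      rw [splitU_true] at h1
      obtain ⟨h3, h4⟩ := h1
      simp only [Out.lft.injEq] at h4
      subst h4
      exact ⟨h3, (mid_split.1 h2).det (key _ h3)⟩
  · rintro ⟨h1, rfl⟩
    exact Comp.midL (splitU_true.2 ⟨h1, rfl⟩) (mid_split.2 (key _ h1))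

/-! ### The port lemma -/

open Classical in
/-- One-sided port lemma: `z` is an idempotent of the local monoid with identity `i`
(`i` is the partial identity on `A`, `B`). -/
theorem ports_false_aux {z i : Box K Q} {A B : Finset Q}
    (hiR : ∀ q o, i false q = some o ↔ q ∈ A ∧ o = Out.rgt q)
    (hiL : ∀ q o, i true q = some o ↔ q ∈ B ∧ o = Out.lft q)
    (h1 : i * z = z) (h2 : z * i = z) (hz : z * z = z) :
    (Finset.univ.filter (fun q => z false q ≠ i false q)).card + (imR z).card + (imL z).card
      ≤ A.card + B.card := by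
  -- the image of `z` is inside `A`
  have hA : imR z ⊆ A := by
    intro q' hq'
    rw [← h2] at hq'
    have := imR_mul_subset _ _ hq'
    obtain ⟨q, hq⟩ := mem_imR.1 this
    rw [hiR] at hq
    have h3 := hq.2
    simp only [Out.rgt.injEq] at h3
    rw [h3]; exact hq.1
  -- states outside `A` are undefined for `z`
  have hout : ∀ q, q ∉ A → z false q = none := by
    intro q hq
    by_contra hne
    obtain ⟨o, ho⟩ := Option.ne_none_iff_exists'.1 hne
    rw [← h1, mul_eq_some] at ho
    cases ho with
    | stopR h3 => rw [hiR] at h3; exact hq h3.1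
    | lftR h3 => rw [hiR] at h3; exact hq h3.1
    | midR h3 _ => rw [hiR] at h3; exact hq h3.1
  have hiout : ∀ q, q ∉ A → i false q = none := by
    intro q hq
    by_contra hne
    obtain ⟨o, ho⟩ := Option.ne_none_iff_exists'.1 hne
    rw [hiR] at ho
    exact hq ho.1
  -- left exits of `z` from the left are in `B`
  have hlB : ∀ q b, z false q = some (Out.lft b) → b ∈ B := by
    intro q b hb
    rw [← h1, mul_eq_some] at hb
    cases hb with
    | lftR h3 => rw [hiR] at h3; simp at h3
    | midR h3 h4 =>
      have : ∀ {d : Bool} {q : Q} {o : Out K Q}, Mid i z d q o → ∀ b, o = Out.lft b → b ∈ B := by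
        intro d q o h
        induction h with
        | stopR _ => intro b h; simp at h
        | outR _ => intro b h; simp at h
        | backR _ _ ih => exact ih
        | stopL _ => intro b h; simp at h
        | outL h5 =>
          intro b h
          rw [hiL] at h5
          have h6 := h5.2
          simp only [Out.lft.injEq] at h h6
          rw [← h, h6]; exact h5.1
        | backL _ _ ih => exact ih
      exact this h4 b rfl
  -- domain of the crossing from right to left
  set dom : Finset Q := Finset.univ.filter (fun b => ∃ q', z true b = some (Out.lft q')) with hdom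
  have hdomB : dom ⊆ B := by
    intro b hb
    rw [hdom, Finset.mem_filter] at hb
    obtain ⟨_, q', hq'⟩ := hb
    rw [← h2, mul_eq_some] at hq'
    cases hq' with
    | midL h3 _ => rw [hiL] at h3; exact h3.1
  have hcard_dom : (imL z).card ≤ dom.card := by
    have : ∀ q' ∈ imL z, ∃ b ∈ dom, z true b = some (Out.lft q') := by
      intro q' h
      obtain ⟨q, h3⟩ := mem_imL.1 h
      exact ⟨q, by rw [hdom, Finset.mem_filter]; exact ⟨Finset.mem_univ _, q', h3⟩, h3⟩
    choose! φ h3 h4 using this
    refine Finset.card_le_card_of_injOn φ h3 ?_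
    intro x hx y hy hxy
    have h5 := h4 x hx
    have h6 := h4 y hy
    rw [hxy, h6] at h5
    simpa using h5.symm
  -- the bad ports
  set S : Finset Q := Finset.univ.filter (fun q => z false q ≠ i false q) with hS
  have hSA : S ⊆ A := by
    intro q hq
    rw [hS, Finset.mem_filter] at hq
    by_contra hqA
    exact hq.2 ((hout q hqA).trans (hiout q hqA).symm)
  -- bad ports inside the image bounce to `B \ dom` injectively
  have hb : ∀ a ∈ S ∩ imR z, ∃ b ∈ B \ dom, Mid z z true b (Out.rgt a) := by
    intro a ha
    rw [Finset.mem_inter] at ha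
    obtain ⟨haS, haI⟩ := ha
    obtain ⟨p, hp⟩ := mem_imR.1 haI
    have h3 : (z * z) false p = some (Out.rgt a) := by rw [hz]; exact hp
    rw [mul_eq_some] at h3
    have hmid : Mid z z false a (Out.rgt a) := by
      cases h3 with
      | @midR _ a' _ h4 h5 =>
        rw [hp] at h4
        simp only [Option.some.injEq, Out.rgt.injEq] at h4
        rw [← h4] at h5
        exact h5
    cases hmid with
    | outR h4 =>
      exfalso
      rw [hS, Finset.mem_filter] at haS
      apply haS.2
      rw [h4, eq_comm, hiR]
      exact ⟨hA haI, rfl⟩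
    | @backR _ b _ h4 h5 =>
      refine ⟨b, ?_, h5⟩
      rw [Finset.mem_sdiff]
      refine ⟨hlB _ _ h4, ?_⟩
      intro hbd
      rw [hdom, Finset.mem_filter] at hbd
      obtain ⟨_, q', hq'⟩ := hbd
      cases h5 with
      | backL h6 _ => rw [hq'] at h6; simp at h6
  choose! φ h3 h4 using hb
  have hinj : (S ∩ imR z).card ≤ (B \ dom).card := by
    refine Finset.card_le_card_of_injOn φ h3 ?_
    intro x hx y hy hxy
    have h5 := h4 x hx
    have h6 := h4 y hy
    rw [hxy] at h5
    have := h5.det h6
    simpa using this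
  have hsd : (B \ dom).card = B.card - dom.card := Finset.card_sdiff_of_subset hdomB
  have hSsplit : S.card ≤ (S ∩ imR z).card + (A \ imR z).card := by
    have : S ⊆ (S ∩ imR z) ∪ (A \ imR z) := by
      intro q hq
      rw [Finset.mem_union, Finset.mem_inter, Finset.mem_sdiff]
      by_cases h : q ∈ imR z
      · exact Or.inl ⟨hq, h⟩
      · exact Or.inr ⟨hSA hq, h⟩
    exact (Finset.card_le_card this).trans (Finset.card_union_le _ _)
  have hAsd : (A \ imR z).card = A.card - (imR z).card := Finset.card_sdiff_of_subset hA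
  have h5 : (imR z).card ≤ A.card := Finset.card_le_card hA
  have h6 : dom.card ≤ B.card := Finset.card_le_card hdomB
  omega

open Classical in
/-- The ports at which two boxes differ. -/
noncomputable def ports (z i : Box K Q) : Finset (Bool × Q) :=
  Finset.univ.filter (fun p => z p.1 p.2 ≠ i p.1 p.2)

theorem mem_ports {z i : Box K Q} {p : Bool × Q} : p ∈ ports z i ↔ z p.1 p.2 ≠ i p.1 p.2 := by
  simp only [ports, ne_eq, Finset.mem_filter, Finset.mem_univ, true_and]

open Classical in
theorem card_ports_le {z i : Box K Q} {A B : Finset Q}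
    (hiR : ∀ q o, i false q = some o ↔ q ∈ A ∧ o = Out.rgt q)
    (hiL : ∀ q o, i true q = some o ↔ q ∈ B ∧ o = Out.lft q)
    (h1 : i * z = z) (h2 : z * i = z) (hz : z * z = z) :
    (ports z i).card + 2 * rank z ≤ 2 * (A.card + B.card) := by
  have e1 := ports_false_aux hiR hiL h1 h2 hz
  have e2 := ports_false_aux (z := mirror z) (i := mirror i) (A := B) (B := A)
    (by
      intro q o
      rw [mirror_eq_some, Bool.not_false, hiL]
      constructor
      · rintro ⟨ha, hb⟩
        refine ⟨ha, ?_⟩
        rw [← Out.swap_swap o, hb]; rfl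
      · rintro ⟨ha, hb⟩
        refine ⟨ha, ?_⟩
        rw [hb]; rfl)
    (by
      intro q o
      rw [mirror_eq_some, Bool.not_true, hiR]
      constructor
      · rintro ⟨ha, hb⟩
        refine ⟨ha, ?_⟩
        rw [← Out.swap_swap o, hb]; rfl
      · rintro ⟨ha, hb⟩
        refine ⟨ha, ?_⟩
        rw [hb]; rfl)
    (by rw [← mirror_mul, h2]) (by rw [← mirror_mul, h1]) (by rw [← mirror_mul, hz])
  rw [imR_mirror, imL_mirror] at e2
  have e3 : (Finset.univ.filter (fun q => mirror z false q ≠ mirror i false q)) =
      (Finset.univ.filter (fun q => z true q ≠ i true q)) := by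
    ext q
    simp only [Finset.mem_filter, Finset.mem_univ, true_and, mirror, Bool.not_false, ne_eq,
      not_iff_not]
    constructor
    · intro h
      have := congrArg (Option.map (Out.swap (K := K) (Q := Q))) h
      rw [Option.map_map, Option.map_map] at this
      have h5 : (Out.swap (K := K) (Q := Q)) ∘ Out.swap = id := by
        funext o; exact Out.swap_swap o
      rwa [h5, Option.map_id, id, id] at this
    · intro h; rw [h]
  rw [e3] at e2
  have e4 : (ports z i).card ≤ (Finset.univ.filter (fun q => z false q ≠ i false q)).card +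
      (Finset.univ.filter (fun q => z true q ≠ i true q)).card := by
    have : ports z i ⊆ (Finset.univ.filter (fun q => z false q ≠ i false q)).image
          (fun q => (false, q)) ∪
        (Finset.univ.filter (fun q => z true q ≠ i true q)).image (fun q => (true, q)) := by
      rintro ⟨s, q⟩ hp
      rw [mem_ports] at hp
      rw [Finset.mem_union, Finset.mem_image, Finset.mem_image]
      cases s with
      | false => exact Or.inl ⟨q, by simpa only [ne_eq, Finset.mem_filter, Finset.mem_univ, true_and] using hp, rfl⟩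
      | true => exact Or.inr ⟨q, by simpa using hp, rfl⟩
    refine (Finset.card_le_card this).trans ((Finset.card_union_le _ _).trans ?_)
    exact Nat.add_le_add Finset.card_image_le Finset.card_image_le
  unfold rank
  omega

/-- Passing to the local monoid at `e`. -/
noncomputable def toLoc (e z : Box K Q) : Box K Q := splitV e * z * splitU e

theorem toLoc_self (e : Box K Q) (he : e * e = e) : toLoc e e = loc e := by
  unfold toLoc loc
  calc splitV e * e * splitU e = splitV e * (splitU e * splitV e) * splitU e := by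
        rw [split_mul]
    _ = (splitV e * splitU e) * (splitV e * splitU e) := by simp only [mul_assoc]
    _ = splitV e * splitU e := by
        apply ext_some
        intro s q o
        have hf := @loc_false K Q _ e he
        have ht := @loc_true K Q _ e he
        unfold loc at hf ht
        rw [mul_eq_some]
        cases s with
        | false =>
          rw [hf]
          constructor
          · intro h
            cases h with
            | stopR h1 => rw [hf] at h1; simp at h1
            | lftR h1 => rw [hf] at h1; simp at h1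
            | midR h1 h2 =>
              rw [hf] at h1
              obtain ⟨h3, h4⟩ := h1
              simp only [Out.rgt.injEq] at h4
              subst h4
              refine ⟨h3, ?_⟩
              have : Mid (splitV e * splitU e) (splitV e * splitU e) false _ (Out.rgt _) :=
                Mid.outR (hf.2 ⟨h3, rfl⟩)
              exact h2.det this
          · rintro ⟨h1, rfl⟩
            exact Comp.midR (hf.2 ⟨h1, rfl⟩) (Mid.outR (hf.2 ⟨h1, rfl⟩))
        | true =>
          rw [ht]
          constructor
          · intro h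
            cases h with
            | stopL h1 => rw [ht] at h1; simp at h1
            | rgtL h1 => rw [ht] at h1; simp at h1
            | midL h1 h2 =>
              rw [ht] at h1
              obtain ⟨h3, h4⟩ := h1
              simp only [Out.lft.injEq] at h4
              subst h4
              refine ⟨h3, ?_⟩
              have : Mid (splitV e * splitU e) (splitV e * splitU e) true _ (Out.lft _) :=
                Mid.outL (ht.2 ⟨h3, rfl⟩)
              exact h2.det this
          · rintro ⟨h1, rfl⟩
            exact Comp.midL (ht.2 ⟨h1, rfl⟩) (Mid.outL (ht.2 ⟨h1, rfl⟩))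

theorem ofLoc (e z : Box K Q) : splitU e * toLoc e z * splitV e = e * z * e := by
  unfold toLoc
  calc splitU e * (splitV e * z * splitU e) * splitV e
      = (splitU e * splitV e) * z * (splitU e * splitV e) := by simp only [mul_assoc]
    _ = e * z * e := by rw [split_mul]

/-- The port lemma: an idempotent `z` below the idempotent `e` differs from the identity, in the
local monoid at `e`, on at most `2 * (rank e - rank z)` ports. -/
theorem card_ports_toLoc {e z : Box K Q} (he : e * e = e) (h1 : e * z = z) (h2 : z * e = z)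
    (hz : z * z = z) :
    (ports (toLoc e z) (loc e)).card + 2 * rank z ≤ 2 * rank e := by
  have e1 : loc e * toLoc e z = toLoc e z := by
    unfold toLoc loc
    calc splitV e * splitU e * (splitV e * z * splitU e)
        = splitV e * ((splitU e * splitV e) * z) * splitU e := by simp only [mul_assoc]
      _ = splitV e * z * splitU e := by rw [split_mul, h1]
  have e2 : toLoc e z * loc e = toLoc e z := by
    unfold toLoc loc
    calc splitV e * z * splitU e * (splitV e * splitU e)
        = splitV e * (z * (splitU e * splitV e)) * splitU e := by simp only [mul_assoc]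
      _ = splitV e * z * splitU e := by rw [split_mul, h2]
  have e3 : toLoc e z * toLoc e z = toLoc e z := by
    unfold toLoc
    calc splitV e * z * splitU e * (splitV e * z * splitU e)
        = splitV e * ((z * (splitU e * splitV e)) * z) * splitU e := by simp only [mul_assoc]
      _ = splitV e * z * splitU e := by rw [split_mul, h2, hz]
  have e4 : rank z ≤ rank (toLoc e z) := by
    have : z = splitU e * toLoc e z * splitV e := by
      rw [ofLoc, h1, h2]
    calc rank z = rank (splitU e * toLoc e z * splitV e) := by rw [← this]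
      _ ≤ rank (splitU e * toLoc e z) := rank_mul_le_left _ _
      _ ≤ rank (toLoc e z) := rank_mul_le_right _ _
  have e5 := card_ports_le (z := toLoc e z) (i := loc e) (A := imR e) (B := imL e)
    (fun q o => loc_false he) (fun q o => loc_true he) e1 e2 e3
  unfold rank at e4 e5 ⊢
  omega

end Box
end Vale.Agent.P343
end
end

section

section

namespace Vale.Agent.P343

theorem exists_pow_idem {M : Type} [Monoid M] [Finite M] (x : M) :
    ∃ k : ℕ, 0 < k ∧ x ^ k * x ^ k = x ^ k := by
  obtain ⟨i, j, hij, h⟩ := Finite.exists_ne_map_eq_of_infinite (fun n : ℕ => x ^ (n + 1))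
  wlog hlt : i < j generalizing i j
  · exact this (i := j) (j := i) hij.symm h.symm (by omega)
  obtain ⟨p, rfl⟩ := Nat.exists_eq_add_of_lt hlt
  have h1 : x ^ (i + 1) = x ^ (i + 1) * x ^ (p + 1) := by
    have h' : x ^ (i + 1) = x ^ (i + p + 1 + 1) := h
    rw [← pow_add, h']
    congr 1
    omega
  have h2 : ∀ t : ℕ, x ^ (i + 1) = x ^ (i + 1) * x ^ ((p + 1) * t) := by
    intro t
    induction t with
    | zero => simp
    | succ t ih =>
      calc x ^ (i + 1) = x ^ (i + 1) * x ^ (p + 1) := h1
        _ = (x ^ (i + 1) * x ^ ((p + 1) * t)) * x ^ (p + 1) := by rw [← ih]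
        _ = x ^ (i + 1) * x ^ ((p + 1) * (t + 1)) := by
            rw [mul_assoc, ← pow_add]; congr 2
  refine ⟨(i + 1) * (p + 1), by (clear * -; positivity), ?_⟩
  have h3 : (i + 1) * (p + 1) = (i + 1) + (i + 1) * p := by ring
  have h4 : x ^ ((i + 1) * (p + 1)) * x ^ ((i + 1) * (p + 1)) =
      x ^ ((i + 1) * p) * (x ^ (i + 1) * x ^ ((p + 1) * (i + 1))) := by
    rw [← pow_add, ← pow_add, ← pow_add]
    congr 1
    ring
  have h5 : x ^ ((i + 1) * p) * x ^ (i + 1) = x ^ ((i + 1) * (p + 1)) := by
    rw [← pow_add]
    congr 1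
  rw [h4, ← h2, h5]

/-- Selection of a row with small drop. -/
theorem row_select {m : ℕ} (hm : 0 < m) (ρ : ℕ → ℕ) (hmono : ∀ i, ρ (i + 1) ≤ ρ i) :
    ∃ l < m, m * (ρ l - ρ (l + 1)) ≤ ρ 0 := by
  by_contra hcon
  push Not at hcon
  have step : ∀ k ≤ m, m * ρ k + k * (ρ 0 + 1) ≤ m * ρ 0 := by
    intro k
    induction k with
    | zero => intro _; simp
    | succ k ih =>
      intro h1
      have h2 := ih (by omega)
      have h3 := hcon k (by omega)
      have h4 : m * (ρ k - ρ (k + 1)) = m * ρ k - m * ρ (k + 1) := Nat.mul_sub _ _ _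
      have h5 : m * ρ (k + 1) ≤ m * ρ k := Nat.mul_le_mul_left _ (hmono k)
      have h6 : (k + 1) * (ρ 0 + 1) = k * (ρ 0 + 1) + (ρ 0 + 1) := by ring
      omega
  have h1 := step m le_rfl
  have h2 : m * (ρ 0 + 1) = m * ρ 0 + m := by ring
  omega

namespace Box

variable {K Q : Type} [Fintype Q]

/-- The box of a word over an alphabet interpreted by `g`. -/
noncomputable def word {P : Type} (g : P → Box K Q) (w : List P) : Box K Q := (w.map g).prod

omit [Fintype Q] in
theorem word_append {P : Type} (g : P → Box K Q) (w w' : List P) :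
    word g (w ++ w') = word g w * word g w' := by
  unfold word
  rw [List.map_append, List.prod_append]

omit [Fintype Q] in
theorem word_nil {P : Type} (g : P → Box K Q) : word g [] = 1 := rfl

omit [Fintype Q] in
theorem word_singleton {P : Type} (g : P → Box K Q) (a : P) : word g [a] = g a := by
  simp [word]

/-- `k`-fold repetition of a word. -/
def rep {P : Type} (w : List P) : ℕ → List P
  | 0 => []
  | k + 1 => w ++ rep w k

omit [Fintype Q] in
theorem word_rep {P : Type} (g : P → Box K Q) (w : List P) (k : ℕ) :
    word g (rep w k) = word g w ^ k := by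
  induction k with
  | zero => simp [rep, word_nil]
  | succ k ih => rw [rep, word_append, ih, pow_succ']

end Box
end Vale.Agent.P343
end
end

section

section

namespace Vale.Agent.P343
namespace Box

variable {Q : Type}

/-- The chain selected by `x`. -/
def chain (base tog : ℕ → Box Unit Q) (x : ℕ → Bool) (i : ℕ) : Box Unit Q :=
  if x i then tog i else base i

/-- Transfer of outcomes. -/
def Out.lift {D : Finset (ℕ × Bool × Q)} : Out Unit Q → Out (Option D) Q
  | Out.stop _ => Out.stop none
  | Out.lft q => Out.lft q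
  | Out.rgt q => Out.rgt q

open Classical in
/-- The chain that stops at the ports of `D`. -/
noncomputable def chk (D : Finset (ℕ × Bool × Q)) (base : ℕ → Box Unit Q) (i : ℕ) :
    Box (Option D) Q := fun s q =>
  if h : (i, s, q) ∈ D then some (Out.stop (some ⟨(i, s, q), h⟩))
  else (base i s q).map Out.lift

theorem chk_mem {D : Finset (ℕ × Bool × Q)} {base : ℕ → Box Unit Q} {i : ℕ} {s : Bool} {q : Q}
    (h : (i, s, q) ∈ D) : chk D base i s q = some (Out.stop (some ⟨(i, s, q), h⟩)) := by
  unfold chk
  rw [dif_pos h]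

theorem chk_not_mem {D : Finset (ℕ × Bool × Q)} {base : ℕ → Box Unit Q} {i : ℕ} {s : Bool}
    {q : Q} (h : (i, s, q) ∉ D) : chk D base i s q = (base i s q).map Out.lift := by
  unfold chk
  rw [dif_neg h]

/-- The result of the checkpoint run from a configuration. -/
noncomputable def res (D : Finset (ℕ × Bool × Q)) (base : ℕ → Box Unit Q) (hi : ℕ)
    (i : ℕ) (d : Bool) (q : Q) : Option (Option D) :=
  pick (fun k => Ev (chk D base) 0 hi i d q (Out.stop k))

/-- The result of leaving box `i` with a given outcome. -/
noncomputable def resOut (D : Finset (ℕ × Bool × Q)) (base : ℕ → Box Unit Q) (hi : ℕ)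
    (i : ℕ) : Option (Out Unit Q) → Option (Option D)
  | none => none
  | some (Out.stop _) => some none
  | some (Out.rgt q) => res D base hi (i + 1) false q
  | some (Out.lft q) => res D base hi i true q

section

variable {D : Finset (ℕ × Bool × Q)} {base tog : ℕ → Box Unit Q} {hi : ℕ} {x : ℕ → Bool}

end

end Box
end Vale.Agent.P343
end
end

section

section

namespace Vale.Agent.P343
namespace Box

variable {α Q : Type}

/-- One visit to a cell that holds `t`. -/
inductive Visit (A : TwoNFA α Q) (t : TapeSym α) : Q → Out Unit Q → Prop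
  | acc {q : Q} : q ∈ A.accept → Visit A t q (Out.stop ())
  | lft {q q' : Q} : q ∉ A.accept → A.step q t q' Move.left → Visit A t q (Out.lft q')
  | rgt {q q' : Q} : q ∉ A.accept → A.step q t q' Move.right → Visit A t q (Out.rgt q')
  | stay {q q' : Q} {o : Out Unit Q} : q ∉ A.accept → A.step q t q' Move.stay →
      Visit A t q' o → Visit A t q o

theorem Visit.det {A : TwoNFA α Q} (hA : A.Deterministic) {t : TapeSym α} {q : Q}
    {o o' : Out Unit Q} (h : Visit A t q o) (h' : Visit A t q o') : o = o' := by
  induction h with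
  | acc h1 =>
    cases h' with
    | acc _ => rfl
    | lft h2 _ => exact absurd h1 h2
    | rgt h2 _ => exact absurd h1 h2
    | stay h2 _ _ => exact absurd h1 h2
  | lft h1 h2 =>
    cases h' with
    | acc h3 => exact absurd h3 h1
    | lft _ h3 => rw [(hA _ _ _ _ _ _ h2 h3).1]
    | rgt _ h3 => have := (hA _ _ _ _ _ _ h2 h3).2; simp at this
    | stay _ h3 _ => have := (hA _ _ _ _ _ _ h2 h3).2; simp at this
  | rgt h1 h2 =>
    cases h' with
    | acc h3 => exact absurd h3 h1
    | lft _ h3 => have := (hA _ _ _ _ _ _ h2 h3).2; simp at this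
    | rgt _ h3 => rw [(hA _ _ _ _ _ _ h2 h3).1]
    | stay _ h3 _ => have := (hA _ _ _ _ _ _ h2 h3).2; simp at this
  | stay h1 h2 _ ih =>
    cases h' with
    | acc h3 => exact absurd h3 h1
    | lft _ h3 => have := (hA _ _ _ _ _ _ h2 h3).2; simp at this
    | rgt _ h3 => have := (hA _ _ _ _ _ _ h2 h3).2; simp at this
    | stay _ h3 h4 =>
      have := (hA _ _ _ _ _ _ h2 h3).1
      subst this
      exact ih h4

/-- The box of a tape cell. -/
noncomputable def cell (A : TwoNFA α Q) (t : TapeSym α) : Box Unit Q := fun _ q =>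
  pick (Visit A t q)

theorem cell_eq_some {A : TwoNFA α Q} (hA : A.Deterministic) {t : TapeSym α} {s : Bool} {q : Q}
    {o : Out Unit Q} : cell A t s q = some o ↔ Visit A t q o :=
  pick_eq_some (P := Visit A t q) (fun _ _ h h' => Visit.det hA h h')

theorem tape_zero (w : List α) : tape w 0 = TapeSym.leftEnd := by simp [tape]

theorem tape_last (w : List α) : tape w (w.length + 1) = TapeSym.rightEnd := by simp only [tape, Nat.add_eq_zero_iff, List.length_eq_zero_iff, one_ne_zero, and_false, ↓reduceIte, add_tsub_cancel_right, lt_self_iff_false, ↓reduceDIte]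

theorem tape_mid (w : List α) (k : ℕ) (h : k < w.length) :
    tape w (k + 1) = TapeSym.letter (w.get ⟨k, h⟩) := by
  simp only [tape, Nat.add_eq_zero_iff, one_ne_zero, and_false, ↓reduceIte, add_tsub_cancel_right, h, ↓reduceDIte, List.get_eq_getElem]

theorem visit_run {A : TwoNFA α Q} {w : List α} {i : ℕ} {q : Q} {o : Out Unit Q}
    (h : Visit A (tape w i) q o) :
    (o = Out.stop () → ∃ q', Relation.ReflTransGen (A.Next w) (i, q) (i, q') ∧ q' ∈ A.accept) ∧
    (∀ q', o = Out.rgt q' → Relation.ReflTransGen (A.Next w) (i, q) (i + 1, q')) ∧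
    (∀ q', o = Out.lft q' → ∃ j, i = j + 1 ∧
      Relation.ReflTransGen (A.Next w) (i, q) (j, q')) := by
  induction h with
  | acc h1 => exact ⟨fun _ => ⟨_, Relation.ReflTransGen.refl, h1⟩, by simp, by simp only [reduceCtorEq, IsEmpty.forall_iff, implies_true]⟩
  | lft h1 h2 =>
    refine ⟨by simp only [reduceCtorEq, IsEmpty.forall_iff], by simp, ?_⟩
    intro q' h3
    simp only [Out.lft.injEq] at h3
    subst h3
    cases i with
    | zero =>
      rw [tape_zero] at h2
      exact absurd h2 (A.not_beyond_left _ _)
    | succ j => exact ⟨j, rfl, Relation.ReflTransGen.single (TwoNFA.Next.left j _ _ h2)⟩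
  | rgt h1 h2 =>
    refine ⟨by simp only [reduceCtorEq, IsEmpty.forall_iff], ?_, by simp⟩
    intro q' h3
    simp only [Out.rgt.injEq] at h3
    subst h3
    exact Relation.ReflTransGen.single (TwoNFA.Next.right i _ _ h2)
  | stay h1 h2 _ ih =>
    obtain ⟨ih1, ih2, ih3⟩ := ih
    have h0 := TwoNFA.Next.stay (A := A) (w := w) i _ _ h2
    refine ⟨fun h => ?_, fun q' h => ?_, fun q' h => ?_⟩
    · obtain ⟨q', h3, h4⟩ := ih1 h
      exact ⟨q', Relation.ReflTransGen.head h0 h3, h4⟩
    · exact Relation.ReflTransGen.head h0 (ih2 q' h)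
    · obtain ⟨j, h3, h4⟩ := ih3 q' h
      exact ⟨j, h3, Relation.ReflTransGen.head h0 h4⟩

theorem ev_to_run {A : TwoNFA α Q} (hA : A.Deterministic) {w : List α} {i : ℕ} {d : Bool}
    {q : Q} {o : Out Unit Q}
    (h : Ev (fun i => cell A (tape w i)) 0 (w.length + 2) i d q o) :
    o = Out.stop () → ∀ j, (d = false → i = j) → (d = true → i = j + 1) →
      ∃ i' q', Relation.ReflTransGen (A.Next w) (j, q) (i', q') ∧ q' ∈ A.accept := by
  induction h with
  | exitR _ => intro h; simp at h
  | exitL _ => intro h; simp at h
  | stopR h1 h2 =>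
    intro _ j h3 _
    have h3 := h3 rfl
    subst h3
    obtain ⟨q', h4, h5⟩ := (visit_run ((cell_eq_some hA).1 h2)).1 rfl
    exact ⟨_, q', h4, h5⟩
  | @rr i q q' o h1 h2 _ ih =>
    intro ho j h3 _
    have h3 := h3 rfl
    subst h3
    have h4 := (visit_run ((cell_eq_some hA).1 h2)).2.1 _ rfl
    obtain ⟨i', q'', h5, h6⟩ := ih ho (i + 1) (fun _ => rfl) (by simp)
    exact ⟨i', q'', h4.trans h5, h6⟩
  | @rl i q q' o h1 h2 _ ih =>
    intro ho j h3 _
    have h3 := h3 rfl
    subst h3
    obtain ⟨j, h4, h7⟩ := (visit_run ((cell_eq_some hA).1 h2)).2.2 _ rfl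
    obtain ⟨i', q'', h5, h6⟩ := ih ho j (by simp) (fun _ => h4)
    exact ⟨i', q'', h7.trans h5, h6⟩
  | @stopL i j0 q k hj h1 h2 =>
    intro _ j _ h3
    have h3 := h3 rfl
    have : i = j := by omega
    subst this
    obtain ⟨q', h4, h5⟩ := (visit_run ((cell_eq_some hA).1 h2)).1 rfl
    exact ⟨_, q', h4, h5⟩
  | @ll i j0 q q' o hj h1 h2 _ ih =>
    intro ho j _ h3
    have h3 := h3 rfl
    have : i = j := by omega
    subst this
    obtain ⟨j, h4, h7⟩ := (visit_run ((cell_eq_some hA).1 h2)).2.2 _ rfl
    obtain ⟨i', q'', h5, h6⟩ := ih ho j (by simp) (fun _ => h4)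
    exact ⟨i', q'', h7.trans h5, h6⟩
  | @lr i j0 q q' o hj h1 h2 _ ih =>
    intro ho j _ h3
    have h3 := h3 rfl
    have : i = j := by omega
    subst this
    have h4 := (visit_run ((cell_eq_some hA).1 h2)).2.1 _ rfl
    obtain ⟨i', q'', h5, h6⟩ := ih ho (i + 1) (fun _ => by omega) (by simp)
    exact ⟨i', q'', h4.trans h5, h6⟩

/-- Acceptance from both sides of a cell. -/
def Both (A : TwoNFA α Q) (w : List α) (i : ℕ) (q : Q) : Prop :=
  Ev (fun i => cell A (tape w i)) 0 (w.length + 2) i false q (Out.stop ()) ∧
    Ev (fun i => cell A (tape w i)) 0 (w.length + 2) (i + 1) true q (Out.stop ())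

theorem both_of_accept {A : TwoNFA α Q} (hA : A.Deterministic) {w : List α} {i : ℕ} {q : Q}
    (hi : i < w.length + 2) (hq : q ∈ A.accept) : Both A w i q :=
  ⟨Ev.stopR hi ((cell_eq_some hA).2 (Visit.acc hq)),
    Ev.stopL rfl (Nat.zero_le _) ((cell_eq_some hA).2 (Visit.acc hq))⟩

theorem cell_stay {A : TwoNFA α Q} (hA : A.Deterministic) {t : TapeSym α} {s : Bool} {q q' : Q}
    (hq : q ∉ A.accept) (h : A.step q t q' Move.stay) : cell A t s q = cell A t s q' := by
  apply Option.ext
  intro o
  rw [cell_eq_some hA, cell_eq_some hA]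
  constructor
  · intro h1
    cases h1 with
    | acc h2 => exact absurd h2 hq
    | lft _ h3 => have := (hA _ _ _ _ _ _ h h3).2; simp at this
    | rgt _ h3 => have := (hA _ _ _ _ _ _ h h3).2; simp at this
    | stay _ h3 h4 =>
      have := (hA _ _ _ _ _ _ h h3).1
      subst this
      exact h4
  · intro h1
    exact Visit.stay hq h h1

theorem both_step {A : TwoNFA α Q} (hA : A.Deterministic) {w : List α} {c c' : ℕ × Q}
    (h : A.Next w c c') (hc : c.1 < w.length + 2)
    (ih : c'.1 < w.length + 2 → Both A w c'.1 c'.2) : Both A w c.1 c.2 := by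
  by_cases hq : c.2 ∈ A.accept
  · exact both_of_accept hA hc hq
  cases h with
  | left i p q h1 =>
    simp only at hc hq ih ⊢
    obtain ⟨_, h3⟩ := ih (by omega)
    have h4 : ∀ s, cell A (tape w (i + 1)) s p = some (Out.lft q) :=
      fun s => (cell_eq_some hA).2 (Visit.lft hq h1)
    exact ⟨Ev.rl hc (h4 false) h3, Ev.ll rfl (Nat.zero_le _) (h4 true) h3⟩
  | right i p q h1 =>
    simp only at hc hq ih ⊢
    have h5 : i + 1 < w.length + 2 := by
      by_contra h6
      have h7 : i = w.length + 1 := by omega
      rw [h7, tape_last] at h1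
      exact A.not_beyond_right _ _ h1
    obtain ⟨h2, _⟩ := ih h5
    have h4 : ∀ s, cell A (tape w i) s p = some (Out.rgt q) :=
      fun s => (cell_eq_some hA).2 (Visit.rgt hq h1)
    exact ⟨Ev.rr hc (h4 false) h2, Ev.lr rfl (Nat.zero_le _) (h4 true) h2⟩
  | stay i p q h1 =>
    simp only at hc hq ih ⊢
    obtain ⟨h2, h3⟩ := ih hc
    have h4 : ∀ s, cell A (tape w i) s p = cell A (tape w i) s q := fun s => cell_stay hA hq h1
    constructor
    · cases h2 with
      | stopR h5 h6 => exact Ev.stopR h5 ((h4 false).trans h6)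
      | rr h5 h6 h7 => exact Ev.rr h5 ((h4 false).trans h6) h7
      | rl h5 h6 h7 => exact Ev.rl h5 ((h4 false).trans h6) h7
    · cases h3 with
      | @stopL i2 _ _ _ hj h5 h6 =>
        have : i = i2 := by omega
        subst this
        exact Ev.stopL hj h5 ((h4 true).trans h6)
      | @ll i2 _ _ _ _ hj h5 h6 h7 =>
        have : i = i2 := by omega
        subst this
        exact Ev.ll hj h5 ((h4 true).trans h6) h7
      | @lr i2 _ _ _ _ hj h5 h6 h7 =>
        have : i = i2 := by omega
        subst this
        exact Ev.lr hj h5 ((h4 true).trans h6) h7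

theorem accepts_iff_ev {A : TwoNFA α Q} (hA : A.Deterministic) (w : List α) :
    A.Accepts w ↔ Ev (fun i => cell A (tape w i)) 0 (w.length + 2) 0 false A.start
      (Out.stop ()) := by
  constructor
  · rintro ⟨i, q, h1, h2⟩
    have key : ∀ c : ℕ × Q, Relation.ReflTransGen (A.Next w) c (i, q) →
        c.1 < w.length + 2 → Both A w c.1 c.2 := by
      intro c hc
      induction hc using Relation.ReflTransGen.head_induction_on with
      | refl => intro h3; exact both_of_accept hA h3 h2
      | head h3 _ ih => intro h4; exact both_step hA h3 h4 ih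
    exact (key (0, A.start) h1 (by simp only [lt_add_iff_pos_left, add_pos_iff, Order.lt_two_iff, zero_le, or_true])).1
  · intro h
    exact ev_to_run hA h rfl 0 (fun _ => rfl) (by simp)

/-- The box of a list of consecutive boxes of a chain. -/
theorem evalBox_list {K Q P : Type} (b : ℕ → Box K Q) (g : P → Box K Q) (L : List P) :
    ∀ a : ℕ, (∀ (k : ℕ) (h : k < L.length), b (a + k) = g (L.get ⟨k, h⟩)) →
      evalBox b a (a + L.length) = (L.map g).prod := by
  induction L with
  | nil => intro a _; simp [evalBox_self]
  | cons x L ih =>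
    intro a h
    rw [evalBox_split b (lo := a) (mid := a + 1) (hi := a + (x :: L).length) (by omega)
      (by simp only [List.length_cons, add_le_add_iff_left, le_add_iff_nonneg_left, zero_le]), evalBox_single]
    have h1 : a + (x :: L).length = (a + 1) + L.length := by simp only [List.length_cons]; omega
    rw [h1, ih (a + 1), List.map_cons, List.prod_cons]
    · have := h 0 (by simp only [List.length_cons, lt_add_iff_pos_left, Order.lt_add_one_iff, zero_le])
      simp only [Nat.add_zero] at this
      rw [this]; rfl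
    · intro k hk
      have := h (k + 1) (by simp; omega)
      rw [show a + 1 + k = a + (k + 1) by omega, this]
      rfl

/-- Acceptance in terms of the box of the word. -/
theorem accepts_iff_box {A : TwoNFA α Q} (hA : A.Deterministic) (w : List α) :
    A.Accepts w ↔ (cell A TapeSym.leftEnd * (w.map (fun a => cell A (TapeSym.letter a))).prod *
      cell A TapeSym.rightEnd) false A.start = some (Out.stop ()) := by
  rw [accepts_iff_ev hA, ← evalBox_false]
  rw [evalBox_split _ (lo := 0) (mid := 0 + 1) (hi := w.length + 2) (by omega) (by omega),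
    evalBox_single,
    evalBox_split _ (lo := 0 + 1) (mid := 0 + 1 + w.length) (hi := w.length + 2) (by omega)
      (by omega),
    evalBox_list _ (fun a => cell A (TapeSym.letter a)) w (0 + 1)
      (by
        intro k h
        show cell A (tape w (0 + 1 + k)) = _
        rw [show 0 + 1 + k = k + 1 by omega, tape_mid w k h])]
  have h1 : evalBox (fun i => cell A (tape w i)) (0 + 1 + w.length) (w.length + 2) =
      cell A TapeSym.rightEnd := by
    rw [show w.length + 2 = (w.length + 1) + 1 by omega, show 0 + 1 + w.length = w.length + 1 by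
      omega, evalBox_single, tape_last]
  rw [h1, tape_zero, mul_assoc]

end Box
end Vale.Agent.P343
end
end

section

section

namespace Vale.Agent.P343

end Vale.Agent.P343
end
end

section

section

namespace Vale.Agent.P343
namespace Box

section General

variable {K Q : Type} [Fintype Q]

instance instFiniteOut {K Q : Type} [Finite K] [Finite Q] : Finite (Out K Q) := by
  let φ : K ⊕ Q ⊕ Q → Out K Q := fun x => match x with
    | Sum.inl k => Out.stop k
    | Sum.inr (Sum.inl q) => Out.lft q
    | Sum.inr (Sum.inr q) => Out.rgt q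
  apply Finite.of_surjective φ
  intro x
  cases x with
  | stop k => exact ⟨Sum.inl k, rfl⟩
  | lft q => exact ⟨Sum.inr (Sum.inl q), rfl⟩
  | rgt q => exact ⟨Sum.inr (Sum.inr q), rfl⟩

instance instFiniteBox {K Q : Type} [Finite K] [Finite Q] : Finite (Box K Q) := by
  unfold Box
  infer_instance

omit [Fintype Q] in
theorem word_flatMap {P R : Type} (g : P → Box K Q) (L : List R) (t : R → List P) :
    word g (L.flatMap t) = (L.map (fun j => word g (t j))).prod := by
  induction L with
  | nil => simp [word_nil]
  | cons x L ih => rw [List.flatMap_cons, word_append, ih, List.map_cons, List.prod_cons]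

theorem sandwich_aux {R : Type} (e : Box K Q) (L : List R) (F : R → Box K Q) :
    splitU e * (L.map (fun j => toLoc e (F j))).prod * splitV e =
      e * (L.map (fun j => F j * e)).prod := by
  induction L with
  | nil => simp [split_mul]
  | cons x L ih =>
    simp only [List.map_cons, List.prod_cons]
    have h1 : splitU e * (toLoc e (F x) *
        (L.map (fun j => toLoc e (F j))).prod) * splitV e =
        (splitU e * splitV e) * F x * (splitU e *
          (L.map (fun j => toLoc e (F j))).prod * splitV e) := by
      unfold toLoc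
      simp only [mul_assoc]
    rw [h1, ih, split_mul]
    simp only [mul_assoc]

/-- A chain of local boxes between the two halves of the split idempotent. -/
theorem sandwich {P R : Type} (g : P → Box K Q) (y : List P) (L : List R) (t : R → List P) :
    splitU (word g y) * (L.map (fun j => toLoc (word g y) (word g (t j)))).prod *
      splitV (word g y) = word g (y ++ L.flatMap (fun j => t j ++ y)) := by
  rw [word_append, word_flatMap, sandwich_aux]
  congr 2
  apply List.map_congr_left
  intro j _
  rw [word_append]

end General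

section Chain

variable {m : ℕ} {Q : Type} [Fintype Q]

end Chain

end Box
end Vale.Agent.P343
end
end

section

section

namespace Vale.Agent.P343
namespace Box

/-- Letters over the set of tracks `V`: three subsets of `V`. -/
structure Sym (V : Type) : Type where
  src : V → Bool
  dst : V → Bool
  keep : V → Bool

/-- If some point of `S` is in `src` then all of `dst` is added; then the result is intersected
with `keep`. -/
def Sym.act {V : Type} (a : Sym V) (S : Set V) : Set V :=
  {y | (y ∈ S ∨ (a.dst y = true ∧ ∃ x ∈ S, a.src x = true)) ∧ a.keep y = true}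

def acts {V : Type} : List (Sym V) → Set V → Set V
  | [], S => S
  | a :: w, S => acts w (a.act S)

/-- The language on the tracks `V` with start track `s0` and final track `f0`. -/
def RLang {V : Type} (s0 f0 : V) (w : List (Sym V)) : Prop := f0 ∈ acts w {s0}

/-- An automaton given by boxes: one for each letter and two end boxes. -/
structure BA (α Q : Type) : Type where
  G : α → Box Unit Q
  bl : Box Unit Q
  br : Box Unit Q
  start : Q

def BA.Acc {α Q : Type} (M : BA α Q) (w : List α) : Prop :=
  (M.bl * (w.map M.G).prod * M.br) false M.start = some (Out.stop ())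

/-- Every box automaton deciding the language on `V` has at least `t` states. -/
def LB (V : Type) (s0 f0 : V) (t : ℕ) : Prop :=
  ∀ (Q : Type) [Fintype Q] (M : BA (Sym V) Q),
    (∀ w, M.Acc w ↔ RLang s0 f0 w) → t ≤ Fintype.card Q

/-- Pass straight through. -/
def pass {Q : Type} (s : Bool) (q : Q) : Out Unit Q := if s then Out.lft q else Out.rgt q

/-- A list of pieces: fixed boxes and toggles; the toggle `t` is the box `τ1` or `τ0`
according to the bit `x t`. -/
noncomputable def pval {Q T : Type} (τ0 τ1 : Box Unit Q) (x : T → Bool)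
    (L : List (Box Unit Q ⊕ T)) : Box Unit Q :=
  (L.map (fun p => Sum.elim id (fun t => if x t then τ1 else τ0) p)).prod

end Box
end Vale.Agent.P343
end
end

section

section

namespace Vale.Agent.P343
namespace Box

/-- New tracks: `z`, `w_i`, `w'_j`. -/
abbrev Ext (V : Type) (n : ℕ) : Type := V ⊕ (Unit ⊕ (Fin n ⊕ Fin n))

/-- The bits of a letter. -/
def bits {V : Type} (a : Sym V) (t : Fin 3 × V) : Bool :=
  if t.1 = 0 then a.src t.2 else if t.1 = 1 then a.dst t.2 else a.keep t.2

/-- Expansion of a list of pieces: the toggle `t` becomes `L1` or `L0` according to its bit. -/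
def expand {α T : Type} (L0 L1 : List α) (x : T → Bool) (c : List (α ⊕ T)) : List α :=
  c.flatMap (Sum.elim (fun s => [s]) (fun t => if x t then L1 else L0))

/-- What the words part has to provide. -/
def WordsStmt : Prop :=
  ∀ {V : Type} [Fintype V] {Q : Type} [Fintype Q] (n : ℕ) (_ : 0 < n)
    (g : Sym (Ext V n) → Box Unit Q),
    ∃ (L0 L1 : List (Sym (Ext V n))) (c : List (Sym (Ext V n) ⊕ (Fin 3 × V))),
      word g L0 * word g L0 = word g L0 ∧ word g L1 * word g L1 = word g L1 ∧
      word g L0 * word g L1 = word g L1 ∧ word g L1 * word g L0 = word g L1 ∧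
      n * n * (rank (word g L0) - rank (word g L1)) ≤ 2 * Fintype.card Q ∧
      c.countP (fun p => p.isRight) = 3 * Fintype.card V ∧
      ∀ (a : Sym V) (S : Set V),
        acts (expand L0 L1 (bits a) c) (Sum.inl '' S) = Sum.inl '' (a.act S)

end Box
end Vale.Agent.P343
end
end

section

section

namespace Vale.Agent.P343
namespace Box

variable {Q : Type}

section

variable {D : Finset (ℕ × Bool × Q)} {base tog : ℕ → Box Unit Q} {hi : ℕ} {x : ℕ → Bool}

/-- A run that starts at a checkpoint. -/
def EvAt (b : ℕ → Box Unit Q) (hi : ℕ) (p : ℕ × Bool × Q) (o : Out Unit Q) : Prop :=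
  Ev b 0 hi (if p.2.1 then p.1 + 1 else p.1) p.2.1 p.2.2 o

theorem lift_inj {o o' : Out Unit Q} (h : (Out.lift o : Out (Option D) Q) = Out.lift o') :
    o = o' := by
  cases o <;> cases o' <;> simp_all [Out.lift]

/-- The checkpoint run can be followed by the real run (general outcomes). -/
theorem follow
    (hD : ∀ i s q, i < hi → (i, s, q) ∉ D → base i s q = tog i s q)
    {i : ℕ} {d : Bool} {q : Q} {o : Out (Option D) Q}
    (h : Ev (chk D base) 0 hi i d q o) :
    ∀ o' : Out Unit Q, i ≤ hi → (∀ o1 : Out Unit Q, o = Out.lift o1 → o' = o1) →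
      (∀ (p : ℕ × Bool × Q) (hp : p ∈ D), o = Out.stop (some ⟨p, hp⟩) →
        EvAt (chain base tog x) hi p o') →
      Ev (chain base tog x) 0 hi i d q o' := by
  have hch : ∀ i s q o, i < hi → chk D base i s q = some o → (i, s, q) ∉ D →
      ∃ o', chain base tog x i s q = some o' ∧ o = Out.lift o' := by
    intro i s q o h1 h2 h3
    rw [chk_not_mem h3, Option.map_eq_some_iff] at h2
    obtain ⟨o', h4, h5⟩ := h2
    refine ⟨o', ?_, h5.symm⟩
    unfold chain
    by_cases h6 : x i = true
    · rw [if_pos h6, ← hD i s q h1 h3, h4]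
    · rw [if_neg h6, h4]
  induction h with
  | exitR h1 => intro o' _ h3 _; rw [h3 (Out.rgt _) rfl]; exact Ev.exitR h1
  | exitL h1 => intro o' _ h3 _; rw [h3 (Out.lft _) rfl]; exact Ev.exitL h1
  | @stopR i q k0 h1 h2 =>
    intro o' _ h3 h4
    by_cases h5 : (i, false, q) ∈ D
    · rw [chk_mem h5] at h2
      simp only [Option.some.injEq, Out.stop.injEq] at h2
      have := h4 (i, false, q) h5 (by rw [h2])
      simpa [EvAt] using this
    · obtain ⟨o1, h6, h7⟩ := hch _ _ _ _ h1 h2 h5
      have h8 := h3 o1 h7
      subst h8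
      cases o' with
      | stop _ => exact Ev.stopR h1 h6
      | lft _ => simp [Out.lift] at h7
      | rgt _ => simp [Out.lift] at h7
  | @rr i q q' o h1 h2 _ ih =>
    intro o' _ h3 h4
    have h5 : (i, false, q) ∉ D := by
      intro h5; rw [chk_mem h5] at h2; simp at h2
    obtain ⟨o1, h6, h7⟩ := hch _ _ _ _ h1 h2 h5
    cases o1 with
    | stop _ => simp [Out.lift] at h7
    | lft _ => simp [Out.lift] at h7
    | rgt _ =>
      simp only [Out.lift, Out.rgt.injEq] at h7
      rw [← h7] at h6
      exact Ev.rr h1 h6 (ih o' (by omega) h3 h4)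
  | @rl i q q' o h1 h2 _ ih =>
    intro o' _ h3 h4
    have h5 : (i, false, q) ∉ D := by
      intro h5; rw [chk_mem h5] at h2; simp at h2
    obtain ⟨o1, h6, h7⟩ := hch _ _ _ _ h1 h2 h5
    cases o1 with
    | stop _ => simp [Out.lift] at h7
    | rgt _ => simp [Out.lift] at h7
    | lft _ =>
      simp only [Out.lift, Out.lft.injEq] at h7
      rw [← h7] at h6
      exact Ev.rl h1 h6 (ih o' (by omega) h3 h4)
  | @stopL i j q k0 hj h1 h2 =>
    intro o' h8 h3 h4
    subst hj
    by_cases h5 : (i, true, q) ∈ D
    · rw [chk_mem h5] at h2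
      simp only [Option.some.injEq, Out.stop.injEq] at h2
      have := h4 (i, true, q) h5 (by rw [h2])
      simpa [EvAt] using this
    · obtain ⟨o1, h6, h7⟩ := hch _ _ _ _ (by omega) h2 h5
      have h9 := h3 o1 h7
      subst h9
      cases o' with
      | stop _ => exact Ev.stopL rfl h1 h6
      | lft _ => simp [Out.lift] at h7
      | rgt _ => simp [Out.lift] at h7
  | @ll i j q q' o hj h1 h2 _ ih =>
    intro o' h8 h3 h4
    subst hj
    have h5 : (i, true, q) ∉ D := by
      intro h5; rw [chk_mem h5] at h2; simp at h2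
    obtain ⟨o1, h6, h7⟩ := hch _ _ _ _ (by omega) h2 h5
    cases o1 with
    | stop _ => simp [Out.lift] at h7
    | rgt _ => simp [Out.lift] at h7
    | lft _ =>
      simp only [Out.lift, Out.lft.injEq] at h7
      rw [← h7] at h6
      exact Ev.ll rfl h1 h6 (ih o' (by omega) h3 h4)
  | @lr i j q q' o hj h1 h2 _ ih =>
    intro o' h8 h3 h4
    subst hj
    have h5 : (i, true, q) ∉ D := by
      intro h5; rw [chk_mem h5] at h2; simp at h2
    obtain ⟨o1, h6, h7⟩ := hch _ _ _ _ (by omega) h2 h5
    cases o1 with
    | stop _ => simp [Out.lift] at h7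
    | lft _ => simp [Out.lift] at h7
    | rgt _ =>
      simp only [Out.lift, Out.rgt.injEq] at h7
      rw [← h7] at h6
      exact Ev.lr rfl h1 h6 (ih o' (by omega) h3 h4)

/-- The real run either agrees with the checkpoint run or passes through a checkpoint. -/
theorem forward
    (hD : ∀ i s q, i < hi → (i, s, q) ∉ D → base i s q = tog i s q)
    {i : ℕ} {d : Bool} {q : Q} {o : Out Unit Q}
    (h : Ev (chain base tog x) 0 hi i d q o) :
    i ≤ hi → Ev (chk D base) 0 hi i d q (Out.lift o) ∨
      ∃ (p : ℕ × Bool × Q) (hp : p ∈ D),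
        Ev (chk D base) 0 hi i d q (Out.stop (some ⟨p, hp⟩)) ∧ EvAt (chain base tog x) hi p o := by
  have hch : ∀ i s q o, i < hi → (i, s, q) ∉ D → chain base tog x i s q = some o →
      chk D base i s q = some (Out.lift o) := by
    intro i s q o h1 h2 h4
    rw [chk_not_mem h2]
    unfold chain at h4
    by_cases h3 : x i = true
    · rw [if_pos h3] at h4; rw [hD i s q h1 h2, h4]; rfl
    · rw [if_neg h3] at h4; rw [h4]; rfl
  induction h with
  | exitR h1 => intro _; exact Or.inl (Ev.exitR h1)
  | exitL h1 => intro _; exact Or.inl (Ev.exitL h1)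
  | @stopR i q k h1 h2 =>
    intro _
    by_cases h5 : (i, false, q) ∈ D
    · exact Or.inr ⟨_, h5, Ev.stopR h1 (chk_mem h5), by simpa [EvAt] using Ev.stopR h1 h2⟩
    · exact Or.inl (Ev.stopR h1 (hch _ _ _ _ h1 h5 h2))
  | @rr i q q' o h1 h2 h3 ih =>
    intro _
    by_cases h5 : (i, false, q) ∈ D
    · exact Or.inr ⟨_, h5, Ev.stopR h1 (chk_mem h5), by simpa [EvAt] using Ev.rr h1 h2 h3⟩
    · rcases ih (by omega) with h6 | ⟨p, hp, h6, h7⟩
      · exact Or.inl (Ev.rr h1 (hch _ _ _ _ h1 h5 h2) h6)
      · exact Or.inr ⟨p, hp, Ev.rr h1 (hch _ _ _ _ h1 h5 h2) h6, h7⟩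
  | @rl i q q' o h1 h2 h3 ih =>
    intro _
    by_cases h5 : (i, false, q) ∈ D
    · exact Or.inr ⟨_, h5, Ev.stopR h1 (chk_mem h5), by simpa [EvAt] using Ev.rl h1 h2 h3⟩
    · rcases ih (by omega) with h6 | ⟨p, hp, h6, h7⟩
      · exact Or.inl (Ev.rl h1 (hch _ _ _ _ h1 h5 h2) h6)
      · exact Or.inr ⟨p, hp, Ev.rl h1 (hch _ _ _ _ h1 h5 h2) h6, h7⟩
  | @stopL i j q k hj h1 h2 =>
    intro h8
    subst hj
    by_cases h5 : (i, true, q) ∈ D
    · exact Or.inr ⟨_, h5, Ev.stopL rfl h1 (chk_mem h5), by simpa [EvAt] using Ev.stopL rfl h1 h2⟩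
    · exact Or.inl (Ev.stopL rfl h1 (hch _ _ _ _ (by omega) h5 h2))
  | @ll i j q q' o hj h1 h2 h3 ih =>
    intro h8
    subst hj
    by_cases h5 : (i, true, q) ∈ D
    · exact Or.inr ⟨_, h5, Ev.stopL rfl h1 (chk_mem h5), by simpa [EvAt] using Ev.ll rfl h1 h2 h3⟩
    · rcases ih (by omega) with h6 | ⟨p, hp, h6, h7⟩
      · exact Or.inl (Ev.ll rfl h1 (hch _ _ _ _ (by omega) h5 h2) h6)
      · exact Or.inr ⟨p, hp, Ev.ll rfl h1 (hch _ _ _ _ (by omega) h5 h2) h6, h7⟩
  | @lr i j q q' o hj h1 h2 h3 ih =>
    intro h8
    subst hj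
    by_cases h5 : (i, true, q) ∈ D
    · exact Or.inr ⟨_, h5, Ev.stopL rfl h1 (chk_mem h5), by simpa [EvAt] using Ev.lr rfl h1 h2 h3⟩
    · rcases ih (by omega) with h6 | ⟨p, hp, h6, h7⟩
      · exact Or.inl (Ev.lr rfl h1 (hch _ _ _ _ (by omega) h5 h2) h6)
      · exact Or.inr ⟨p, hp, Ev.lr rfl h1 (hch _ _ _ _ (by omega) h5 h2) h6, h7⟩

end

/-- The position dependent boxes of a list of pieces. -/
def baseAt {T : Type} (τ : Box Unit Q) (L : List (Box Unit Q ⊕ T)) (i : ℕ) : Box Unit Q :=
  match L[i]? with
  | some p => Sum.elim id (fun _ => τ) p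
  | none => 1

/-- The bits at the positions. -/
def bitAt {T : Type} (x : T → Bool) (L : List (Box Unit Q ⊕ T)) (i : ℕ) : Bool :=
  match L[i]? with
  | some p => Sum.elim (fun _ => false) x p
  | none => false

theorem chain_get {T : Type} (τ0 τ1 : Box Unit Q) (x : T → Bool) (L : List (Box Unit Q ⊕ T))
    (i : ℕ) (h : i < L.length) :
    chain (baseAt τ0 L) (baseAt τ1 L) (bitAt x L) i =
      Sum.elim id (fun t => if x t then τ1 else τ0) L[i] := by
  unfold chain baseAt bitAt
  rw [List.getElem?_eq_getElem h]
  rcases h1 : L[i] with b | t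
  · simp
  · by_cases hx : x t = true <;> simp [hx]

/-- Number of positions of toggles. -/
theorem card_tog {A B : Type} (L : List (A ⊕ B)) (S : Finset ℕ)
    (hS : ∀ i, i ∈ S ↔ ∃ h : i < L.length, (L[i]).isRight = true) :
    S.card = L.countP (fun p => p.isRight) := by
  induction L generalizing S with
  | nil =>
    have : S = ∅ := by
      apply Finset.eq_empty_of_forall_notMem
      intro i hi
      obtain ⟨h, _⟩ := (hS i).1 hi
      simp at h
    rw [this]; rfl
  | cons a L ih =>
    classical
    rw [List.countP_cons]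
    have hinj : Function.Injective (fun i : ℕ => i + 1) := fun i j h => by simpa using h
    set S' : Finset ℕ := (S.erase 0).image (fun i => i - 1) with hS'
    have h1 : S'.card = (S.erase 0).card := by
      apply Finset.card_image_of_injOn
      intro i hi j hj hij
      have hi' : i ≠ 0 := (Finset.mem_erase.1 (Finset.mem_coe.1 hi)).1
      have hj' : j ≠ 0 := (Finset.mem_erase.1 (Finset.mem_coe.1 hj)).1
      simp only at hij
      omega
    have h2 : S'.card = L.countP (fun p => p.isRight) := by
      apply ih
      intro i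
      rw [hS', Finset.mem_image]
      constructor
      · rintro ⟨j, hj, hij⟩
        rw [Finset.mem_erase] at hj
        obtain ⟨hl, hr⟩ := (hS j).1 hj.2
        obtain ⟨k, rfl⟩ := Nat.exists_eq_succ_of_ne_zero hj.1
        have : i = k := by simpa only [Nat.succ_eq_add_one, add_tsub_cancel_right] using hij.symm
        subst this
        exact ⟨by simpa using hl, by simpa using hr⟩
      · rintro ⟨hl, hr⟩
        refine ⟨i + 1, ?_, by simp only [add_tsub_cancel_right]⟩
        rw [Finset.mem_erase]
        refine ⟨by omega, (hS (i + 1)).2 ⟨by simpa using hl, by simpa using hr⟩⟩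
    have h3 : (0 ∈ S) ↔ a.isRight = true := by
      rw [hS 0]
      constructor
      · rintro ⟨_, h⟩; simpa using h
      · intro h; exact ⟨by simp, by simpa using h⟩
    by_cases ha : a.isRight = true
    · rw [← h2, h1, if_pos ha, Finset.card_erase_of_mem (h3.2 ha)]
      have : 0 < S.card := Finset.card_pos.2 ⟨0, h3.2 ha⟩
      omega
    · rw [← h2, h1, if_neg ha, Finset.erase_eq_of_notMem (fun h => ha (h3.1 h))]
      simp

theorem pval_eq {T : Type} (τ0 τ1 : Box Unit Q) (x : T → Bool) (L : List (Box Unit Q ⊕ T)) :
    pval τ0 τ1 x L =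
      evalBox (chain (baseAt τ0 L) (baseAt τ1 L) (bitAt x L)) 0 L.length := by
  have h := evalBox_list (chain (baseAt τ0 L) (baseAt τ1 L) (bitAt x L))
    (fun p => Sum.elim id (fun t => if x t then τ1 else τ0) p) L 0
    (by
      intro k hk
      rw [Nat.zero_add, chain_get τ0 τ1 x L k hk]
      rfl)
  rw [Nat.zero_add] at h
  rw [h]
  rfl

theorem pass_ne_stop {D : Finset (ℕ × Bool × Q)} {s : Bool} {q : Q} {k : Option D} :
    (Out.lift (pass s q) : Out (Option D) Q) ≠ Out.stop k := by
  cases s <;> simp [pass, Out.lift]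

theorem pass_inj {s s' : Bool} {q q' : Q} (h : pass s q = pass s' q') : (s, q) = (s', q') := by
  cases s <;> cases s' <;> simp_all [pass]

open Classical in
/-- The active ports of a list of pieces. -/
theorem active {T : Type} [Fintype Q] (τ0 τ1 : Box Unit Q) (L : List (Box Unit Q ⊕ T))
    (x0 : T → Bool) (P : Finset (Bool × Q))
    (hP : ∀ p ∈ P, pval τ0 τ1 x0 L p.1 p.2 = some (pass p.1 p.2)) :
    ∃ Act : Finset (Bool × Q), Act ⊆ P ∧
      Act.card ≤ L.countP (fun p => p.isRight) * (ports τ1 τ0).card ∧
      ∀ p ∈ P, p ∉ Act → ∀ x, pval τ0 τ1 x L p.1 p.2 = some (pass p.1 p.2) := by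
  -- positions of toggles
  set I : Finset ℕ := (Finset.range L.length).filter
    (fun i => ∃ h : i < L.length, (L[i]).isRight = true) with hI
  have hIcard : I.card = L.countP (fun p => p.isRight) := by
    apply card_tog
    intro i
    rw [hI, Finset.mem_filter, Finset.mem_range]
    constructor
    · rintro ⟨_, h⟩; exact h
    · rintro ⟨h, h'⟩; exact ⟨h, h, h'⟩
  set D : Finset (ℕ × Bool × Q) := I ×ˢ ports τ1 τ0 with hDdef
  have hDcard : D.card = L.countP (fun p => p.isRight) * (ports τ1 τ0).card := by
    rw [hDdef, Finset.card_product, hIcard]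
  have hD : ∀ i s q, i < L.length → (i, s, q) ∉ D →
      baseAt τ0 L i s q = baseAt τ1 L i s q := by
    intro i s q hi hn
    unfold baseAt
    rw [List.getElem?_eq_getElem hi]
    rcases h1 : L[i] with b | t
    · simp
    · simp only [Sum.elim_inr]
      by_contra hne
      apply hn
      rw [hDdef, Finset.mem_product, mem_ports]
      refine ⟨?_, fun h => hne h.symm⟩
      rw [hI, Finset.mem_filter, Finset.mem_range]
      exact ⟨hi, hi, by rw [h1]; rfl⟩
  have hstart : ∀ p : Bool × Q, (if p.1 = true then L.length else 0) ≤ L.length := by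
    intro p; split <;> omega
  -- the checkpoint hit by a port
  let hit : Bool × Q → ℕ × Bool × Q → Prop := fun p d => ∃ hd : d ∈ D,
    Ev (chk D (baseAt τ0 L)) 0 L.length (if p.1 = true then L.length else 0) p.1 p.2
      (Out.stop (some ⟨d, hd⟩))
  have hx : ∀ (x : T → Bool) (p : Bool × Q), pval τ0 τ1 x L p.1 p.2 = some (pass p.1 p.2) ↔
      Ev (chain (baseAt τ0 L) (baseAt τ1 L) (bitAt x L)) 0 L.length
        (if p.1 = true then L.length else 0) p.1 p.2 (pass p.1 p.2) := by
    intro x p
    rw [pval_eq, evalBox_eq_some]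
  refine ⟨P.filter (fun p => ∃ d, hit p d), Finset.filter_subset _ _, ?_, ?_⟩
  · rw [← hDcard]
    have hch : ∀ p ∈ P.filter (fun p => ∃ d, hit p d), ∃ d, hit p d := by
      intro p hp; exact (Finset.mem_filter.1 hp).2
    choose! f hf using hch
    apply Finset.card_le_card_of_injOn f
    · intro p hp
      obtain ⟨hd, _⟩ := hf p hp
      exact hd
    · intro p hp p' hp' hpp
      have key : ∀ r ∈ P.filter (fun p => ∃ d, hit p d),
          EvAt (chain (baseAt τ0 L) (baseAt τ1 L) (bitAt x0 L)) L.length (f r)
            (pass r.1 r.2) := by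
        intro r hr
        obtain ⟨hd, h1⟩ := hf r hr
        have h2 := (hx x0 r).1 (hP r (Finset.mem_filter.1 hr).1)
        rcases forward hD h2 (hstart r) with h3 | ⟨d, hd', h3, h4⟩
        · exact absurd (h3.det h1) pass_ne_stop
        · have h5 := h3.det h1
          simp only [Out.stop.injEq, Option.some.injEq, Subtype.mk.injEq] at h5
          rw [← h5]; exact h4
      have h1 := key p hp
      have h2 := key p' hp'
      rw [hpp] at h1
      exact pass_inj (Ev.det h1 h2)
  · intro p hp hn x
    rw [hx]
    have h2 := (hx x0 p).1 (hP p hp)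
    rcases forward hD h2 (hstart p) with h3 | ⟨d, hd', h3, h4⟩
    · refine follow hD h3 _ (hstart p) ?_ ?_
      · intro o1 h; exact lift_inj h
      · intro r hr h; exact absurd h pass_ne_stop
    · exact absurd (Finset.mem_filter.2 ⟨hp, d, hd', h3⟩) hn

end Box
end Vale.Agent.P343
end
end

section

section

namespace Vale.Agent.P343
namespace Box

/-- What the compression part has to provide. -/
def CompressStmt : Prop :=
  ∀ {α Q : Type} [Fintype Q] (M : BA α Q) (P Act : Finset (Bool × Q)) (_ : Act ⊆ P)
    (_ : ∀ s q q', M.bl s q = some (Out.rgt q') → (false, q') ∈ P)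
    (_ : ∀ s q q', M.br s q = some (Out.lft q') → (true, q') ∈ P)
    (_ : ∀ a s q q', M.G a s q = some (Out.rgt q') → (false, q') ∈ P)
    (_ : ∀ a s q q', M.G a s q = some (Out.lft q') → (true, q') ∈ P)
    (_ : ∀ a, ∀ p ∈ P, p ∉ Act → M.G a p.1 p.2 = some (pass p.1 p.2)),
    ∃ (Q' : Type) (_ : Fintype Q') (M' : BA α Q'), Fintype.card Q' = 2 * Act.card + 1 ∧
      ∀ w, M'.Acc w ↔ M.Acc w

/-! ### Actions of words -/

theorem acts_append1 {V : Type} (u v : List (Sym V)) (S : Set V) :
    acts (u ++ v) S = acts v (acts u S) := by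
  induction u generalizing S with
  | nil => rfl
  | cons a u ih => exact ih _

/-- The letter that does nothing. -/
def idSym (V : Type) : Sym V := ⟨fun _ => false, fun _ => false, fun _ => true⟩

theorem idSym_act {V : Type} (S : Set V) : (idSym V).act S = S := by
  ext y
  simp only [Sym.act, idSym, Bool.false_eq_true, and_false, exists_false, and_self, or_false, and_true, Set.ofPred_mem_eq]

theorem acts_rep1 {V W : Type} (ι : V → W) (w : List (Sym W))
    (h : ∀ S : Set V, acts w (ι '' S) = ι '' S) (k : ℕ) (S : Set V) :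
    acts (rep w k) (ι '' S) = ι '' S := by
  induction k with
  | zero => rfl
  | succ k ih => rw [rep, acts_append1, h, ih]

theorem acts_macro {V W : Type} (ι : V → W) (Y : List (Sym W)) (m : Sym V → List (Sym W))
    (hY : ∀ S : Set V, acts Y (ι '' S) = ι '' S)
    (hm : ∀ (a : Sym V) (S : Set V), acts (m a) (ι '' S) = ι '' (a.act S))
    (ws : List (Sym V)) (S : Set V) :
    acts (Y ++ ws.flatMap (fun a => m a ++ Y)) (ι '' S) = ι '' (acts ws S) := by
  rw [acts_append1, hY]
  induction ws generalizing S with
  | nil => rfl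
  | cons a ws ih =>
    rw [List.flatMap_cons, acts_append1, acts_append1, hm, hY, ih]
    rfl

/-! ### Outputs of products -/

section

variable {Q : Type} [Fintype Q]

theorem mul_splitU_rgt {f e : Box Unit Q} {s : Bool} {q q' : Q}
    (h : (f * splitU e) s q = some (Out.rgt q')) : q' ∈ imR e := by
  have key : ∀ {d : Bool} {r : Q} {o : Out Unit Q}, Mid f (splitU e) d r o →
      ∀ q', o = Out.rgt q' → q' ∈ imR e := by
    intro d r o h
    induction h with
    | stopR _ => intro q' h; simp at h
    | outR h1 =>
      intro q' h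
      simp only [Out.rgt.injEq] at h
      subst h
      rw [splitU_false] at h1
      exact mem_imR.2 ⟨_, h1⟩
    | backR _ _ ih => exact ih
    | stopL _ => intro q' h; simp at h
    | outL _ => intro q' h; simp at h
    | backL _ _ ih => exact ih
  rw [mul_eq_some] at h
  cases h with
  | midR _ h2 => exact key h2 _ rfl
  | rgtL h1 => rw [splitU_true] at h1; simp at h1
  | midL _ h2 => exact key h2 _ rfl

theorem splitV_mul_lft {f e : Box Unit Q} {s : Bool} {q q' : Q}
    (h : (splitV e * f) s q = some (Out.lft q')) : q' ∈ imL e := by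
  have key : ∀ {d : Bool} {r : Q} {o : Out Unit Q}, Mid (splitV e) f d r o →
      ∀ q', o = Out.lft q' → q' ∈ imL e := by
    intro d r o h
    induction h with
    | stopR _ => intro q' h; simp at h
    | outR _ => intro q' h; simp at h
    | backR _ _ ih => exact ih
    | stopL _ => intro q' h; simp at h
    | outL h1 =>
      intro q' h
      simp only [Out.lft.injEq] at h
      subst h
      rw [splitV_true] at h1
      exact mem_imL.2 ⟨_, h1⟩
    | backL _ _ ih => exact ih
  rw [mul_eq_some] at h
  cases h with
  | lftR h1 => rw [splitV_false] at h1; simp at h1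
  | midR _ h2 => exact key h2 _ rfl
  | midL _ h2 => exact key h2 _ rfl

theorem toLoc_none_false {e z : Box Unit Q} {q : Q} (h : q ∉ imR e) :
    toLoc e z false q = none := by
  by_contra hne
  obtain ⟨o, ho⟩ := Option.ne_none_iff_exists'.1 hne
  unfold toLoc at ho
  rw [mul_assoc, mul_eq_some] at ho
  cases ho with
  | stopR h1 => rw [splitV_false] at h1; exact h h1.1
  | lftR h1 => rw [splitV_false] at h1; exact h h1.1
  | midR h1 _ => rw [splitV_false] at h1; exact h h1.1

theorem toLoc_none_true {e z : Box Unit Q} {q : Q} (h : q ∉ imL e) :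
    toLoc e z true q = none := by
  by_contra hne
  obtain ⟨o, ho⟩ := Option.ne_none_iff_exists'.1 hne
  unfold toLoc at ho
  rw [mul_eq_some] at ho
  cases ho with
  | stopL h1 => rw [splitU_true] at h1; exact h h1.1
  | rgtL h1 => rw [splitU_true] at h1; exact h h1.1
  | midL h1 _ => rw [splitU_true] at h1; exact h h1.1

/-! ### Pieces -/

omit [Fintype Q] in
theorem pval_append {T : Type} (τ0 τ1 : Box Unit Q) (x : T → Bool)
    (L L' : List (Box Unit Q ⊕ T)) :
    pval τ0 τ1 x (L ++ L') = pval τ0 τ1 x L * pval τ0 τ1 x L' := by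
  unfold pval
  rw [List.map_append, List.prod_append]

/-- The pieces of a word. -/
noncomputable def piece {α T : Type} (g : α → Box Unit Q) (e : Box Unit Q) (p : α ⊕ T) :
    List (Box Unit Q ⊕ T) :=
  Sum.elim (fun s => [Sum.inl (g s)])
    (fun t => [Sum.inl (splitU e), Sum.inr t, Sum.inl (splitV e)]) p

theorem pval_pieces {α T : Type} (g : α → Box Unit Q) (L0 L1 : List α)
    (he : word g L0 * word g L0 = word g L0)
    (h1 : word g L0 * word g L1 = word g L1) (h2 : word g L1 * word g L0 = word g L1)
    (x : T → Bool) (c : List (α ⊕ T)) :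
    pval (loc (word g L0)) (toLoc (word g L0) (word g L1)) x
      (c.flatMap (piece g (word g L0))) = word g (expand L0 L1 x c) := by
  induction c with
  | nil => simp [pval, expand, word_nil]
  | cons p c ih =>
    have h3 : expand L0 L1 x (p :: c) =
        (Sum.elim (fun s => [s]) (fun t => if x t then L1 else L0) p) ++ expand L0 L1 x c := by
      unfold expand
      rw [List.flatMap_cons]
    rw [List.flatMap_cons, pval_append, ih, h3, word_append]
    congr 1
    rcases p with s | t
    · simp [piece, pval, word_singleton]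
    · simp only [piece, Sum.elim_inr, pval, List.map_cons, List.map_nil, List.prod_cons,
        List.prod_nil, Sum.elim_inl, id, mul_one]
      by_cases hx : x t = true
      · rw [if_pos hx, if_pos hx, ← mul_assoc, ofLoc, h1, h2]
      · rw [if_neg hx, if_neg hx]
        unfold loc
        calc splitU (word g L0) * (splitV (word g L0) * splitU (word g L0) * splitV (word g L0))
            = (splitU (word g L0) * splitV (word g L0)) *
                (splitU (word g L0) * splitV (word g L0)) := by simp only [mul_assoc]
          _ = word g L0 := by rw [split_mul, he]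

theorem countP_pieces {α T : Type} (g : α → Box Unit Q) (e : Box Unit Q) (c : List (α ⊕ T)) :
    (c.flatMap (piece g e)).countP (fun p => p.isRight) = c.countP (fun p => p.isRight) := by
  induction c with
  | nil => rfl
  | cons p c ih =>
    rw [List.flatMap_cons, List.countP_append, ih, List.countP_cons]
    rcases p with s | t
    · simp [piece]
    · have : (piece g e (Sum.inr t : α ⊕ T)).countP (fun p => p.isRight) = 1 := by
        simp [piece, List.countP_cons]
      rw [this]
      simp [add_comm]

end

open Classical in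
/-- The recursion step, as an inequality. -/
theorem step_ineq (hw : WordsStmt) (hc : CompressStmt) {V : Type} [Fintype V] {s0 f0 : V}
    (hne : s0 ≠ f0) {t : ℕ} (hLB : LB V s0 f0 t) {n : ℕ} (hn : 0 < n) {Q : Type} [Fintype Q]
    (M : BA (Sym (Ext V n)) Q)
    (hM : ∀ w, M.Acc w ↔ RLang (Sum.inl s0 : Ext V n) (Sum.inl f0) w) :
    n * n * t ≤ 36 * Fintype.card V * Fintype.card Q := by
  obtain ⟨L0, L1, c, he, hf, hef, hfe, hrk, hcount, hact⟩ := hw (V := V) n hn M.G
  set e := word M.G L0 with hedef
  set f := word M.G L1 with hfdef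
  have hports := card_ports_toLoc he hef hfe hf
  set τ0 := loc e
  set τ1 := toLoc e f
  have hrk' : rank f ≤ rank e := by rw [← hef]; exact rank_mul_le_left _ _
  have hN : n * n * (ports τ1 τ0).card ≤ 4 * Fintype.card Q := by
    have h1 : (ports τ1 τ0).card ≤ 2 * (rank e - rank f) := by omega
    calc n * n * (ports τ1 τ0).card ≤ n * n * (2 * (rank e - rank f)) := Nat.mul_le_mul_left _ h1
      _ = 2 * (n * n * (rank e - rank f)) := by ring
      _ ≤ 2 * (2 * Fintype.card Q) := Nat.mul_le_mul_left _ hrk
      _ = 4 * Fintype.card Q := by ring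
  -- the cells
  let w : Sym V → List (Sym (Ext V n)) := fun a => expand L0 L1 (bits a) c
  let w0 := w (idSym V)
  obtain ⟨k, hk, hidem⟩ := exists_pow_idem (word M.G w0)
  set e' := word M.G (rep w0 k) with he'def
  have he'pow : e' = word M.G w0 ^ k := word_rep _ _ _
  have he' : e' * e' = e' := by rw [he'pow]; exact hidem
  let m : Sym V → List (Sym (Ext V n)) := fun a => w a ++ rep w0 (k - 1)
  have hm0 : word M.G (m (idSym V)) = e' := by
    show word M.G (w0 ++ rep w0 (k - 1)) = e'
    rw [word_append, word_rep, ← pow_succ', he'pow]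
    congr 1
    omega
  have hact0 : ∀ S : Set V, acts w0 (Sum.inl '' S) = Sum.inl '' S := by
    intro S
    show acts (expand L0 L1 (bits (idSym V)) c) (Sum.inl '' S) = Sum.inl '' S
    rw [hact, idSym_act]
  have hactY : ∀ S : Set V, acts (rep w0 k) (Sum.inl '' S) = (Sum.inl '' S : Set (Ext V n)) :=
    fun S => acts_rep1 _ _ hact0 k S
  have hactm : ∀ (a : Sym V) (S : Set V),
      acts (m a) (Sum.inl '' S) = (Sum.inl '' (a.act S) : Set (Ext V n)) := by
    intro a S
    show acts (w a ++ rep w0 (k - 1)) (Sum.inl '' S) = _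
    rw [acts_append1]
    show acts (rep w0 (k - 1)) (acts (expand L0 L1 (bits a) c) (Sum.inl '' S)) = _
    rw [hact, acts_rep1 _ _ hact0]
  -- the local automaton
  let M1 : BA (Sym V) Q :=
    { G := fun a => toLoc e' (word M.G (m a))
      bl := M.bl * splitU e'
      br := splitV e' * M.br
      start := M.start }
  have hM1 : ∀ ws, M1.Acc ws ↔ RLang s0 f0 ws := by
    intro ws
    have h1 : M1.Acc ws ↔ M.Acc (rep w0 k ++ ws.flatMap (fun a => m a ++ rep w0 k)) := by
      unfold BA.Acc
      have h2 := sandwich M.G (rep w0 k) ws m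
      have h3 : M1.bl * (ws.map M1.G).prod * M1.br =
          M.bl * (splitU e' * (ws.map (fun a => toLoc e' (word M.G (m a)))).prod *
            splitV e') * M.br := by
        show M.bl * splitU e' * (ws.map M1.G).prod * (splitV e' * M.br) = _
        simp only [mul_assoc]
        rfl
      rw [h3, h2]
      rfl
    rw [h1, hM]
    unfold RLang
    have h4 : ({Sum.inl s0} : Set (Ext V n)) = Sum.inl '' {s0} := by simp
    rw [h4, acts_macro Sum.inl (rep w0 k) m hactY hactm]
    constructor
    · rintro ⟨y, hy, hy'⟩
      rw [← Sum.inl_injective hy']; exact hy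
    · intro h
      exact ⟨f0, h, rfl⟩
  -- the ports
  let P : Finset (Bool × Q) :=
    Finset.univ.filter (fun p => if p.1 = true then p.2 ∈ imL e' else p.2 ∈ imR e')
  have hPf : ∀ q, (false, q) ∈ P ↔ q ∈ imR e' := by intro q; simp only [Finset.mem_filter, Finset.mem_univ, Bool.false_eq_true, ↓reduceIte, true_and, P]
  have hPt : ∀ q, (true, q) ∈ P ↔ q ∈ imL e' := by intro q; simp only [Finset.mem_filter, Finset.mem_univ, ↓reduceIte, true_and, P]
  let Lp : List (Box Unit Q ⊕ (Fin 3 × V)) :=
    [Sum.inl (splitV e')] ++ c.flatMap (piece M.G e) ++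
      [Sum.inl (word M.G (rep w0 (k - 1))), Sum.inl (splitU e')]
  have hLpval : ∀ a : Sym V, pval τ0 τ1 (bits a) Lp = toLoc e' (word M.G (m a)) := by
    intro a
    show pval τ0 τ1 (bits a) ([Sum.inl (splitV e')] ++ c.flatMap (piece M.G e) ++
      [Sum.inl (word M.G (rep w0 (k - 1))), Sum.inl (splitU e')]) = _
    rw [pval_append, pval_append, pval_pieces M.G L0 L1 he hef hfe]
    have h1 : pval τ0 τ1 (bits a) [Sum.inl (splitV e')] = splitV e' := by simp [pval]
    have h2 : pval τ0 τ1 (bits a) [Sum.inl (word M.G (rep w0 (k - 1))), Sum.inl (splitU e')] =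
        word M.G (rep w0 (k - 1)) * splitU e' := by simp only [pval, List.map_cons, Sum.elim_inl, id_eq, List.map_nil, List.prod_cons, List.prod_nil, mul_one]
    rw [h1, h2]
    unfold toLoc
    have h3 : word M.G (m a) = word M.G (expand L0 L1 (bits a) c) *
        word M.G (rep w0 (k - 1)) := word_append _ _ _
    rw [h3]
    simp only [mul_assoc]
  have hLpcount : Lp.countP (fun p => p.isRight) = 3 * Fintype.card V := by
    show ([Sum.inl (splitV e')] ++ c.flatMap (piece M.G e) ++
      [Sum.inl (word M.G (rep w0 (k - 1))), Sum.inl (splitU e')] :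
        List (Box Unit Q ⊕ (Fin 3 × V))).countP (fun p => p.isRight) = _
    rw [List.countP_append, List.countP_append, countP_pieces, hcount]
    simp only [Sum.isRight_inl, Bool.false_eq_true, not_false_eq_true, List.countP_cons_of_neg, List.countP_nil, zero_add, add_zero]
  obtain ⟨Act, hActP, hActcard, hActpass⟩ := active τ0 τ1 Lp (bits (idSym V)) P (by
    rintro ⟨s, q⟩ hp
    rw [hLpval, hm0, toLoc_self e' he']
    cases s with
    | false =>
      rw [hPf] at hp
      exact (loc_false he').2 ⟨hp, rfl⟩
    | true =>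
      rw [hPt] at hp
      exact (loc_true he').2 ⟨hp, rfl⟩)
  rw [hLpcount] at hActcard
  have hpass : ∀ a, ∀ p ∈ P, p ∉ Act → M1.G a p.1 p.2 = some (pass p.1 p.2) := by
    intro a p hp hp'
    have := hActpass p hp hp' (bits a)
    rw [hLpval] at this
    exact this
  -- there is an active port
  have hActpos : 0 < Act.card := by
    rw [Finset.card_pos]
    by_contra hemp
    rw [Finset.not_nonempty_iff_eq_empty] at hemp
    have hG : ∀ a, M1.G a = loc e' := by
      intro a
      apply ext'
      intro s q
      cases s with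
      | false =>
        by_cases hq : q ∈ imR e'
        · rw [(loc_false he').2 ⟨hq, rfl⟩]
          exact hpass a (false, q) ((hPf q).2 hq) (by rw [hemp]; simp)
        · have h1 : loc e' false q = none := by
            by_contra hne
            obtain ⟨o, ho⟩ := Option.ne_none_iff_exists'.1 hne
            exact hq ((loc_false he').1 ho).1
          rw [h1]
          exact toLoc_none_false hq
      | true =>
        by_cases hq : q ∈ imL e'
        · rw [(loc_true he').2 ⟨hq, rfl⟩]
          exact hpass a (true, q) ((hPt q).2 hq) (by rw [hemp]; simp)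
        · have h1 : loc e' true q = none := by
            by_contra hne
            obtain ⟨o, ho⟩ := Option.ne_none_iff_exists'.1 hne
            exact hq ((loc_true he').1 ho).1
          rw [h1]
          exact toLoc_none_true hq
    let a1 : Sym V := ⟨fun x => decide (x = s0), fun x => decide (x = f0), fun _ => true⟩
    have h1 : M1.Acc [a1] := by
      rw [hM1]
      show f0 ∈ a1.act {s0}
      simp only [Sym.act, Set.mem_singleton_iff, decide_eq_true_eq, and_self, exists_eq, and_true, Set.mem_ofPred_eq, or_true, a1]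
    have h2 : ¬ M1.Acc [idSym V] := by
      rw [hM1]
      show ¬ f0 ∈ (idSym V).act {s0}
      rw [idSym_act]
      exact fun h => hne (by simpa using h.symm)
    apply h2
    unfold BA.Acc at h1 ⊢
    rw [List.map_cons, hG] at h1 ⊢
    exact h1
  obtain ⟨Q', _, M', hQ', hM'⟩ := hc M1 P Act hActP
    (by
      intro s q q' h
      rw [hPf]
      exact mul_splitU_rgt h)
    (by
      intro s q q' h
      rw [hPt]
      exact splitV_mul_lft h)
    (by
      intro a s q q' h
      rw [hPf]
      exact mul_splitU_rgt (f := splitV e' * word M.G (m a)) h)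
    (by
      intro a s q q' h
      rw [hPt]
      refine splitV_mul_lft (f := word M.G (m a) * splitU e') (s := s) (q := q) ?_
      rw [← mul_assoc]
      exact h)
    hpass
  have ht : t ≤ 2 * Act.card + 1 := by
    rw [← hQ']
    exact hLB Q' M' (fun w => (hM' w).trans (hM1 w))
  calc n * n * t ≤ n * n * (3 * Act.card) := Nat.mul_le_mul_left _ (by omega)
    _ ≤ n * n * (3 * (3 * Fintype.card V * (ports τ1 τ0).card)) := by (clear * - hActcard; gcongr)
    _ = 9 * Fintype.card V * (n * n * (ports τ1 τ0).card) := by ring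
    _ ≤ 9 * Fintype.card V * (4 * Fintype.card Q) := Nat.mul_le_mul_left _ hN
    _ = 36 * Fintype.card V * Fintype.card Q := by ring

end Box
end Vale.Agent.P343
end
end

section

section

namespace Vale.Agent.P343
namespace Box

/-! ### Embeddings of the tracks -/

open Classical in
/-- Transport of a letter along an embedding of the tracks. -/
noncomputable def pushSym {V W : Type} (i : V ↪ W) (a : Sym V) : Sym W where
  src y := decide (∃ x, i x = y ∧ a.src x = true)
  dst y := decide (∃ x, i x = y ∧ a.dst x = true)
  keep y := decide (∃ x, i x = y ∧ a.keep x = true)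

theorem pushSym_act {V W : Type} (i : V ↪ W) (a : Sym V) (S : Set V) :
    (pushSym i a).act (i '' S) = i '' (a.act S) := by
  ext y
  simp only [Sym.act, pushSym, decide_eq_true_eq, Set.mem_ofPred_eq, Set.mem_image]
  constructor
  · rintro ⟨h1, x, rfl, h2⟩
    refine ⟨x, ⟨?_, h2⟩, rfl⟩
    rcases h1 with ⟨z, hz, h3⟩ | ⟨⟨z, h3, hz⟩, u, ⟨u', hu', rfl⟩, u'', h4, hu''⟩
    · have := i.injective h3
      subst this
      exact Or.inl hz
    · have h5 := i.injective h3
      have h6 := i.injective h4
      subst h5
      subst h6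
      exact Or.inr ⟨hz, u'', hu', hu''⟩
  · rintro ⟨x, ⟨h1, h2⟩, rfl⟩
    refine ⟨?_, x, rfl, h2⟩
    rcases h1 with h1 | ⟨h1, u, hu, h3⟩
    · exact Or.inl ⟨x, h1, rfl⟩
    · exact Or.inr ⟨⟨x, rfl, h1⟩, i u, ⟨u, hu, rfl⟩, u, rfl, h3⟩

theorem pushSym_acts {V W : Type} (i : V ↪ W) (w : List (Sym V)) (S : Set V) :
    acts (w.map (pushSym i)) (i '' S) = i '' (acts w S) := by
  induction w generalizing S with
  | nil => rfl
  | cons a w ih =>
    show acts (w.map (pushSym i)) ((pushSym i a).act (i '' S)) = i '' (acts w (a.act S))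
    rw [pushSym_act, ih]

theorem LB_mono {V W : Type} {s0 f0 : V} {t : ℕ} (i : V ↪ W) (h : LB V s0 f0 t) :
    LB W (i s0) (i f0) t := by
  intro Q _ M hM
  apply h Q (M := ⟨fun a => M.G (pushSym i a), M.bl, M.br, M.start⟩)
  intro w
  have h1 := hM (w.map (pushSym i))
  unfold BA.Acc RLang at h1 ⊢
  rw [List.map_map] at h1
  have h2 : (fun a => M.G (pushSym i a)) = M.G ∘ pushSym i := rfl
  rw [h2, h1, ← Set.image_singleton, pushSym_acts]
  exact i.injective.mem_set_image

/-- An embedding with two prescribed values. -/
theorem exists_embedding {X Y : Type} [Fintype X] [Fintype Y] (h : Fintype.card X ≤ Fintype.card Y)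
    {a b : X} {c d : Y} (hab : a ≠ b) (hcd : c ≠ d) : ∃ i : X ↪ Y, i a = c ∧ i b = d := by
  classical
  obtain ⟨e⟩ := Function.Embedding.nonempty_of_card_le h
  have h1 : ∀ x, (e.trans (Equiv.swap (e a) c).toEmbedding) x = Equiv.swap (e a) c (e x) :=
    fun _ => rfl
  obtain ⟨e1, he1⟩ : ∃ e1 : X ↪ Y, e1 a = c :=
    ⟨e.trans (Equiv.swap (e a) c).toEmbedding, by rw [h1, Equiv.swap_apply_left]⟩
  refine ⟨e1.trans (Equiv.swap (e1 b) d).toEmbedding, ?_, ?_⟩
  · show Equiv.swap (e1 b) d (e1 a) = c
    rw [he1, Equiv.swap_apply_of_ne_of_ne _ hcd]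
    rw [← he1]
    exact fun h => hab (e1.injective h)
  · show Equiv.swap (e1 b) d (e1 b) = d
    rw [Equiv.swap_apply_left]

/-! ### The recursion -/

theorem main_rec (hw : WordsStmt) (hc : CompressStmt) : ∀ (j : ℕ) (V : Type) [Fintype V]
    (s0 f0 : V), s0 ≠ f0 → 100 * (j + 1) ^ 2 ≤ Fintype.card V → LB V s0 f0 (2 ^ j) := by
  intro j
  induction j with
  | zero =>
    intro V _ s0 f0 _ _ Q _ M _
    rw [pow_zero]
    exact Fintype.card_pos_iff.2 ⟨M.start⟩
  | succ j ih =>
    intro V _ s0 f0 hne hV
    have hpos : 0 < (j + 1) ^ 2 := by positivity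
    have h2 : 2 ≤ 100 * (j + 1) ^ 2 := by omega
    have hne' : (⟨0, by omega⟩ : Fin (100 * (j + 1) ^ 2)) ≠ ⟨1, by omega⟩ := by
      intro h
      have := congrArg Fin.val h
      simp at this
    have hLB := ih (Fin (100 * (j + 1) ^ 2)) ⟨0, by omega⟩ ⟨1, by omega⟩ hne'
      (by rw [Fintype.card_fin])
    have hcard : Fintype.card (Ext (Fin (100 * (j + 1) ^ 2)) (85 * (j + 1))) ≤ Fintype.card V := by
      rw [Fintype.card_sum, Fintype.card_sum, Fintype.card_sum, Fintype.card_fin, Fintype.card_fin,
        Fintype.card_unit]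
      refine le_trans ?_ hV
      nlinarith only []
    obtain ⟨i, hi1, hi2⟩ := exists_embedding hcard
      (a := (Sum.inl ⟨0, by omega⟩ : Ext (Fin (100 * (j + 1) ^ 2)) (85 * (j + 1))))
      (b := Sum.inl ⟨1, by omega⟩) (fun h => hne' (Sum.inl.inj h)) hne
    rw [← hi1, ← hi2]
    apply LB_mono
    intro Q _ M hM
    have h3 := step_ineq hw hc hne' hLB (n := 85 * (j + 1)) (by omega) M hM
    rw [Fintype.card_fin] at h3
    by_contra h4
    push Not at h4
    have h5 : 0 < 2 ^ j := by positivity
    have h6 : Fintype.card Q + 1 ≤ 2 ^ j * 2 := by rw [← pow_succ]; exact h4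
    have h7 : 85 * (j + 1) * (85 * (j + 1)) * 2 ^ j = (j + 1) ^ 2 * (7225 * 2 ^ j) := by ring
    have h8 : 36 * (100 * (j + 1) ^ 2) * Fintype.card Q = (j + 1) ^ 2 * (3600 * Fintype.card Q) := by
      ring
    rw [h7, h8] at h3
    have h9 := Nat.le_of_mul_le_mul_left h3 hpos
    omega

/-! ### The one-way nondeterministic automaton -/

theorem acts_mono {V : Type} (w : List (Sym V)) {S T : Set V} (h : S ⊆ T) :
    acts w S ⊆ acts w T := by
  induction w generalizing S T with
  | nil => exact h
  | cons a w ih =>
    apply ih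
    rintro y ⟨h1, h2⟩
    refine ⟨?_, h2⟩
    rcases h1 with h1 | ⟨h1, x, hx, h3⟩
    · exact Or.inl (h h1)
    · exact Or.inr ⟨h1, x, h hx, h3⟩

theorem acts_single {V : Type} (w : List (Sym V)) {S : Set V} {z : V} (h : z ∈ acts w S) :
    ∃ y ∈ S, z ∈ acts w {y} := by
  induction w generalizing S with
  | nil => exact ⟨z, h, rfl⟩
  | cons a w ih =>
    obtain ⟨y, ⟨h1, h2⟩, h3⟩ := ih (S := a.act S) h
    rcases h1 with h1 | ⟨h1, x, hx, h4⟩
    · refine ⟨y, h1, ?_⟩
      show z ∈ acts w (a.act {y})
      refine acts_mono w ?_ h3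
      rintro _ rfl
      exact ⟨Or.inl rfl, h2⟩
    · refine ⟨x, hx, ?_⟩
      show z ∈ acts w (a.act {x})
      refine acts_mono w ?_ h3
      rintro _ rfl
      exact ⟨Or.inr ⟨h1, x, rfl, h4⟩, h2⟩

/-- The transitions: states `castSucc x` are tracks, the last state is accepting. -/
inductive RStep (k : ℕ) : Fin (k + 3) → TapeSym (Sym (Fin (k + 2))) → Fin (k + 3) → Move → Prop
  | begin (p : Fin (k + 3)) : RStep k p TapeSym.leftEnd p Move.right
  | letter (a : Sym (Fin (k + 2))) (x y : Fin (k + 2)) : a.keep y = true →
      (y = x ∨ (a.src x = true ∧ a.dst y = true)) →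
      RStep k x.castSucc (TapeSym.letter a) y.castSucc Move.right
  | fin : RStep k (Fin.castSucc 1) TapeSym.rightEnd (Fin.last (k + 2)) Move.stay

/-- A one-way nondeterministic automaton for the language on `k + 2` tracks. -/
def RAut (k : ℕ) : TwoNFA (Sym (Fin (k + 2))) (Fin (k + 3)) where
  start := 0
  accept := {Fin.last (k + 2)}
  step := RStep k
  not_beyond_left := by
    intro p q h
    cases h
  not_beyond_right := by
    intro p q h
    cases h

theorem RAut_oneWay (k : ℕ) : (RAut k).OneWay := by
  intro p a q h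
  cases (h : RStep k p a q Move.left)

theorem tape_app {α : Type} (u : List α) (x : α) (v : List α) :
    tape (u ++ x :: v) (u.length + 1) = TapeSym.letter x := by
  simp only [tape, Nat.add_eq_zero_iff, List.length_eq_zero_iff, one_ne_zero, and_false, ↓reduceIte, add_tsub_cancel_right, List.length_append, List.length_cons, lt_add_iff_pos_right, Order.lt_add_one_iff, zero_le, ↓reduceDIte, List.get_eq_getElem, Std.le_refl, List.getElem_append_right, tsub_self, List.getElem_cons_zero]

theorem tape_end {α : Type} (u : List α) :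
    tape u (u.length + 1) = TapeSym.rightEnd := by
  simp only [tape, Nat.add_eq_zero_iff, List.length_eq_zero_iff, one_ne_zero, and_false, ↓reduceIte, add_tsub_cancel_right, lt_self_iff_false, ↓reduceDIte]

theorem RAut_run (k : ℕ) (v : List (Sym (Fin (k + 2)))) : ∀ (u : List (Sym (Fin (k + 2))))
    (x : Fin (k + 2)), (1 : Fin (k + 2)) ∈ acts v {x} →
      ∃ i, Relation.ReflTransGen ((RAut k).Next (u ++ v)) (u.length + 1, x.castSucc)
        (i, Fin.last (k + 2)) := by
  induction v with
  | nil =>
    intro u x hx
    have h1 : (1 : Fin (k + 2)) = x := hx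
    subst h1
    refine ⟨u.length + 1, Relation.ReflTransGen.single (TwoNFA.Next.stay _ _ _ ?_)⟩
    rw [List.append_nil, tape_end]
    exact RStep.fin
  | cons a v ih =>
    intro u x hx
    obtain ⟨y, ⟨h1, h2⟩, h3⟩ := acts_single (S := a.act {x}) v hx
    obtain ⟨i, h4⟩ := ih (u ++ [a]) y h3
    refine ⟨i, Relation.ReflTransGen.head (b := (u.length + 1 + 1, y.castSucc)) ?_ ?_⟩
    · apply TwoNFA.Next.right
      rw [tape_app]
      refine RStep.letter a x y h2 ?_
      rcases h1 with h1 | ⟨h1, z, hz, h5⟩
      · exact Or.inl h1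
      · have h6 : z = x := hz
        subst h6
        exact Or.inr ⟨h5, h1⟩
    · simpa using h4

theorem RAut_path (k : ℕ) {w : List (Sym (Fin (k + 2)))} {c : ℕ × Fin (k + 3)} {i : ℕ}
    (h : Relation.ReflTransGen ((RAut k).Next w) c (i, Fin.last (k + 2))) :
    ∀ u v, w = u ++ v → c.1 = u.length + 1 →
      c.2 = Fin.last (k + 2) ∨ ∃ x : Fin (k + 2), c.2 = x.castSucc ∧
        (1 : Fin (k + 2)) ∈ acts v {x} := by
  induction h using Relation.ReflTransGen.head_induction_on with
  | refl => intro u v _ _; exact Or.inl rfl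
  | head h1 _ ih =>
    intro u v hw hc
    cases h1 with
    | left t p q' h2 => exact absurd h2 (RAut_oneWay k _ _ _)
    | stay t p q' h2 =>
      simp only at hc ⊢
      subst hc
      cases v with
      | nil =>
        right
        rw [hw, List.append_nil, tape_end] at h2
        cases (h2 : RStep k p TapeSym.rightEnd q' Move.stay)
        exact ⟨1, rfl, rfl⟩
      | cons a v =>
        rw [hw, tape_app] at h2
        cases (h2 : RStep k p (TapeSym.letter a) q' Move.stay)
    | right t p q' h2 =>
      simp only at hc ih ⊢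
      subst hc
      cases v with
      | nil =>
        rw [hw, List.append_nil, tape_end] at h2
        cases (h2 : RStep k p TapeSym.rightEnd q' Move.right)
      | cons a v =>
        rw [hw, tape_app] at h2
        have h3 := ih (u ++ [a]) v (by rw [hw]; simp) (by simp)
        cases (h2 : RStep k p (TapeSym.letter a) q' Move.right) with
        | letter _ x y h4 h5 =>
          right
          refine ⟨x, rfl, ?_⟩
          rcases h3 with h3 | ⟨y', h3, h6⟩
          · exact absurd h3 (Fin.castSucc_lt_last y).ne
          · have h7 : y = y' := Fin.castSucc_injective _ h3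
            subst h7
            show 1 ∈ acts v (a.act {x})
            refine acts_mono v ?_ h6
            rintro _ rfl
            refine ⟨?_, h4⟩
            rcases h5 with h5 | ⟨h5, h8⟩
            · exact Or.inl h5
            · exact Or.inr ⟨h8, x, rfl, h5⟩

theorem RAut_accepts (k : ℕ) (w : List (Sym (Fin (k + 2)))) :
    (RAut k).Accepts w ↔ RLang (0 : Fin (k + 2)) 1 w := by
  have hst : (RAut k).start = (0 : Fin (k + 2)).castSucc := rfl
  constructor
  · rintro ⟨i, q, h1, h2⟩
    have h3 : q = Fin.last (k + 2) := h2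
    subst h3
    rw [Relation.ReflTransGen.cases_head_iff] at h1
    rcases h1 with h1 | ⟨c, h3, h4⟩
    · exfalso
      have h5 := (Prod.mk.inj h1).2
      rw [hst] at h5
      exact (Fin.castSucc_lt_last _).ne h5
    · have h5 : c = (1, (RAut k).start) := by
        generalize hc0 : ((0 : ℕ), (RAut k).start) = c0 at h3
        cases h3 with
        | left t p q' h5 => exact absurd h5 (RAut_oneWay k _ _ _)
        | stay t p q' h5 =>
          obtain ⟨h6, h7⟩ := Prod.mk.inj hc0
          subst h6
          rw [tape_zero] at h5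
          cases (h5 : RStep k p TapeSym.leftEnd q' Move.stay)
        | right t p q' h5 =>
          obtain ⟨h6, h7⟩ := Prod.mk.inj hc0
          subst h6
          rw [tape_zero] at h5
          cases (h5 : RStep k p TapeSym.leftEnd q' Move.right)
          rw [h7]
      subst h5
      rcases RAut_path k h4 [] w rfl rfl with h6 | ⟨x, h6, h7⟩
      · exfalso
        rw [hst] at h6
        exact (Fin.castSucc_lt_last _).ne h6
      · have h8 : (0 : Fin (k + 2)) = x := Fin.castSucc_injective _ (hst.symm.trans h6)
        subst h8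
        exact h7
  · intro h
    obtain ⟨i, h1⟩ := RAut_run k w [] 0 h
    refine ⟨i, _, Relation.ReflTransGen.head ?_ h1, rfl⟩
    apply TwoNFA.Next.right
    rw [tape_zero]
    exact RStep.begin _

theorem card_ge_of_LB {k t : ℕ} (h : LB (Fin (k + 2)) 0 1 t) (s : ℕ)
    (B : TwoNFA (Sym (Fin (k + 2))) (Fin s)) (hB : B.Deterministic)
    (heq : Equivalent (RAut k) B) : t ≤ s := by
  have h1 := h (Fin s) ⟨fun a => cell B (TapeSym.letter a), cell B TapeSym.leftEnd,
    cell B TapeSym.rightEnd, B.start⟩
  rw [Fintype.card_fin] at h1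
  apply h1
  intro w
  rw [← RAut_accepts, heq w, accepts_iff_box hB]
  rfl

instance (V : Type) [Finite V] : Finite (Sym V) := by
  apply Finite.of_injective (fun a : Sym V => (a.src, a.dst, a.keep))
  rintro ⟨a, b, c⟩ ⟨a', b', c'⟩ h
  simp only [Prod.mk.injEq] at h
  obtain ⟨rfl, rfl, rfl⟩ := h
  rfl

/-- The exponential lower bound. -/
theorem exp_lower (hw : WordsStmt) (hc : CompressStmt) (n j : ℕ)
    (hn : 100 * (j + 1) ^ 2 + 1 ≤ n) :
    ∃ (α : Type) (_ : Finite α) (A : TwoNFA α (Fin n)), A.OneWay ∧
      ∀ (s : ℕ) (B : TwoNFA α (Fin s)), B.Deterministic → Equivalent A B → 2 ^ j ≤ s := by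
  have hpos : 0 < (j + 1) ^ 2 := by positivity
  obtain ⟨k, rfl⟩ : ∃ k, n = k + 3 := ⟨n - 3, by omega⟩
  refine ⟨Sym (Fin (k + 2)), inferInstance, RAut k, RAut_oneWay k, ?_⟩
  intro s B hB heq
  refine card_ge_of_LB (main_rec hw hc j (Fin (k + 2)) 0 1 ?_ ?_) s B hB heq
  · intro h
    have h1 := congrArg Fin.val h
    simp at h1
  · rw [Fintype.card_fin]
    omega

/-- Polynomials grow slower than powers of two. -/
theorem poly_lt_two_pow (q : Polynomial ℝ) : ∃ j : ℕ, q.eval (j : ℝ) < 2 ^ j := by
  have h1 : (fun n : ℕ => q.eval (n : ℝ)) =o[Filter.atTop] (fun n : ℕ => (2 : ℝ) ^ n) := by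
    have h2 : (fun n : ℕ => q.eval (n : ℝ)) =
        ∑ i ∈ Finset.range (q.natDegree + 1), fun n : ℕ => q.coeff i * (n : ℝ) ^ i := by
      funext n
      rw [Polynomial.eval_eq_sum_range, Finset.sum_apply]
    rw [h2]
    apply Asymptotics.IsLittleO.sum
    intro i _
    exact (isLittleO_pow_const_const_pow_of_one_lt i (by norm_num)).const_mul_left _
  have h3 := h1.def (c := 1 / 2) (by norm_num)
  obtain ⟨j, hj⟩ := h3.exists
  refine ⟨j, ?_⟩
  have h4 : (0 : ℝ) < 2 ^ j := by positivity
  rw [Real.norm_of_nonneg h4.le] at hj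
  have h5 := (le_abs_self _).trans hj
  linarith only [h4, h5]

theorem no_poly (h : ∀ n j : ℕ, 100 * (j + 1) ^ 2 + 1 ≤ n →
    ∃ (α : Type) (_ : Finite α) (A : TwoNFA α (Fin n)), A.OneWay ∧
      ∀ (s : ℕ) (B : TwoNFA α (Fin s)), B.Deterministic → Equivalent A B → 2 ^ j ≤ s) :
    ¬ ∃ p : Polynomial ℝ, ∀ (α : Type) (_ : Finite α) (n : ℕ) (A : TwoNFA α (Fin n)), A.OneWay →
      ∃ s : ℕ, (s : ℝ) ≤ p.eval (n : ℝ) ∧
        ∃ B : TwoNFA α (Fin s), B.Deterministic ∧ Equivalent A B := by
  rintro ⟨p, hp⟩
  obtain ⟨j, hj⟩ := poly_lt_two_pow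
    (p.comp (Polynomial.C 100 * (Polynomial.X + Polynomial.C 1) ^ 2 + Polynomial.C 1))
  obtain ⟨α, hα, A, hA, hlow⟩ := h _ j (le_refl (100 * (j + 1) ^ 2 + 1))
  obtain ⟨s, hs, B, hB, heq⟩ := hp α hα _ A hA
  have h1 : ((2 : ℝ) ^ j) ≤ s := by exact_mod_cast hlow s B hB heq
  have h2 : (p.comp (Polynomial.C 100 * (Polynomial.X + Polynomial.C 1) ^ 2 +
      Polynomial.C 1)).eval (j : ℝ) = p.eval ((100 * (j + 1) ^ 2 + 1 : ℕ) : ℝ) := by
    rw [Polynomial.eval_comp]
    simp only [map_one, Polynomial.eval_add, Polynomial.eval_mul, Polynomial.eval_C, Polynomial.eval_pow, Polynomial.eval_X, Polynomial.eval_one, Nat.cast_add, Nat.cast_mul, Nat.cast_ofNat, Nat.cast_pow, Nat.cast_one]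
  rw [h2] at hj
  linarith

end Box
end Vale.Agent.P343
end
end

section

section

namespace Vale.Agent.P343
namespace Box

section Tracks

variable {V : Type} {n : ℕ}

/-- The track `w_i`. -/
abbrev trkW (V : Type) {n : ℕ} (i : Fin n) : Ext V n := Sum.inr (Sum.inr (Sum.inl i))

/-- The track `w'_j`. -/
abbrev trkP (V : Type) {n : ℕ} (j : Fin n) : Ext V n := Sum.inr (Sum.inr (Sum.inr j))

/-- The track `z`. -/
abbrev trkZ (V : Type) (n : ℕ) : Ext V n := Sum.inr (Sum.inl ())

/-- Selects the tracks that are neither `w_i` nor `w'_j`. -/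
def isBase : Ext V n → Bool :=
  Sum.elim (fun _ => true) (Sum.elim (fun _ => true) (fun _ => false))

/-- Selects the old tracks. -/
def isOld : Ext V n → Bool := Sum.elim (fun _ => true) (fun _ => false)

/-- Selects `w_i` with `i = a`. -/
def isW (a : ℕ) : Ext V n → Bool :=
  Sum.elim (fun _ => false) (Sum.elim (fun _ => false)
    (Sum.elim (fun k => decide (k.val = a)) (fun _ => false)))

/-- Selects `w'_j` with `j = b`. -/
def isP (b : ℕ) : Ext V n → Bool :=
  Sum.elim (fun _ => false) (Sum.elim (fun _ => false)
    (Sum.elim (fun _ => false) (fun k => decide (k.val = b))))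

open Classical in
/-- Selects one track. -/
noncomputable def isOne (x : Ext V n) : Ext V n → Bool := fun y => decide (y = x)

theorem isOne_iff {x y : Ext V n} : isOne x y = true ↔ y = x := by
  classical
  unfold isOne
  exact decide_eq_true_iff

theorem acts_append {V : Type} (u w : List (Sym V)) (S : Set V) :
    acts (u ++ w) S = acts w (acts u S) := by
  induction u generalizing S with
  | nil => rfl
  | cons a u ih => exact ih _

theorem acts_nil {V : Type} (S : Set V) : acts ([] : List (Sym V)) S = S := rfl

theorem acts_cons {V : Type} (a : Sym V) (w : List (Sym V)) (S : Set V) :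
    acts (a :: w) S = acts w (a.act S) := rfl

theorem mem_act {V : Type} {a : Sym V} {S : Set V} {y : V} :
    y ∈ a.act S ↔ (y ∈ S ∨ (a.dst y = true ∧ ∃ x ∈ S, a.src x = true)) ∧ a.keep y = true :=
  Iff.rfl

/-- The effect of the edges `w_i -> w'_j` with `P i j`. -/
def addE (P : Fin n → Fin n → Prop) (S : Set (Ext V n)) : Set (Ext V n) :=
  {y | y ∈ S ∨ ∃ j, y = trkP V j ∧ ∃ i, P i j ∧ trkW V i ∈ S}

theorem addE_addE (P P' : Fin n → Fin n → Prop) (S : Set (Ext V n)) :
    addE P' (addE P S) = addE (fun i j => P i j ∨ P' i j) S := by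
  ext y
  constructor
  · rintro ((h | ⟨j, rfl, i, h1, h2⟩) | ⟨j, rfl, i, h1, (h2 | ⟨j', h2, _⟩)⟩)
    · exact Or.inl h
    · exact Or.inr ⟨j, rfl, i, Or.inl h1, h2⟩
    · exact Or.inr ⟨j, rfl, i, Or.inr h1, h2⟩
    · simp at h2
  · rintro (h | ⟨j, rfl, i, (h1 | h1), h2⟩)
    · exact Or.inl (Or.inl h)
    · exact Or.inl (Or.inr ⟨j, rfl, i, h1, h2⟩)
    · exact Or.inr ⟨j, rfl, i, h1, Or.inl h2⟩

theorem addE_congr {P P' : Fin n → Fin n → Prop} (h : ∀ i j, P i j ↔ P' i j)
    (S : Set (Ext V n)) : addE P S = addE P' S := by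
  have : P = P' := by
    funext i j; exact propext (h i j)
  rw [this]

/-- The letter that adds the edge number `c`. -/
def edgeN (V : Type) (n c : ℕ) : Sym (Ext V n) where
  src := isW (c / n)
  dst := isP (c % n)
  keep := fun _ => true

theorem isW_iff {a : ℕ} {y : Ext V n} : isW a y = true ↔ ∃ i : Fin n, y = trkW V i ∧ i.val = a := by
  rcases y with v | u | i | j
  · simp only [isW, Sum.elim_inl, Bool.false_eq_true, reduceCtorEq, false_and, exists_false]
  · simp only [isW, Sum.elim_inr, Sum.elim_inl, Bool.false_eq_true, Sum.inr.injEq, reduceCtorEq, false_and, exists_false]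
  · simp only [isW, Sum.elim_inr, Sum.elim_inl, decide_eq_true_eq, Sum.inr.injEq, Sum.inl.injEq, exists_eq_left']
  · simp only [isW, Sum.elim_inr, Bool.false_eq_true, Sum.inr.injEq, reduceCtorEq, false_and, exists_false]

theorem isP_iff {a : ℕ} {y : Ext V n} : isP a y = true ↔ ∃ i : Fin n, y = trkP V i ∧ i.val = a := by
  rcases y with v | u | i | j
  · simp only [isP, Sum.elim_inl, Bool.false_eq_true, reduceCtorEq, false_and, exists_false]
  · simp only [isP, Sum.elim_inr, Sum.elim_inl, Bool.false_eq_true, Sum.inr.injEq, reduceCtorEq, false_and, exists_false]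
  · simp only [isP, Sum.elim_inr, Sum.elim_inl, Bool.false_eq_true, Sum.inr.injEq, reduceCtorEq, false_and, exists_false]
  · simp only [isP, Sum.elim_inr, decide_eq_true_eq, Sum.inr.injEq, exists_eq_left']

theorem act_edgeN (c : ℕ) (S : Set (Ext V n)) :
    (edgeN V n c).act S = addE (fun i j => i.val = c / n ∧ j.val = c % n) S := by
  ext y
  rw [mem_act]
  simp only [edgeN, and_true, isP_iff, isW_iff]
  constructor
  · rintro (h | ⟨⟨j, rfl, h1⟩, x, hx, ⟨i, rfl, h2⟩⟩)
    · exact Or.inl h
    · exact Or.inr ⟨j, rfl, i, ⟨h2, h1⟩, hx⟩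
  · rintro (h | ⟨j, rfl, i, ⟨h2, h1⟩, hx⟩)
    · exact Or.inl h
    · exact Or.inr ⟨⟨j, rfl, h1⟩, _, hx, ⟨i, rfl, h2⟩⟩

theorem acts_rep {w : List (Sym (Ext V n))} {P : Fin n → Fin n → Prop}
    (hw : ∀ S, acts w S = addE P S) (k : ℕ) (hk : 0 < k) (S : Set (Ext V n)) :
    acts (rep w k) S = addE P S := by
  obtain ⟨k, rfl⟩ := Nat.exists_eq_succ_of_ne_zero (Nat.pos_iff_ne_zero.1 hk)
  clear hk
  induction k generalizing S with
  | zero =>
    show acts (w ++ rep w 0) S = _
    rw [acts_append, hw]; rfl
  | succ k ih =>
    show acts (w ++ rep w (k + 1)) S = _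
    rw [acts_append, ih, hw, addE_addE]
    exact addE_congr (fun i j => by simp) S

end Tracks

section Chain

variable {V Q : Type} {n : ℕ} [Fintype Q]

/-- An exponent that makes a box idempotent. -/
noncomputable def idemExp (x : Box Unit Q) : ℕ := Classical.choose (exists_pow_idem x)

theorem idemExp_pos (x : Box Unit Q) : 0 < idemExp x :=
  (Classical.choose_spec (exists_pow_idem x)).1

theorem idemExp_idem (x : Box Unit Q) : x ^ idemExp x * x ^ idemExp x = x ^ idemExp x :=
  (Classical.choose_spec (exists_pow_idem x)).2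

/-- The chain of words `E_c`. -/
noncomputable def chainE (g : Sym (Ext V n) → Box Unit Q) : ℕ → List (Sym (Ext V n))
  | 0 => []
  | c + 1 => rep (chainE g c ++ [edgeN V n c] ++ chainE g c)
      (idemExp (word g (chainE g c ++ [edgeN V n c] ++ chainE g c)))

theorem chainE_succ (g : Sym (Ext V n) → Box Unit Q) (c : ℕ) :
    chainE g (c + 1) = rep (chainE g c ++ [edgeN V n c] ++ chainE g c)
      (idemExp (word g (chainE g c ++ [edgeN V n c] ++ chainE g c))) := rfl

theorem chainE_idem (g : Sym (Ext V n) → Box Unit Q) (c : ℕ) :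
    word g (chainE g c) * word g (chainE g c) = word g (chainE g c) := by
  cases c with
  | zero => show word g [] * word g [] = word g []; rw [word_nil, mul_one]
  | succ c =>
    rw [chainE_succ, word_rep]
    exact idemExp_idem _

theorem chainE_left (g : Sym (Ext V n) → Box Unit Q) (c : ℕ) :
    word g (chainE g c) * word g (chainE g (c + 1)) = word g (chainE g (c + 1)) := by
  rw [chainE_succ, word_rep]
  have hk := idemExp_pos (word g (chainE g c ++ [edgeN V n c] ++ chainE g c))
  obtain ⟨k, hk'⟩ := Nat.exists_eq_succ_of_ne_zero (Nat.pos_iff_ne_zero.1 hk)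
  rw [hk', pow_succ', word_append, word_append]
  simp only [← mul_assoc]
  rw [chainE_idem]

theorem chainE_right (g : Sym (Ext V n) → Box Unit Q) (c : ℕ) :
    word g (chainE g (c + 1)) * word g (chainE g c) = word g (chainE g (c + 1)) := by
  rw [chainE_succ, word_rep]
  have hk := idemExp_pos (word g (chainE g c ++ [edgeN V n c] ++ chainE g c))
  obtain ⟨k, hk'⟩ := Nat.exists_eq_succ_of_ne_zero (Nat.pos_iff_ne_zero.1 hk)
  rw [hk', pow_succ, word_append, word_append]
  simp only [mul_assoc]
  rw [chainE_idem]

theorem acts_chainE (g : Sym (Ext V n) → Box Unit Q) (hn : 0 < n) (c : ℕ) (S : Set (Ext V n)) :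
    acts (chainE g c) S = addE (fun i j => i.val * n + j.val < c) S := by
  induction c generalizing S with
  | zero =>
    show S = _
    ext y
    simp only [addE, not_lt_zero, false_and, exists_false, and_false, or_false, Set.ofPred_mem_eq]
  | succ c ih =>
    rw [chainE_succ]
    apply acts_rep _ _ (idemExp_pos _)
    intro S
    rw [acts_append, acts_append, ih, ih, acts_cons, acts_nil, act_edgeN, addE_addE, addE_addE]
    apply addE_congr
    intro i j
    have h1 : (i.val = c / n ∧ j.val = c % n) ↔ i.val * n + j.val = c := by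
      constructor
      · rintro ⟨h1, h2⟩
        rw [h1, h2]
        have := Nat.div_add_mod c n
        rw [Nat.mul_comm] at this
        exact this
      · intro h
        have hj := j.2
        constructor
        · rw [← h, Nat.add_comm, Nat.add_mul_div_right _ _ hn, Nat.div_eq_of_lt hj, Nat.zero_add]
        · rw [← h, Nat.add_comm, Nat.add_mul_mod_self_right, Nat.mod_eq_of_lt hj]
    rw [h1]
    omega

theorem rank_chainE_mono (g : Sym (Ext V n) → Box Unit Q) (c : ℕ) :
    rank (word g (chainE g (c + 1))) ≤ rank (word g (chainE g c)) := by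
  rw [← chainE_left g c]
  exact rank_mul_le_left _ _

end Chain

section Gadget

variable {V : Type} {n : ℕ}

/-- The letter that starts a gadget. -/
def enter (a : ℕ) (s1 k1 : Ext V n → Bool) : Sym (Ext V n) where
  src := s1
  dst := isW a
  keep := k1

/-- The letter that ends a gadget. -/
def leave (b : ℕ) (d2 : Ext V n → Bool) : Sym (Ext V n) where
  src := isP b
  dst := d2
  keep := isBase

theorem isBase_iff {y : Ext V n} :
    isBase y = true ↔ (∃ v, y = Sum.inl v) ∨ y = trkZ V n := by
  rcases y with v | u | i | j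
  · simp only [isBase, Sum.elim_inl, Sum.inl.injEq, exists_eq', reduceCtorEq, or_false]
  · simp only [isBase, Sum.elim_inr, Sum.elim_inl, reduceCtorEq, exists_false, or_true]
  · simp only [isBase, Sum.elim_inr, Bool.false_eq_true, reduceCtorEq, exists_false, Sum.inr.injEq, or_self]
  · simp only [isBase, Sum.elim_inr, Bool.false_eq_true, reduceCtorEq, exists_false, Sum.inr.injEq, or_self]

theorem gadget (L : List (Sym (Ext V n))) (P : Fin n → Fin n → Prop)
    (hL : ∀ S, acts L S = addE P S) (i0 j0 : Fin n) (s1 k1 d2 : Ext V n → Bool)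
    (hk : ∀ i, k1 (trkW V i) = true) (S : Set (Ext V n)) (hS : ∀ y ∈ S, isBase y = true) :
    acts ([enter i0.val s1 k1] ++ L ++ [leave j0.val d2]) S =
      {y | isBase y = true ∧ ((y ∈ S ∧ k1 y = true) ∨
        (d2 y = true ∧ P i0 j0 ∧ ∃ x ∈ S, s1 x = true))} := by
  rw [acts_append, acts_append, acts_cons, acts_nil, acts_cons, acts_nil, hL]
  have hw : ∀ i, trkW V i ∈ (enter i0.val s1 k1).act S ↔ i = i0 ∧ ∃ x ∈ S, s1 x = true := by
    intro i
    rw [mem_act]
    simp only [enter, isW_iff, hk, and_true]
    constructor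
    · rintro (h | ⟨⟨i', h1, h2⟩, h3⟩)
      · have := hS _ h
        simp [isBase] at this
      · simp only [Sum.inr.injEq, Sum.inl.injEq] at h1
        subst h1
        exact ⟨Fin.ext h2, h3⟩
    · rintro ⟨rfl, h⟩
      exact Or.inr ⟨⟨i, rfl, rfl⟩, h⟩
  have hp : ∀ j, trkP V j ∉ (enter i0.val s1 k1).act S := by
    intro j
    rw [mem_act]
    simp only [enter, isW_iff]
    rintro ⟨(h | ⟨⟨i', h1, h2⟩, h3⟩), _⟩
    · have := hS _ h
      simp [isBase] at this
    · simp at h1
  have hb : ∀ y, isBase y = true → (y ∈ (enter i0.val s1 k1).act S ↔ y ∈ S ∧ k1 y = true) := by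
    intro y hy
    rw [mem_act]
    simp only [enter, isW_iff]
    constructor
    · rintro ⟨(h | ⟨⟨i', rfl, h2⟩, h3⟩), h4⟩
      · exact ⟨h, h4⟩
      · simp [isBase] at hy
    · rintro ⟨h1, h2⟩
      exact ⟨Or.inl h1, h2⟩
  ext y
  rw [mem_act]
  simp only [leave, isP_iff, Set.mem_ofPred_eq]
  constructor
  · rintro ⟨(h | ⟨h1, x, hx, ⟨j, rfl, hj⟩⟩), hy⟩
    · rcases h with h | ⟨j, rfl, _⟩
      · exact ⟨hy, Or.inl ((hb y hy).1 h)⟩
      · simp [isBase] at hy
    · refine ⟨hy, Or.inr ⟨h1, ?_⟩⟩
      rcases hx with h | ⟨j', h2, i, h3, h4⟩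
      · exact absurd h (hp j)
      · simp only [Sum.inr.injEq] at h2
        subst h2
        have hj' : j = j0 := Fin.ext hj
        subst hj'
        obtain ⟨rfl, h5⟩ := (hw i).1 h4
        exact ⟨h3, h5⟩
  · rintro ⟨hy, (h | ⟨h1, h2, h3⟩)⟩
    · exact ⟨Or.inl (Or.inl ((hb y hy).2 h)), hy⟩
    · refine ⟨Or.inr ⟨h1, trkP V j0, Or.inr ⟨j0, rfl, i0, h2, (hw i0).2 ⟨rfl, h3⟩⟩, ⟨j0, rfl, rfl⟩⟩, hy⟩

/-- Sets of old tracks, with `z` if `b`. -/
def mkS (A : Set V) (b : Prop) : Set (Ext V n) :=
  {y | (∃ v ∈ A, y = Sum.inl v) ∨ (b ∧ y = trkZ V n)}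

theorem mkS_base {A : Set V} {b : Prop} : ∀ y ∈ (mkS A b : Set (Ext V n)), isBase y = true := by
  rintro y (⟨v, _, rfl⟩ | ⟨_, rfl⟩) <;> rfl

theorem inl_mem_mkS {A : Set V} {b : Prop} {v : V} :
    (Sum.inl v : Ext V n) ∈ (mkS A b : Set (Ext V n)) ↔ v ∈ A := by
  simp only [mkS, Set.mem_ofPred_eq, Sum.inl.injEq, exists_eq_right', reduceCtorEq, and_false, or_false]

theorem trkZ_mem_mkS {A : Set V} {b : Prop} : trkZ V n ∈ (mkS A b : Set (Ext V n)) ↔ b := by
  simp only [mkS, Set.mem_ofPred_eq, reduceCtorEq, and_false, exists_false, and_true, false_or]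

theorem ext_base {S T : Set (Ext V n)} (hS : ∀ y ∈ S, isBase y = true)
    (hT : ∀ y ∈ T, isBase y = true) (h1 : ∀ v, (Sum.inl v : Ext V n) ∈ S ↔ Sum.inl v ∈ T)
    (h2 : trkZ V n ∈ S ↔ trkZ V n ∈ T) : S = T := by
  ext y
  by_cases hy : isBase y = true
  · rcases isBase_iff.1 hy with ⟨v, rfl⟩ | rfl
    · exact h1 v
    · exact h2
  · exact ⟨fun h => absurd (hS y h) hy, fun h => absurd (hT y h) hy⟩

theorem mkS_inl (A : Set V) : (mkS A False : Set (Ext V n)) = Sum.inl '' A := by
  ext y
  simp only [mkS, false_and, or_false, Set.mem_ofPred_eq, Set.mem_image]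
  constructor
  · rintro ⟨v, h, rfl⟩; exact ⟨v, h, rfl⟩
  · rintro ⟨v, h, rfl⟩; exact ⟨v, h, rfl⟩

variable (L : List (Sym (Ext V n))) (P : Fin n → Fin n → Prop)
    (hL : ∀ S, acts L S = addE P S) (i0 j0 : Fin n)

include hL

theorem gadgetA (x : V) (A : Set V) (b : Prop) :
    acts ([enter i0.val (isOne (Sum.inl x)) (fun _ => true)] ++ L ++
      [leave j0.val (isOne (trkZ V n))]) (mkS A b) = mkS A (b ∨ (P i0 j0 ∧ x ∈ A)) := by
  rw [gadget L P hL i0 j0 _ _ _ (fun _ => rfl) _ mkS_base]
  apply ext_base (fun y hy => hy.1) mkS_base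
  · intro v
    simp only [Set.mem_ofPred_eq, isOne_iff, inl_mem_mkS]
    simp [isBase]
  · simp only [Set.mem_ofPred_eq, isOne_iff, trkZ_mem_mkS]
    simp only [exists_eq_right, inl_mem_mkS]
    simp [isBase]

theorem gadgetB (x : V) (A : Set V) (b : Prop) :
    acts ([enter i0.val (isOne (trkZ V n)) (fun _ => true)] ++ L ++
      [leave j0.val (isOne (Sum.inl x))]) (mkS A b) = mkS {v | v ∈ A ∨ (v = x ∧ P i0 j0 ∧ b)} b := by
  rw [gadget L P hL i0 j0 _ _ _ (fun _ => rfl) _ mkS_base]
  apply ext_base (fun y hy => hy.1) mkS_base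
  · intro v
    simp only [Set.mem_ofPred_eq, isOne_iff, inl_mem_mkS]
    simp only [exists_eq_right, trkZ_mem_mkS]
    simp [isBase]
  · simp only [Set.mem_ofPred_eq, isOne_iff, trkZ_mem_mkS]
    simp [isBase]

theorem gadgetC (x : V) (A : Set V) :
    acts ([enter i0.val (isOne (Sum.inl x)) (fun y => !(isOne (Sum.inl x) y))] ++ L ++
      [leave j0.val (isOne (Sum.inl x))]) (mkS A False) =
      mkS {v | v ∈ A ∧ (v = x → P i0 j0)} False := by
  rw [gadget L P hL i0 j0 _ _ _ (fun i => by simp [isOne]) _ mkS_base]
  apply ext_base (fun y hy => hy.1) mkS_base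
  · intro v
    simp only [Set.mem_ofPred_eq, isOne_iff, inl_mem_mkS]
    simp only [exists_eq_right, inl_mem_mkS]
    have h1 : (!isOne (Sum.inl x : Ext V n) (Sum.inl v)) = true ↔ v ≠ x := by
      rw [Bool.not_eq_true', ← Bool.not_eq_true, isOne_iff]
      simp
    rw [h1]
    simp only [isBase, Sum.elim_inl, true_and, Sum.inl.injEq]
    constructor
    · rintro (⟨h2, h3⟩ | ⟨rfl, h2, h3⟩)
      · exact ⟨h2, fun h => absurd h h3⟩
      · exact ⟨h3, fun _ => h2⟩
    · rintro ⟨h2, h3⟩
      by_cases hv : v = x
      · subst hv; exact Or.inr ⟨rfl, h3 rfl, h2⟩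
      · exact Or.inl ⟨h2, hv⟩
  · simp only [Set.mem_ofPred_eq, isOne_iff, trkZ_mem_mkS]
    simp

end Gadget

theorem expand_append {X T : Type} (L0 L1 : List X) (x : T → Bool) (C D : List (X ⊕ T)) :
    expand L0 L1 x (C ++ D) = expand L0 L1 x C ++ expand L0 L1 x D := by
  unfold expand
  rw [List.flatMap_append]

section Cell

variable {V : Type} {n : ℕ}

/-- First phase of a cell. -/
noncomputable def phase1 (i0 j0 : Fin n) (vs : List V) :
    List (Sym (Ext V n) ⊕ (Fin 3 × V)) :=
  vs.flatMap (fun x => [Sum.inl (enter i0.val (isOne (Sum.inl x)) (fun _ => true)),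
    Sum.inr (0, x), Sum.inl (leave j0.val (isOne (trkZ V n)))])

/-- Second phase of a cell. -/
noncomputable def phase2 (i0 j0 : Fin n) (vs : List V) :
    List (Sym (Ext V n) ⊕ (Fin 3 × V)) :=
  vs.flatMap (fun x => [Sum.inl (enter i0.val (isOne (trkZ V n)) (fun _ => true)),
    Sum.inr (1, x), Sum.inl (leave j0.val (isOne (Sum.inl x)))])

/-- Third phase of a cell. -/
noncomputable def phase3 (i0 j0 : Fin n) (vs : List V) :
    List (Sym (Ext V n) ⊕ (Fin 3 × V)) :=
  vs.flatMap (fun x => [Sum.inl (enter i0.val (isOne (Sum.inl x))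
    (fun y => !(isOne (Sum.inl x) y))),
    Sum.inr (2, x), Sum.inl (leave j0.val (isOne (Sum.inl x)))])

/-- The letter that clears `z`. -/
def clearZ (V : Type) (n : ℕ) : Sym (Ext V n) where
  src := fun _ => false
  dst := fun _ => false
  keep := isOld

/-- The cell. -/
noncomputable def cellP (i0 j0 : Fin n) (vs : List V) : List (Sym (Ext V n) ⊕ (Fin 3 × V)) :=
  phase1 i0 j0 vs ++ (phase2 i0 j0 vs ++ ([Sum.inl (clearZ V n)] ++ phase3 i0 j0 vs))

theorem countP_flatMap3 {X T W : Type} (vs : List W) (f h : W → X) (k : W → T) :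
    (vs.flatMap (fun x => [(Sum.inl (f x) : X ⊕ T), Sum.inr (k x), Sum.inl (h x)])).countP
      (fun p => p.isRight) = vs.length := by
  induction vs with
  | nil => rfl
  | cons x vs ih =>
    rw [List.flatMap_cons, List.countP_append, ih]
    simp only [List.countP_cons, List.countP_nil, List.length_cons]
    simp only [Sum.isRight_inl, Bool.false_eq_true, ↓reduceIte, add_zero, Sum.isRight_inr, zero_add]
    omega

theorem countP_cellP (i0 j0 : Fin n) (vs : List V) :
    (cellP i0 j0 vs).countP (fun p => p.isRight) = 3 * vs.length := by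
  unfold cellP phase1 phase2 phase3
  rw [List.countP_append, List.countP_append, List.countP_append, countP_flatMap3,
    countP_flatMap3, countP_flatMap3]
  simp
  omega

theorem act_clearZ (A : Set V) (b : Prop) : (clearZ V n).act (mkS A b) = mkS A False := by
  apply ext_base _ mkS_base
  · intro v
    rw [mem_act]
    simp [clearZ, isOld, inl_mem_mkS]
  · rw [mem_act]
    simp [clearZ, isOld, trkZ_mem_mkS]
  · intro y hy
    rw [mem_act] at hy
    rcases hy.1 with h | ⟨h, _⟩
    · exact mkS_base y h
    · simp [clearZ] at h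

variable {L0 L1 : List (Sym (Ext V n))} {P0 P1 : Fin n → Fin n → Prop}
    (hL0 : ∀ S, acts L0 S = addE P0 S) (hL1 : ∀ S, acts L1 S = addE P1 S) {i0 j0 : Fin n}
    (h0 : ¬ P0 i0 j0) (h1 : P1 i0 j0)

include hL0 hL1 h0 h1

theorem exists_P (b : Bool) : ∃ P : Fin n → Fin n → Prop,
    (∀ S, acts (if b then L1 else L0) S = addE P S) ∧ (P i0 j0 ↔ b = true) := by
  cases b with
  | false => exact ⟨P0, by simpa using hL0, by simpa using h0⟩
  | true => exact ⟨P1, by simpa using hL1, by simpa using h1⟩

theorem acts_phase1 (a : Sym V) (vs : List V) (A : Set V) (b : Prop) :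
    acts (expand L0 L1 (bits a) (phase1 i0 j0 vs)) (mkS A b) =
      mkS A (b ∨ ∃ x ∈ vs, x ∈ A ∧ a.src x = true) := by
  induction vs generalizing b with
  | nil => simp only [expand, phase1, Fin.isValue, List.flatMap_nil, acts_nil, List.not_mem_nil, false_and, exists_false, or_false]
  | cons x vs ih =>
    obtain ⟨P, hP1, hP2⟩ := exists_P hL0 hL1 h0 h1 (bits a (0, x))
    have e1 : expand L0 L1 (bits a) (phase1 i0 j0 (x :: vs)) =
        ([enter i0.val (isOne (Sum.inl x)) (fun _ => true)] ++
          (if bits a (0, x) then L1 else L0) ++ [leave j0.val (isOne (trkZ V n))]) ++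
          expand L0 L1 (bits a) (phase1 i0 j0 vs) := by
      simp [expand, phase1]
    rw [e1, acts_append, gadgetA _ P hP1, ih]
    congr 1
    rw [hP2]
    apply propext
    simp only [bits, if_true, List.mem_cons, exists_eq_or_imp]
    (clear * - hP2; tauto)

theorem acts_phase2 (a : Sym V) (vs : List V) (A : Set V) (b : Prop) :
    acts (expand L0 L1 (bits a) (phase2 i0 j0 vs)) (mkS A b) =
      mkS {v | v ∈ A ∨ (v ∈ vs ∧ a.dst v = true ∧ b)} b := by
  induction vs generalizing A with
  | nil => simp [phase2, expand, acts_nil]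
  | cons x vs ih =>
    obtain ⟨P, hP1, hP2⟩ := exists_P hL0 hL1 h0 h1 (bits a (1, x))
    have e1 : expand L0 L1 (bits a) (phase2 i0 j0 (x :: vs)) =
        ([enter i0.val (isOne (trkZ V n)) (fun _ => true)] ++
          (if bits a (1, x) then L1 else L0) ++ [leave j0.val (isOne (Sum.inl x))]) ++
          expand L0 L1 (bits a) (phase2 i0 j0 vs) := by
      simp [expand, phase2]
    rw [e1, acts_append, gadgetB _ P hP1, ih]
    congr 1
    ext v
    simp only [Set.mem_ofPred_eq, hP2]
    have e2 : bits a (1, x) = a.dst x := by simp [bits]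
    rw [e2, List.mem_cons]
    constructor
    · rintro ((h | ⟨rfl, h2, h3⟩) | ⟨h2, h3, h4⟩)
      · exact Or.inl h
      · exact Or.inr ⟨Or.inl rfl, h2, h3⟩
      · exact Or.inr ⟨Or.inr h2, h3, h4⟩
    · rintro (h | ⟨(rfl | h2), h3, h4⟩)
      · exact Or.inl (Or.inl h)
      · exact Or.inl (Or.inr ⟨rfl, h3, h4⟩)
      · exact Or.inr ⟨h2, h3, h4⟩

theorem acts_phase3 (a : Sym V) (vs : List V) (A : Set V) :
    acts (expand L0 L1 (bits a) (phase3 i0 j0 vs)) (mkS A False) =
      mkS {v | v ∈ A ∧ (v ∈ vs → a.keep v = true)} False := by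
  induction vs generalizing A with
  | nil => simp [phase3, expand, acts_nil]
  | cons x vs ih =>
    obtain ⟨P, hP1, hP2⟩ := exists_P hL0 hL1 h0 h1 (bits a (2, x))
    have e1 : expand L0 L1 (bits a) (phase3 i0 j0 (x :: vs)) =
        ([enter i0.val (isOne (Sum.inl x)) (fun y => !(isOne (Sum.inl x) y))] ++
          (if bits a (2, x) then L1 else L0) ++ [leave j0.val (isOne (Sum.inl x))]) ++
          expand L0 L1 (bits a) (phase3 i0 j0 vs) := by
      simp [expand, phase3]
    rw [e1, acts_append, gadgetC _ P hP1, ih]
    congr 1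
    ext v
    simp only [Set.mem_ofPred_eq, hP2]
    have e2 : bits a (2, x) = a.keep x := by simp [bits]
    rw [e2, List.mem_cons]
    constructor
    · rintro ⟨⟨h2, h3⟩, h4⟩
      refine ⟨h2, ?_⟩
      rintro (rfl | h5)
      · exact h3 rfl
      · exact h4 h5
    · rintro ⟨h2, h3⟩
      exact ⟨⟨h2, fun h => by subst h; exact h3 (Or.inl rfl)⟩, fun h => h3 (Or.inr h)⟩

theorem acts_cellP (a : Sym V) (vs : List V) (hvs : ∀ v, v ∈ vs) (A : Set V) :
    acts (expand L0 L1 (bits a) (cellP i0 j0 vs)) (Sum.inl '' A) = Sum.inl '' (a.act A) := by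
  unfold cellP
  rw [expand_append, expand_append, expand_append, acts_append, acts_append, acts_append,
    ← mkS_inl, acts_phase1 hL0 hL1 h0 h1, acts_phase2 hL0 hL1 h0 h1]
  have e1 : expand L0 L1 (bits a) [Sum.inl (clearZ V n)] = [clearZ V n] := by
    simp [expand]
  rw [e1, acts_cons, acts_nil, act_clearZ, acts_phase3 hL0 hL1 h0 h1, ← mkS_inl]
  congr 1
  ext v
  rw [mem_act]
  simp only [Set.mem_ofPred_eq, hvs, true_and, false_or, true_imp_iff]

end Cell

/-- R1: the words of the recursion. -/
theorem words_exist (V : Type) [Fintype V] (n : ℕ) (hn : 0 < n) {Q : Type} [Fintype Q]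
    (g : Sym (Ext V n) → Box Unit Q) :
    ∃ (L0 L1 : List (Sym (Ext V n))) (C : List (Sym (Ext V n) ⊕ (Fin 3 × V))),
      word g L0 * word g L0 = word g L0 ∧ word g L1 * word g L1 = word g L1 ∧
      word g L0 * word g L1 = word g L1 ∧ word g L1 * word g L0 = word g L1 ∧
      n * n * (rank (word g L0) - rank (word g L1)) ≤ 2 * Fintype.card Q ∧
      C.countP (fun p => p.isRight) = 3 * Fintype.card V ∧
      ∀ (a : Sym V) (A : Set V),
        acts (expand L0 L1 (bits a) C) (Sum.inl '' A) = Sum.inl '' (a.act A) := by
  classical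
  obtain ⟨c, hc, hdrop⟩ := row_select (m := n * n) (Nat.mul_pos hn hn)
    (fun c => rank (word g (chainE g c))) (rank_chainE_mono g)
  have hi : c / n < n := Nat.div_lt_of_lt_mul hc
  have hj : c % n < n := Nat.mod_lt _ hn
  have hcn : c / n * n + c % n = c := by
    have := Nat.div_add_mod c n
    rwa [Nat.mul_comm] at this
  refine ⟨chainE g c, chainE g (c + 1), cellP ⟨c / n, hi⟩ ⟨c % n, hj⟩ Finset.univ.toList,
    chainE_idem g c, chainE_idem g (c + 1), chainE_left g c, chainE_right g c, ?_, ?_, ?_⟩
  · refine hdrop.trans ?_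
    exact rank_le _
  · rw [countP_cellP, Finset.length_toList]
    rfl
  · intro a A
    apply acts_cellP (P0 := fun i j => i.val * n + j.val < c)
      (P1 := fun i j => i.val * n + j.val < c + 1)
      (fun S => acts_chainE g hn c S) (fun S => acts_chainE g hn (c + 1) S)
    · simp only [hcn]; omega
    · simp only [hcn]; omega
    · intro v
      exact Finset.mem_toList.2 (Finset.mem_univ v)

theorem words : WordsStmt := by
  intro V _ Q _ n hn g
  exact words_exist V n hn g

end Box
end Vale.Agent.P343
end
end

section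

section

namespace Vale.Agent.P343
namespace Box

variable {α Q : Type}

/-- The boxes of a box automaton on a word. -/
noncomputable def chainOf (M : BA α Q) (w : List α) (i : ℕ) : Box Unit Q :=
  if i = 0 then M.bl else if h : i - 1 < w.length then M.G w[i - 1] else M.br

theorem chainOf_zero (M : BA α Q) (w : List α) : chainOf M w 0 = M.bl := by simp [chainOf]

theorem chainOf_last (M : BA α Q) (w : List α) : chainOf M w (w.length + 1) = M.br := by
  simp only [chainOf, Nat.add_eq_zero_iff, List.length_eq_zero_iff, one_ne_zero, and_false, ↓reduceIte, add_tsub_cancel_right, lt_self_iff_false, ↓reduceDIte]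

theorem chainOf_mid (M : BA α Q) (w : List α) (k : ℕ) (h : k < w.length) :
    chainOf M w (k + 1) = M.G w[k] := by
  simp only [chainOf, Nat.add_eq_zero_iff, one_ne_zero, and_false, ↓reduceIte, add_tsub_cancel_right, h, ↓reduceDIte]

theorem acc_iff_ev (M : BA α Q) (w : List α) :
    M.Acc w ↔ Ev (chainOf M w) 0 (w.length + 2) 0 false M.start (Out.stop ()) := by
  rw [← evalBox_false]
  rw [evalBox_split _ (lo := 0) (mid := 0 + 1) (hi := w.length + 2) (by omega) (by omega),
    evalBox_single,
    evalBox_split _ (lo := 0 + 1) (mid := 0 + 1 + w.length) (hi := w.length + 2) (by omega)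
      (by omega),
    evalBox_list _ M.G w (0 + 1)
      (by
        intro k h
        rw [show 0 + 1 + k = k + 1 by omega, chainOf_mid M w k h]
        rfl)]
  have h1 : evalBox (chainOf M w) (0 + 1 + w.length) (w.length + 2) = M.br := by
    rw [show w.length + 2 = (w.length + 1) + 1 by omega, show 0 + 1 + w.length = w.length + 1 by
      omega, evalBox_single, chainOf_last]
  rw [h1, chainOf_zero, ← mul_assoc]
  rfl

/-- Labels of the compressed automaton: active ports and go-labels. -/
abbrev Lab (Act : Finset (Bool × Q)) : Type := {p : Bool × Q // p ∈ Act}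

open Classical in
/-- The left end box that stops when an active port is reached. -/
noncomputable def blh (M : BA α Q) (Act : Finset (Bool × Q)) : Box (Option (Lab Act)) Q :=
  fun s q => match M.bl s q with
    | none => none
    | some (Out.stop _) => some (Out.stop none)
    | some (Out.lft q') => some (Out.lft q')
    | some (Out.rgt q') =>
      if h : (false, q') ∈ Act then some (Out.stop (some ⟨_, h⟩)) else some (Out.rgt q')

open Classical in
/-- The right end box that stops when an active port is reached. -/
noncomputable def brh (M : BA α Q) (Act : Finset (Bool × Q)) : Box (Option (Lab Act)) Q :=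
  fun s q => match M.br s q with
    | none => none
    | some (Out.stop _) => some (Out.stop none)
    | some (Out.rgt q') => some (Out.rgt q')
    | some (Out.lft q') =>
      if h : (true, q') ∈ Act then some (Out.stop (some ⟨_, h⟩)) else some (Out.lft q')

section

variable (Act : Finset (Bool × Q))

/-- States of the compressed automaton. -/
abbrev CState : Type := Option (Lab Act ⊕ Lab Act)

/-- Outcome in a cell of a resolved passive strand. -/
def conv : Option (Out (Option (Lab Act)) Q) → Option (Out Unit (CState Act))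
  | some (Out.stop none) => some (Out.stop ())
  | some (Out.stop (some p)) =>
    if p.1.1 = true then some (Out.rgt (some (Sum.inr p))) else some (Out.lft (some (Sum.inr p)))
  | _ => none

def convL : Option (Out (Option (Lab Act)) Q) → Option (Out Unit (CState Act))
  | some (Out.stop none) => some (Out.stop ())
  | some (Out.stop (some p)) =>
    if p.1.1 = true then some (Out.rgt (some (Sum.inr p))) else some (Out.rgt (some (Sum.inl p)))
  | _ => none

def convR : Option (Out (Option (Lab Act)) Q) → Option (Out Unit (CState Act))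
  | some (Out.stop none) => some (Out.stop ())
  | some (Out.stop (some p)) =>
    if p.1.1 = true then some (Out.lft (some (Sum.inl p))) else some (Out.lft (some (Sum.inr p)))
  | _ => none

open Classical in
noncomputable def tr (M : BA α Q) : Option (Out Unit Q) → Option (Out Unit (CState Act))
  | none => none
  | some (Out.stop _) => some (Out.stop ())
  | some (Out.rgt q') =>
    if h : (false, q') ∈ Act then some (Out.rgt (some (Sum.inl ⟨_, h⟩)))
    else conv Act (midOut (blh M Act) (brh M Act) false q')
  | some (Out.lft q') =>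
    if h : (true, q') ∈ Act then some (Out.lft (some (Sum.inl ⟨_, h⟩)))
    else conv Act (midOut (blh M Act) (brh M Act) true q')

open Classical in
noncomputable def endL (M : BA α Q) : Option (Out Unit Q) → Option (Out Unit (CState Act))
  | none => none
  | some (Out.stop _) => some (Out.stop ())
  | some (Out.lft _) => none
  | some (Out.rgt q') =>
    if h : (false, q') ∈ Act then some (Out.rgt (some (Sum.inl ⟨_, h⟩)))
    else convL Act (midOut (blh M Act) (brh M Act) false q')

open Classical in
noncomputable def endR (M : BA α Q) : Option (Out Unit Q) → Option (Out Unit (CState Act))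
  | none => none
  | some (Out.stop _) => some (Out.stop ())
  | some (Out.rgt _) => none
  | some (Out.lft q') =>
    if h : (true, q') ∈ Act then some (Out.lft (some (Sum.inl ⟨_, h⟩)))
    else convR Act (midOut (blh M Act) (brh M Act) true q')

/-- The compressed automaton. -/
noncomputable def comp (M : BA α Q) : BA α (CState Act) where
  G := fun a s l => match l with
    | none => none
    | some (Sum.inr p) => some (pass s (some (Sum.inr p)))
    | some (Sum.inl p) => if p.1.1 = s then tr Act M (M.G a s p.1.2) else none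
  bl := fun s l => match s, l with
    | false, none => endL Act M (M.bl false M.start)
    | false, some _ => none
    | true, none => none
    | true, some (Sum.inl p) => endL Act M (M.bl true p.1.2)
    | true, some (Sum.inr p) => some (Out.rgt (some (Sum.inl p)))
  br := fun s l => match s, l with
    | true, _ => none
    | false, none => none
    | false, some (Sum.inl p) => endR Act M (M.br false p.1.2)
    | false, some (Sum.inr p) => some (Out.lft (some (Sum.inl p)))
  start := none

end

section proofs

variable {M : BA α Q} {P Act : Finset (Bool × Q)}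
  (hbl : ∀ s q q', M.bl s q = some (Out.rgt q') → (false, q') ∈ P)
  (hbr : ∀ s q q', M.br s q = some (Out.lft q') → (true, q') ∈ P)
  (hGr : ∀ a s q q', M.G a s q = some (Out.rgt q') → (false, q') ∈ P)
  (hGl : ∀ a s q q', M.G a s q = some (Out.lft q') → (true, q') ∈ P)
  (hpass : ∀ a, ∀ p ∈ P, p ∉ Act → M.G a p.1 p.2 = some (pass p.1 p.2))
  {w : List α}

/-- Acceptance of the original chain from a configuration. -/
abbrev HH (M : BA α Q) (w : List α) (i : ℕ) (d : Bool) (q : Q) : Prop :=
  Ev (chainOf M w) 0 (w.length + 2) i d q (Out.stop ())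

theorem cell_box (Act : Finset (Bool × Q)) {i : ℕ} (h1 : 1 ≤ i) (h2 : i ≤ w.length) :
    ∃ a, chainOf M w i = M.G a ∧ chainOf (comp Act M) w i = (comp Act M).G a := by
  obtain ⟨k, rfl⟩ := Nat.exists_eq_add_of_le' h1
  exact ⟨w[k], chainOf_mid M w k (by omega), chainOf_mid (comp Act M) w k (by omega)⟩

include hpass in
theorem passR {q : Q} (hP : (false, q) ∈ P) (hn : (false, q) ∉ Act)
    (h : HH M w (w.length + 1) false q) : ∀ j, 1 ≤ j → j ≤ w.length + 1 → HH M w j false q := by
  have key : ∀ k, k ≤ w.length → HH M w (w.length + 1 - k) false q := by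
    intro k
    induction k with
    | zero => intro _; exact h
    | succ k ih =>
      intro hk
      obtain ⟨a, ha, _⟩ := cell_box (M := M) Act (i := w.length + 1 - (k + 1)) (w := w)
        (by omega) (by omega)
      refine Ev.rr (q' := q) (by omega) (by rw [ha]; exact hpass a _ hP hn) ?_
      rw [show w.length + 1 - (k + 1) + 1 = w.length + 1 - k by omega]
      exact ih (by omega)
  intro j h1 h2
  have := key (w.length + 1 - j) (by omega)
  rwa [show w.length + 1 - (w.length + 1 - j) = j by omega] at this

include hpass in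
theorem passL {q : Q} (hP : (true, q) ∈ P) (hn : (true, q) ∉ Act)
    (h : HH M w 1 true q) : ∀ j, 1 ≤ j → j ≤ w.length + 1 → HH M w j true q := by
  intro j h1
  induction j, h1 using Nat.le_induction with
  | base => intro _; exact h
  | succ j hj ih =>
    intro h2
    obtain ⟨a, ha, _⟩ := cell_box (M := M) Act (i := j) (w := w) hj (by omega)
    exact Ev.ll (q' := q) rfl (by omega) (by rw [ha]; exact hpass a _ hP hn) (ih (by omega))

theorem goR {p : Lab Act}
    (h : HH (comp Act M) w (w.length + 1) true (some (Sum.inl p))) :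
    ∀ j, 1 ≤ j → j ≤ w.length + 1 → HH (comp Act M) w j false (some (Sum.inr p)) := by
  have h0 : HH (comp Act M) w (w.length + 1) false (some (Sum.inr p)) := by
    refine Ev.rl (by omega) ?_ h
    rw [chainOf_last]
    rfl
  have key : ∀ k, k ≤ w.length →
      HH (comp Act M) w (w.length + 1 - k) false (some (Sum.inr p)) := by
    intro k
    induction k with
    | zero => intro _; exact h0
    | succ k ih =>
      intro hk
      obtain ⟨a, _, ha⟩ := cell_box (M := M) Act (i := w.length + 1 - (k + 1)) (w := w)
        (by omega) (by omega)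
      refine Ev.rr (q' := some (Sum.inr p)) (by omega) (by rw [ha]; rfl) ?_
      rw [show w.length + 1 - (k + 1) + 1 = w.length + 1 - k by omega]
      exact ih (by omega)
  intro j h1 h2
  have := key (w.length + 1 - j) (by omega)
  rwa [show w.length + 1 - (w.length + 1 - j) = j by omega] at this

theorem goL {p : Lab Act}
    (h : HH (comp Act M) w 1 false (some (Sum.inl p))) :
    ∀ j, 1 ≤ j → j ≤ w.length + 1 → HH (comp Act M) w j true (some (Sum.inr p)) := by
  have h0 : HH (comp Act M) w 1 true (some (Sum.inr p)) := by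
    refine Ev.lr (i := 0) (by omega) (by omega) ?_ h
    rw [chainOf_zero]
    rfl
  intro j h1
  induction j, h1 using Nat.le_induction with
  | base => intro _; exact h0
  | succ j hj ih =>
    intro h2
    obtain ⟨a, _, ha⟩ := cell_box (M := M) Act (i := j) (w := w) hj (by omega)
    exact Ev.ll (q' := some (Sum.inr p)) rfl (by omega) (by rw [ha]; rfl) (ih (by omega))

/-- The position from which an active port is entered at an end. -/
def pos (w : List α) (b : Bool) : ℕ := if b = true then w.length + 1 else 1

/-- What is known about a passive strand. -/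
def Res (M : BA α Q) (Act : Finset (Bool × Q)) (w : List α) (d : Bool) (q : Q) : Prop :=
  ∃ k, Mid (blh M Act) (brh M Act) d q (Out.stop k) ∧
    ∀ p : Lab Act, k = some p →
      HH (comp Act M) w (pos w p.1.1) p.1.1 (some (Sum.inl p))

/-- What is known about a configuration between two boxes. -/
def FF (M : BA α Q) (Act : Finset (Bool × Q)) (w : List α) (i : ℕ) (d : Bool) (q : Q) : Prop :=
  (∀ h : (d, q) ∈ Act, HH (comp Act M) w i d (some (Sum.inl ⟨(d, q), h⟩))) ∧
    ((d, q) ∉ Act → Res M Act w d q)

/-- Use of `tr` in a cell. -/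
theorem use_tr {i : ℕ} (h1 : 1 ≤ i) (h2 : i ≤ w.length) {s : Bool} {l : CState Act}
    {o : Out Unit Q} (hb : chainOf (comp Act M) w i s l = tr Act M (some o))
    (hr : ∀ q', o = Out.rgt q' → FF M Act w (i + 1) false q')
    (hl : ∀ q', o = Out.lft q' → FF M Act w i true q') :
    HH (comp Act M) w (if s = true then i + 1 else i) s l := by
  -- outcomes of the chain box
  have stop : chainOf (comp Act M) w i s l = some (Out.stop ()) →
      HH (comp Act M) w (if s = true then i + 1 else i) s l := by
    intro h
    cases s with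
    | false => rw [if_neg (by simp)]; exact Ev.stopR (by omega) h
    | true => rw [if_pos rfl]; exact Ev.stopL rfl (by omega) h
  have rgt : ∀ l', chainOf (comp Act M) w i s l = some (Out.rgt l') →
      HH (comp Act M) w (i + 1) false l' →
      HH (comp Act M) w (if s = true then i + 1 else i) s l := by
    intro l' h h'
    cases s with
    | false => rw [if_neg (by simp)]; exact Ev.rr (by omega) h h'
    | true => rw [if_pos rfl]; exact Ev.lr rfl (by omega) h h'
  have lft : ∀ l', chainOf (comp Act M) w i s l = some (Out.lft l') →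
      HH (comp Act M) w i true l' →
      HH (comp Act M) w (if s = true then i + 1 else i) s l := by
    intro l' h h'
    cases s with
    | false => rw [if_neg (by simp)]; exact Ev.rl (by omega) h h'
    | true => rw [if_pos rfl]; exact Ev.ll rfl (by omega) h h'
  have res : ∀ d q, Res M Act w d q →
      chainOf (comp Act M) w i s l = conv Act (midOut (blh M Act) (brh M Act) d q) →
      HH (comp Act M) w (if s = true then i + 1 else i) s l := by
    rintro d q ⟨k, hk, hk'⟩ h
    rw [midOut_eq_some.2 hk] at h
    cases k with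
    | none => exact stop h
    | some p =>
      have h3 := hk' p rfl
      simp only [conv] at h
      by_cases hp : p.1.1 = true
      · rw [if_pos hp] at h
        refine rgt _ h ?_
        apply goR (p := p) _ (i + 1) (by omega) (by omega)
        rw [hp] at h3
        exact h3
      · rw [if_neg hp] at h
        refine lft _ h ?_
        apply goL (p := p) _ i (by omega) (by omega)
        rw [Bool.not_eq_true] at hp
        rw [hp] at h3
        exact h3
  cases o with
  | stop u => exact stop hb
  | rgt q' =>
    simp only [tr] at hb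
    by_cases h : (false, q') ∈ Act
    · rw [dif_pos h] at hb
      exact rgt _ hb ((hr q' rfl).1 h)
    · rw [dif_neg h] at hb
      exact res _ _ ((hr q' rfl).2 h) hb
  | lft q' =>
    simp only [tr] at hb
    by_cases h : (true, q') ∈ Act
    · rw [dif_pos h] at hb
      exact lft _ hb ((hl q' rfl).1 h)
    · rw [dif_neg h] at hb
      exact res _ _ ((hl q' rfl).2 h) hb

/-- Use of `endL`. -/
theorem use_endL {s : Bool} {l : CState Act}
    {o : Out Unit Q} (hb : (comp Act M).bl s l = endL Act M (some o))
    (hno : ∀ q', o ≠ Out.lft q')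
    (hr : ∀ q', o = Out.rgt q' → FF M Act w 1 false q') :
    HH (comp Act M) w (if s = true then 1 else 0) s l := by
  have hb' : chainOf (comp Act M) w 0 s l = endL Act M (some o) := by
    rw [chainOf_zero]; exact hb
  have stop : chainOf (comp Act M) w 0 s l = some (Out.stop ()) →
      HH (comp Act M) w (if s = true then 1 else 0) s l := by
    intro h
    cases s with
    | false => rw [if_neg (by simp)]; exact Ev.stopR (by omega) h
    | true => rw [if_pos rfl]; exact Ev.stopL (i := 0) rfl (by omega) h
  have rgt : ∀ l', chainOf (comp Act M) w 0 s l = some (Out.rgt l') →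
      HH (comp Act M) w 1 false l' →
      HH (comp Act M) w (if s = true then 1 else 0) s l := by
    intro l' h h'
    cases s with
    | false => rw [if_neg (by simp)]; exact Ev.rr (by omega) h h'
    | true => rw [if_pos rfl]; exact Ev.lr (i := 0) rfl (by omega) h h'
  cases o with
  | stop u => exact stop hb'
  | lft q' => exact absurd rfl (hno q')
  | rgt q' =>
    simp only [endL] at hb'
    by_cases h : (false, q') ∈ Act
    · rw [dif_pos h] at hb'
      exact rgt _ hb' ((hr q' rfl).1 h)
    · rw [dif_neg h] at hb'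
      obtain ⟨k, hk, hk'⟩ := (hr q' rfl).2 h
      rw [midOut_eq_some.2 hk] at hb'
      cases k with
      | none => exact stop hb'
      | some p =>
        have h3 := hk' p rfl
        simp only [convL] at hb'
        by_cases hp : p.1.1 = true
        · rw [if_pos hp] at hb'
          refine rgt _ hb' ?_
          apply goR (p := p) _ 1 (by omega) (by omega)
          rw [hp] at h3
          exact h3
        · rw [if_neg hp] at hb'
          refine rgt _ hb' ?_
          rw [Bool.not_eq_true] at hp
          rw [hp] at h3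
          exact h3

/-- Use of `endR`. -/
theorem use_endR {l : CState Act}
    {o : Out Unit Q} (hb : (comp Act M).br false l = endR Act M (some o))
    (hno : ∀ q', o ≠ Out.rgt q')
    (hl : ∀ q', o = Out.lft q' → FF M Act w (w.length + 1) true q') :
    HH (comp Act M) w (w.length + 1) false l := by
  have hb' : chainOf (comp Act M) w (w.length + 1) false l = endR Act M (some o) := by
    rw [chainOf_last]; exact hb
  have stop : chainOf (comp Act M) w (w.length + 1) false l = some (Out.stop ()) →
      HH (comp Act M) w (w.length + 1) false l := by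
    intro h
    exact Ev.stopR (by omega) h
  have lft : ∀ l', chainOf (comp Act M) w (w.length + 1) false l = some (Out.lft l') →
      HH (comp Act M) w (w.length + 1) true l' →
      HH (comp Act M) w (w.length + 1) false l := by
    intro l' h h'
    exact Ev.rl (by omega) h h'
  cases o with
  | stop u => exact stop hb'
  | rgt q' => exact absurd rfl (hno q')
  | lft q' =>
    simp only [endR] at hb'
    by_cases h : (true, q') ∈ Act
    · rw [dif_pos h] at hb'
      exact lft _ hb' ((hl q' rfl).1 h)
    · rw [dif_neg h] at hb'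
      obtain ⟨k, hk, hk'⟩ := (hl q' rfl).2 h
      rw [midOut_eq_some.2 hk] at hb'
      cases k with
      | none => exact stop hb'
      | some p =>
        have h3 := hk' p rfl
        simp only [convR] at hb'
        by_cases hp : p.1.1 = true
        · rw [if_pos hp] at hb'
          refine lft _ hb' ?_
          rw [hp] at h3
          exact h3
        · rw [if_neg hp] at hb'
          refine lft _ hb' ?_
          apply goL (p := p) _ (w.length + 1) (by omega) (by omega)
          rw [Bool.not_eq_true] at hp
          rw [hp] at h3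
          exact h3

theorem not_stop_hi {b : ℕ → Box Unit Q} {lo hi : ℕ} {q : Q}
    (h : Ev b lo hi hi false q (Out.stop ())) : False := by
  cases h with
  | stopR h _ => omega
  | rr h _ _ => omega
  | rl h _ _ => omega

theorem not_stop_lo {b : ℕ → Box Unit Q} {hi : ℕ} {q : Q}
    (h : Ev b 0 hi 0 true q (Out.stop ())) : False := by
  cases h with
  | stopL h _ _ => omega
  | ll h _ _ _ => omega
  | lr h _ _ _ => omega

include hbl hbr hGr hGl hpass in
theorem fwd {i : ℕ} {d : Bool} {q : Q} {o : Out Unit Q}
    (h : Ev (chainOf M w) 0 (w.length + 2) i d q o) :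
    1 ≤ i → i ≤ w.length + 1 → o = Out.stop () → (d, q) ∈ P → FF M Act w i d q := by
  -- a visit of a box entered from the left
  have keyR : ∀ (i : ℕ) (q : Q) (o : Out Unit Q), 1 ≤ i → i ≤ w.length + 1 → (false, q) ∈ P →
      chainOf M w i false q = some o →
      (∀ q', o = Out.rgt q' → i ≤ w.length ∧ ((false, q') ∈ P → FF M Act w (i + 1) false q')) →
      (∀ q', o = Out.lft q' → ((true, q') ∈ P → FF M Act w i true q')) →
      FF M Act w i false q := by
    intro i q o h1 h2 hP hbox hr hl
    by_cases hi : i ≤ w.length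
    · obtain ⟨a, ha, ha'⟩ := cell_box (M := M) Act (i := i) (w := w) h1 hi
      rw [ha] at hbox
      have hr' : ∀ q', o = Out.rgt q' → FF M Act w (i + 1) false q' := by
        intro q' hq'
        exact (hr q' hq').2 (hGr a false q q' (by rw [hbox, hq']))
      have hl' : ∀ q', o = Out.lft q' → FF M Act w i true q' := by
        intro q' hq'
        exact hl q' hq' (hGl a false q q' (by rw [hbox, hq']))
      refine ⟨fun hact => ?_, fun hact => ?_⟩
      · have := use_tr (M := M) (w := w) h1 hi (s := false)
          (l := some (Sum.inl ⟨(false, q), hact⟩)) (o := o) (by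
            rw [ha', ← hbox]
            simp only [comp, ↓reduceIte]) hr' hl'
        simpa using this
      · have h3 : o = Out.rgt q := by
          have := hpass a (false, q) hP hact
          simp only at this
          rw [hbox] at this
          simpa [pass] using this
        exact (hr' q h3).2 hact
    · have hi' : i = w.length + 1 := by omega
      subst hi'
      rw [chainOf_last] at hbox
      have hno : ∀ q', o ≠ Out.rgt q' := by
        intro q' hq'
        have := (hr q' hq').1
        omega
      have hl' : ∀ q', o = Out.lft q' → FF M Act w (w.length + 1) true q' := by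
        intro q' hq'
        exact hl q' hq' (hbr false q q' (by rw [hbox, hq']))
      refine ⟨fun hact => ?_, fun hact => ?_⟩
      · exact use_endR (l := some (Sum.inl ⟨(false, q), hact⟩)) (o := o) (by
          rw [← hbox]; rfl) hno hl'
      · cases o with
        | stop u =>
          exact ⟨none, Mid.stopR (by simp [brh, hbox]), by simp⟩
        | rgt q' => exact absurd rfl (hno q')
        | lft q' =>
          by_cases h3 : (true, q') ∈ Act
          · refine ⟨some ⟨(true, q'), h3⟩, Mid.stopR (by simp [brh, hbox, h3]), ?_⟩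
            intro p hp
            simp only [Option.some.injEq] at hp
            subst hp
            exact (hl' q' rfl).1 h3
          · obtain ⟨k, hk, hk'⟩ := (hl' q' rfl).2 h3
            exact ⟨k, Mid.backR (by simp [brh, hbox, h3]) hk, hk'⟩
  -- a visit of a box entered from the right
  have keyL : ∀ (i : ℕ) (q : Q) (o : Out Unit Q), i ≤ w.length → (true, q) ∈ P →
      chainOf M w i true q = some o →
      (∀ q', o = Out.rgt q' → ((false, q') ∈ P → FF M Act w (i + 1) false q')) →
      (∀ q', o = Out.lft q' → 1 ≤ i ∧ ((true, q') ∈ P → FF M Act w i true q')) →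
      FF M Act w (i + 1) true q := by
    intro i q o h2 hP hbox hr hl
    by_cases hi : 1 ≤ i
    · obtain ⟨a, ha, ha'⟩ := cell_box (M := M) Act (i := i) (w := w) hi h2
      rw [ha] at hbox
      have hr' : ∀ q', o = Out.rgt q' → FF M Act w (i + 1) false q' := by
        intro q' hq'
        exact hr q' hq' (hGr a true q q' (by rw [hbox, hq']))
      have hl' : ∀ q', o = Out.lft q' → FF M Act w i true q' := by
        intro q' hq'
        exact (hl q' hq').2 (hGl a true q q' (by rw [hbox, hq']))
      refine ⟨fun hact => ?_, fun hact => ?_⟩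
      · have := use_tr (M := M) (w := w) hi h2 (s := true)
          (l := some (Sum.inl ⟨(true, q), hact⟩)) (o := o) (by
            rw [ha', ← hbox]
            simp only [comp, ↓reduceIte]) hr' hl'
        simpa using this
      · have h3 : o = Out.lft q := by
          have := hpass a (true, q) hP hact
          simp only at this
          rw [hbox] at this
          simpa [pass] using this
        exact (hl' q h3).2 hact
    · have hi' : i = 0 := by omega
      subst hi'
      rw [chainOf_zero] at hbox
      have hno : ∀ q', o ≠ Out.lft q' := by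
        intro q' hq'
        have := (hl q' hq').1
        omega
      have hr' : ∀ q', o = Out.rgt q' → FF M Act w 1 false q' := by
        intro q' hq'
        exact hr q' hq' (hbl true q q' (by rw [hbox, hq']))
      refine ⟨fun hact => ?_, fun hact => ?_⟩
      · exact use_endL (s := true) (l := some (Sum.inl ⟨(true, q), hact⟩)) (o := o) (by
          rw [← hbox]; rfl) hno hr'
      · cases o with
        | stop u =>
          exact ⟨none, Mid.stopL (by simp [blh, hbox]), by simp⟩
        | lft q' => exact absurd rfl (hno q')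
        | rgt q' =>
          by_cases h3 : (false, q') ∈ Act
          · refine ⟨some ⟨(false, q'), h3⟩, Mid.stopL (by simp [blh, hbox, h3]), ?_⟩
            intro p hp
            simp only [Option.some.injEq] at hp
            subst hp
            exact (hr' q' rfl).1 h3
          · obtain ⟨k, hk, hk'⟩ := (hr' q' rfl).2 h3
            exact ⟨k, Mid.backL (by simp [blh, hbox, h3]) hk, hk'⟩
  induction h with
  | exitR _ => intro _ _ h; simp at h
  | exitL _ => intro _ _ h; simp at h
  | @stopR i q k h1 h2 =>
    intro h3 h4 _ h5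
    exact keyR i q _ h3 h4 h5 h2 (by simp) (by simp)
  | @rr i q q' o h1 h2 h3 ih =>
    intro h4 h5 h6 h7
    have h8 : i ≤ w.length := by
      by_contra hc
      have h9 : i + 1 = w.length + 2 := by omega
      rw [h9, h6] at h3
      exact not_stop_hi h3
    refine keyR i q _ h4 h5 h7 h2 ?_ (by simp)
    intro q1 hq1
    simp only [Out.rgt.injEq] at hq1
    subst hq1
    exact ⟨h8, fun hP => ih (by omega) (by omega) h6 hP⟩
  | @rl i q q' o h1 h2 h3 ih =>
    intro h4 h5 h6 h7
    refine keyR i q _ h4 h5 h7 h2 (by simp) ?_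
    intro q1 hq1
    simp only [Out.lft.injEq] at hq1
    subst hq1
    exact fun hP => ih h4 h5 h6 hP
  | @stopL i j q k hj h1 h2 =>
    intro h3 h4 _ h5
    subst hj
    exact keyL i q _ (by omega) h5 h2 (by simp) (by simp)
  | @ll i j q q' o hj h1 h2 h3 ih =>
    intro h4 h5 h6 h7
    subst hj
    have h8 : 1 ≤ i := by
      by_contra hc
      have h9 : i = 0 := by omega
      subst h9
      rw [h6] at h3
      exact not_stop_lo h3
    refine keyL i q _ (by omega) h7 h2 (by simp) ?_
    intro q1 hq1
    simp only [Out.lft.injEq] at hq1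
    subst hq1
    exact ⟨h8, fun hP => ih h8 (by omega) h6 hP⟩
  | @lr i j q q' o hj h1 h2 h3 ih =>
    intro h4 h5 h6 h7
    subst hj
    refine keyL i q _ (by omega) h7 h2 ?_ (by simp)
    intro q1 hq1
    simp only [Out.rgt.injEq] at hq1
    subst hq1
    exact fun hP => ih h4 h5 h6 hP

/-- A passive strand: from the two-box run back to the chain. -/
theorem blh_cases {s : Bool} {q : Q} {o : Out (Option (Lab Act)) Q}
    (h : blh M Act s q = some o) :
    (M.bl s q = some (Out.stop ()) ∧ o = Out.stop none) ∨
    (∃ q', M.bl s q = some (Out.lft q') ∧ o = Out.lft q') ∨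
    (∃ q', ∃ hq : (false, q') ∈ Act, M.bl s q = some (Out.rgt q') ∧
      o = Out.stop (some ⟨_, hq⟩)) ∨
    (∃ q', (false, q') ∉ Act ∧ M.bl s q = some (Out.rgt q') ∧ o = Out.rgt q') := by
  unfold blh at h
  rcases hb : M.bl s q with _ | (u | q' | q')
  · rw [hb] at h; simp at h
  · rw [hb] at h
    simp only [Option.some.injEq] at h
    exact Or.inl ⟨by cases u; rfl, h.symm⟩
  · rw [hb] at h
    simp only [Option.some.injEq] at h
    exact Or.inr (Or.inl ⟨q', rfl, h.symm⟩)
  · rw [hb] at h
    by_cases hq : (false, q') ∈ Act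
    · simp only [hq, dif_pos, Option.some.injEq] at h
      exact Or.inr (Or.inr (Or.inl ⟨q', hq, rfl, h.symm⟩))
    · simp only [hq, dif_neg, not_false_eq_true, Option.some.injEq] at h
      exact Or.inr (Or.inr (Or.inr ⟨q', hq, rfl, h.symm⟩))

theorem brh_cases {s : Bool} {q : Q} {o : Out (Option (Lab Act)) Q}
    (h : brh M Act s q = some o) :
    (M.br s q = some (Out.stop ()) ∧ o = Out.stop none) ∨
    (∃ q', M.br s q = some (Out.rgt q') ∧ o = Out.rgt q') ∨
    (∃ q', ∃ hq : (true, q') ∈ Act, M.br s q = some (Out.lft q') ∧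
      o = Out.stop (some ⟨_, hq⟩)) ∨
    (∃ q', (true, q') ∉ Act ∧ M.br s q = some (Out.lft q') ∧ o = Out.lft q') := by
  unfold brh at h
  rcases hb : M.br s q with _ | (u | q' | q')
  · rw [hb] at h; simp at h
  · rw [hb] at h
    simp only [Option.some.injEq] at h
    exact Or.inl ⟨by cases u; rfl, h.symm⟩
  · rw [hb] at h
    by_cases hq : (true, q') ∈ Act
    · simp only [hq, dif_pos, Option.some.injEq] at h
      exact Or.inr (Or.inr (Or.inl ⟨q', hq, rfl, h.symm⟩))
    · simp only [hq, dif_neg, not_false_eq_true, Option.some.injEq] at h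
      exact Or.inr (Or.inr (Or.inr ⟨q', hq, rfl, h.symm⟩))
  · rw [hb] at h
    simp only [Option.some.injEq] at h
    exact Or.inr (Or.inl ⟨q', rfl, h.symm⟩)

/-- The resolved label is accepted by the original chain. -/
def KOK (M : BA α Q) (Act : Finset (Bool × Q)) (w : List α) (k : Option (Lab Act)) : Prop :=
  ∀ p : Lab Act, k = some p → HH M w (pos w p.1.1) p.1.1 p.1.2

include hbl hbr hpass in
theorem midB {d : Bool} {q : Q} {o : Out (Option (Lab Act)) Q}
    (h : Mid (blh M Act) (brh M Act) d q o) :
    ∀ k, o = Out.stop k → KOK M Act w k → (d, q) ∈ P → (d, q) ∉ Act →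
      ∀ j, 1 ≤ j → j ≤ w.length + 1 → HH M w j d q := by
  induction h with
  | @stopR q k h1 =>
    intro k' hk hK hP hn
    simp only [Out.stop.injEq] at hk
    subst hk
    apply passR hpass hP hn
    rcases brh_cases h1 with ⟨h2, _⟩ | ⟨q', _, h3⟩ | ⟨q', hq, h2, h3⟩ | ⟨q', _, _, h3⟩
    · exact Ev.stopR (by omega) (by rw [chainOf_last]; exact h2)
    · simp at h3
    · simp only [Out.stop.injEq] at h3
      have := hK _ h3
      exact Ev.rl (by omega) (by rw [chainOf_last]; exact h2) this
    · simp at h3
  | outR _ => intro k hk; simp at hk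
  | @backR q q' o h1 h2 ih =>
    intro k hk hK hP hn
    apply passR hpass hP hn
    rcases brh_cases h1 with ⟨_, h3⟩ | ⟨q', _, h3⟩ | ⟨q', hq, h2, h3⟩ | ⟨q', h4, h5, h3⟩
    · simp at h3
    · simp at h3
    · simp at h3
    · simp only [Out.lft.injEq] at h3
      subst h3
      exact Ev.rl (by omega) (by rw [chainOf_last]; exact h5)
        (ih k hk hK (hbr _ _ _ h5) h4 _ (by omega) (by omega))
  | @stopL q k h1 =>
    intro k' hk hK hP hn
    simp only [Out.stop.injEq] at hk
    subst hk
    apply passL hpass hP hn
    rcases blh_cases h1 with ⟨h2, _⟩ | ⟨q', _, h3⟩ | ⟨q', hq, h2, h3⟩ | ⟨q', _, _, h3⟩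
    · exact Ev.stopL (i := 0) rfl (by omega) (by rw [chainOf_zero]; exact h2)
    · simp at h3
    · simp only [Out.stop.injEq] at h3
      have := hK _ h3
      exact Ev.lr (i := 0) rfl (by omega) (by rw [chainOf_zero]; exact h2) this
    · simp at h3
  | outL _ => intro k hk; simp at hk
  | @backL q q' o h1 h2 ih =>
    intro k hk hK hP hn
    apply passL hpass hP hn
    rcases blh_cases h1 with ⟨_, h3⟩ | ⟨q', _, h3⟩ | ⟨q', hq, h2, h3⟩ | ⟨q', h4, h5, h3⟩
    · simp at h3
    · simp at h3
    · simp at h3
    · simp only [Out.rgt.injEq] at h3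
      subst h3
      exact Ev.lr (i := 0) rfl (by omega) (by rw [chainOf_zero]; exact h5)
        (ih k hk hK (hbl _ _ _ h5) h4 _ (by omega) (by omega))

/-- What acceptance from a configuration of the compressed chain gives. -/
def BB (M : BA α Q) (Act : Finset (Bool × Q)) (w : List α) (i : ℕ) (d : Bool) :
    CState Act → Prop
  | none => True
  | some (Sum.inl p) => p.1.1 = d → HH M w i d p.1.2
  | some (Sum.inr p) => p.1.1 = !d → HH M w (pos w p.1.1) p.1.1 p.1.2

/-- The original outcome `out` was a passive move `d`, `q'`, resolved with result `k`. -/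
def Pas (M : BA α Q) (Act : Finset (Bool × Q)) (out : Option (Out Unit Q)) (d : Bool) (q' : Q)
    (k : Option (Lab Act)) : Prop :=
  (d, q') ∉ Act ∧ out = some (pass d q') ∧ Mid (blh M Act) (brh M Act) d q' (Out.stop k)

theorem conv_cases {m : Option (Out (Option (Lab Act)) Q)} {o' : Out Unit (CState Act)}
    (h : conv Act m = some o') :
    ∃ k, m = some (Out.stop k) ∧ ((k = none ∧ o' = Out.stop ()) ∨
      ∃ p : Lab Act, k = some p ∧ ((p.1.1 = true ∧ o' = Out.rgt (some (Sum.inr p))) ∨
        (p.1.1 = false ∧ o' = Out.lft (some (Sum.inr p))))) := by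
  rcases m with _ | (k | q | q)
  · simp [conv] at h
  · refine ⟨k, rfl, ?_⟩
    rcases k with _ | p
    · simp only [conv, Option.some.injEq] at h
      exact Or.inl ⟨rfl, h.symm⟩
    · simp only [conv] at h
      by_cases hp : p.1.1 = true
      · rw [if_pos hp] at h
        simp only [Option.some.injEq] at h
        exact Or.inr ⟨p, rfl, Or.inl ⟨hp, h.symm⟩⟩
      · rw [if_neg hp] at h
        simp only [Option.some.injEq] at h
        exact Or.inr ⟨p, rfl, Or.inr ⟨by simpa using hp, h.symm⟩⟩
  · simp [conv] at h
  · simp [conv] at h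

theorem tr_cases {out : Option (Out Unit Q)} {o' : Out Unit (CState Act)}
    (h : tr Act M out = some o') :
    (out = some (Out.stop ()) ∧ o' = Out.stop ()) ∨
    (∃ q', ∃ hq : (false, q') ∈ Act, out = some (Out.rgt q') ∧
      o' = Out.rgt (some (Sum.inl ⟨_, hq⟩))) ∨
    (∃ q', ∃ hq : (true, q') ∈ Act, out = some (Out.lft q') ∧
      o' = Out.lft (some (Sum.inl ⟨_, hq⟩))) ∨
    (∃ d q' k, Pas M Act out d q' k ∧ ((k = none ∧ o' = Out.stop ()) ∨
      ∃ p : Lab Act, k = some p ∧ ((p.1.1 = true ∧ o' = Out.rgt (some (Sum.inr p))) ∨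
        (p.1.1 = false ∧ o' = Out.lft (some (Sum.inr p)))))) := by
  rcases out with _ | (u | q' | q')
  · simp [tr] at h
  · simp only [tr, Option.some.injEq] at h
    exact Or.inl ⟨by cases u; rfl, h.symm⟩
  · simp only [tr] at h
    by_cases hq : (true, q') ∈ Act
    · rw [dif_pos hq] at h
      simp only [Option.some.injEq] at h
      exact Or.inr (Or.inr (Or.inl ⟨q', hq, rfl, h.symm⟩))
    · rw [dif_neg hq] at h
      obtain ⟨k, hk, hk'⟩ := conv_cases h
      exact Or.inr (Or.inr (Or.inr ⟨true, q', k, ⟨hq, rfl, midOut_eq_some.1 hk⟩, hk'⟩))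
  · simp only [tr] at h
    by_cases hq : (false, q') ∈ Act
    · rw [dif_pos hq] at h
      simp only [Option.some.injEq] at h
      exact Or.inr (Or.inl ⟨q', hq, rfl, h.symm⟩)
    · rw [dif_neg hq] at h
      obtain ⟨k, hk, hk'⟩ := conv_cases h
      exact Or.inr (Or.inr (Or.inr ⟨false, q', k, ⟨hq, rfl, midOut_eq_some.1 hk⟩, hk'⟩))

theorem endL_cases {out : Option (Out Unit Q)} {o' : Out Unit (CState Act)}
    (h : endL Act M out = some o') :
    (out = some (Out.stop ()) ∧ o' = Out.stop ()) ∨
    (∃ q', ∃ hq : (false, q') ∈ Act, out = some (Out.rgt q') ∧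
      o' = Out.rgt (some (Sum.inl ⟨_, hq⟩))) ∨
    (∃ q' k, Pas M Act out false q' k ∧ ((k = none ∧ o' = Out.stop ()) ∨
      ∃ p : Lab Act, k = some p ∧ ((p.1.1 = true ∧ o' = Out.rgt (some (Sum.inr p))) ∨
        (p.1.1 = false ∧ o' = Out.rgt (some (Sum.inl p)))))) := by
  rcases out with _ | (u | q' | q')
  · simp [endL] at h
  · simp only [endL, Option.some.injEq] at h
    exact Or.inl ⟨by cases u; rfl, h.symm⟩
  · simp [endL] at h
  · simp only [endL] at h
    by_cases hq : (false, q') ∈ Act
    · rw [dif_pos hq] at h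
      simp only [Option.some.injEq] at h
      exact Or.inr (Or.inl ⟨q', hq, rfl, h.symm⟩)
    · rw [dif_neg hq] at h
      rcases hm : midOut (blh M Act) (brh M Act) false q' with _ | (k | q | q)
      · rw [hm] at h; simp [convL] at h
      · rw [hm] at h
        refine Or.inr (Or.inr ⟨q', k, ⟨hq, rfl, midOut_eq_some.1 hm⟩, ?_⟩)
        rcases k with _ | p
        · simp only [convL, Option.some.injEq] at h
          exact Or.inl ⟨rfl, h.symm⟩
        · simp only [convL] at h
          by_cases hp : p.1.1 = true
          · rw [if_pos hp] at h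
            simp only [Option.some.injEq] at h
            exact Or.inr ⟨p, rfl, Or.inl ⟨hp, h.symm⟩⟩
          · rw [if_neg hp] at h
            simp only [Option.some.injEq] at h
            exact Or.inr ⟨p, rfl, Or.inr ⟨by simpa using hp, h.symm⟩⟩
      · rw [hm] at h; simp [convL] at h
      · rw [hm] at h; simp [convL] at h

theorem endR_cases {out : Option (Out Unit Q)} {o' : Out Unit (CState Act)}
    (h : endR Act M out = some o') :
    (out = some (Out.stop ()) ∧ o' = Out.stop ()) ∨
    (∃ q', ∃ hq : (true, q') ∈ Act, out = some (Out.lft q') ∧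
      o' = Out.lft (some (Sum.inl ⟨_, hq⟩))) ∨
    (∃ q' k, Pas M Act out true q' k ∧ ((k = none ∧ o' = Out.stop ()) ∨
      ∃ p : Lab Act, k = some p ∧ ((p.1.1 = true ∧ o' = Out.lft (some (Sum.inl p))) ∨
        (p.1.1 = false ∧ o' = Out.lft (some (Sum.inr p)))))) := by
  rcases out with _ | (u | q' | q')
  · simp [endR] at h
  · simp only [endR, Option.some.injEq] at h
    exact Or.inl ⟨by cases u; rfl, h.symm⟩
  · simp only [endR] at h
    by_cases hq : (true, q') ∈ Act
    · rw [dif_pos hq] at h
      simp only [Option.some.injEq] at h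
      exact Or.inr (Or.inl ⟨q', hq, rfl, h.symm⟩)
    · rw [dif_neg hq] at h
      rcases hm : midOut (blh M Act) (brh M Act) true q' with _ | (k | q | q)
      · rw [hm] at h; simp [convR] at h
      · rw [hm] at h
        refine Or.inr (Or.inr ⟨q', k, ⟨hq, rfl, midOut_eq_some.1 hm⟩, ?_⟩)
        rcases k with _ | p
        · simp only [convR, Option.some.injEq] at h
          exact Or.inl ⟨rfl, h.symm⟩
        · simp only [convR] at h
          by_cases hp : p.1.1 = true
          · rw [if_pos hp] at h
            simp only [Option.some.injEq] at h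
            exact Or.inr ⟨p, rfl, Or.inl ⟨hp, h.symm⟩⟩
          · rw [if_neg hp] at h
            simp only [Option.some.injEq] at h
            exact Or.inr ⟨p, rfl, Or.inr ⟨by simpa using hp, h.symm⟩⟩
      · rw [hm] at h; simp [convR] at h
      · rw [hm] at h; simp [convR] at h
  · simp [endR] at h

include hbl hbr hGr hGl hpass in
theorem bwd {i : ℕ} {d : Bool} {l : CState Act} {o : Out Unit (CState Act)}
    (h : Ev (chainOf (comp Act M) w) 0 (w.length + 2) i d l o) :
    1 ≤ i → i ≤ w.length + 1 → o = Out.stop () → BB M Act w i d l := by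
  -- a cell entered with an active label
  have keyC : ∀ (i : ℕ) (s : Bool) (p : Lab Act) (o' : Out Unit (CState Act)), 1 ≤ i →
      i ≤ w.length → p.1.1 = s →
      chainOf (comp Act M) w i s (some (Sum.inl p)) = some o' →
      (∀ l', o' = Out.rgt l' → BB M Act w (i + 1) false l') →
      (∀ l', o' = Out.lft l' → BB M Act w i true l') →
      HH M w (if s = true then i + 1 else i) s p.1.2 := by
    intro i s p o' h1 h2 hs hbox hr hl
    obtain ⟨a, ha, ha'⟩ := cell_box (M := M) Act (i := i) (w := w) h1 h2
    rw [ha'] at hbox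
    have hbox' : tr Act M (M.G a s p.1.2) = some o' := by
      simpa only [comp, hs, ↓reduceIte] using hbox
    have stop : M.G a s p.1.2 = some (Out.stop ()) →
        HH M w (if s = true then i + 1 else i) s p.1.2 := by
      intro h
      rw [← ha] at h
      cases s with
      | false => rw [if_neg (by simp)]; exact Ev.stopR (by omega) h
      | true => rw [if_pos rfl]; exact Ev.stopL rfl (by omega) h
    have mv : ∀ d q', M.G a s p.1.2 = some (pass d q') →
        HH M w (if d = true then i else i + 1) d q' →
        HH M w (if s = true then i + 1 else i) s p.1.2 := by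
      intro d q' h h'
      rw [← ha] at h
      cases s with
      | false =>
        rw [if_neg (by simp)]
        cases d with
        | false => exact Ev.rr (by omega) h (by simpa using h')
        | true => exact Ev.rl (by omega) h (by simpa using h')
      | true =>
        rw [if_pos rfl]
        cases d with
        | false => exact Ev.lr rfl (by omega) h (by simpa using h')
        | true => exact Ev.ll rfl (by omega) h (by simpa using h')
    rcases tr_cases hbox' with ⟨h3, _⟩ | ⟨q', hq, h3, h4⟩ | ⟨q', hq, h3, h4⟩ |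
      ⟨d, q', k, ⟨hn, h3, hm⟩, hk⟩
    · exact stop h3
    · have h5 := hr _ h4 rfl
      exact mv false q' h3 (by simpa using h5)
    · have h5 := hl _ h4 rfl
      exact mv true q' h3 (by simpa using h5)
    · have hP : (d, q') ∈ P := by
        cases d with
        | false => exact hGr a s _ q' h3
        | true => exact hGl a s _ q' h3
      have hK : KOK M Act w k := by
        intro p' hp'
        rcases hk with ⟨hk, _⟩ | ⟨p'', hk, ⟨h5, h6⟩ | ⟨h5, h6⟩⟩
        · rw [hk] at hp'; simp at hp'
        · rw [hk] at hp'
          simp only [Option.some.injEq] at hp'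
          subst hp'
          exact hr _ h6 (by simpa using h5)
        · rw [hk] at hp'
          simp only [Option.some.injEq] at hp'
          subst hp'
          exact hl _ h6 (by simpa using h5)
      refine mv d q' h3 (midB hbl hbr hpass hm k rfl hK hP hn _ ?_ ?_)
      · split <;> omega
      · split <;> omega
  -- the right end entered with an active label
  have keyE : ∀ (p : Lab Act) (o' : Out Unit (CState Act)), p.1.1 = false →
      chainOf (comp Act M) w (w.length + 1) false (some (Sum.inl p)) = some o' →
      (∀ l', o' = Out.lft l' → BB M Act w (w.length + 1) true l') →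
      HH M w (w.length + 1) false p.1.2 := by
    intro p o' hs hbox hl
    rw [chainOf_last] at hbox
    have hbox' : endR Act M (M.br false p.1.2) = some o' := hbox
    rcases endR_cases hbox' with ⟨h3, _⟩ | ⟨q', hq, h3, h4⟩ | ⟨q', k, ⟨hn, h3, hm⟩, hk⟩
    · exact Ev.stopR (by omega) (by rw [chainOf_last]; exact h3)
    · have h5 := hl _ h4 rfl
      exact Ev.rl (by omega) (by rw [chainOf_last]; exact h3) h5
    · have hP : (true, q') ∈ P := hbr _ _ q' h3
      have hK : KOK M Act w k := by
        intro p' hp'
        rcases hk with ⟨hk, _⟩ | ⟨p'', hk, ⟨h5, h6⟩ | ⟨h5, h6⟩⟩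
        · rw [hk] at hp'; simp at hp'
        · rw [hk] at hp'
          simp only [Option.some.injEq] at hp'
          subst hp'
          have := hl _ h6 h5
          rw [h5]
          exact this
        · rw [hk] at hp'
          simp only [Option.some.injEq] at hp'
          subst hp'
          exact hl _ h6 (by simpa using h5)
      exact Ev.rl (by omega) (by rw [chainOf_last]; exact h3)
        (midB hbl hbr hpass hm k rfl hK hP hn _ (by omega) (by omega))
  -- the left end entered with an active label
  have keyS : ∀ (p : Lab Act) (o' : Out Unit (CState Act)), p.1.1 = true →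
      chainOf (comp Act M) w 0 true (some (Sum.inl p)) = some o' →
      (∀ l', o' = Out.rgt l' → BB M Act w 1 false l') →
      HH M w 1 true p.1.2 := by
    intro p o' hs hbox hr
    rw [chainOf_zero] at hbox
    have hbox' : endL Act M (M.bl true p.1.2) = some o' := hbox
    rcases endL_cases hbox' with ⟨h3, _⟩ | ⟨q', hq, h3, h4⟩ | ⟨q', k, ⟨hn, h3, hm⟩, hk⟩
    · exact Ev.stopL (i := 0) rfl (by omega) (by rw [chainOf_zero]; exact h3)
    · have h5 := hr _ h4 rfl
      exact Ev.lr (i := 0) rfl (by omega) (by rw [chainOf_zero]; exact h3) h5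
    · have hP : (false, q') ∈ P := hbl _ _ q' h3
      have hK : KOK M Act w k := by
        intro p' hp'
        rcases hk with ⟨hk, _⟩ | ⟨p'', hk, ⟨h5, h6⟩ | ⟨h5, h6⟩⟩
        · rw [hk] at hp'; simp at hp'
        · rw [hk] at hp'
          simp only [Option.some.injEq] at hp'
          subst hp'
          exact hr _ h6 (by simpa using h5)
        · rw [hk] at hp'
          simp only [Option.some.injEq] at hp'
          subst hp'
          have := hr _ h6 h5
          rw [h5]
          exact this
      exact Ev.lr (i := 0) rfl (by omega) (by rw [chainOf_zero]; exact h3)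
        (midB hbl hbr hpass hm k rfl hK hP hn _ (by omega) (by omega))
  -- all visits from the left
  have keyR : ∀ (i : ℕ) (l : CState Act) (o' : Out Unit (CState Act)), 1 ≤ i →
      i ≤ w.length + 1 → chainOf (comp Act M) w i false l = some o' →
      (∀ l', o' = Out.rgt l' → i ≤ w.length ∧ BB M Act w (i + 1) false l') →
      (∀ l', o' = Out.lft l' → BB M Act w i true l') →
      BB M Act w i false l := by
    intro i l o' h1 h2 hbox hr hl
    rcases l with _ | (p | p)
    · trivial
    · intro hs
      by_cases hi : i ≤ w.length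
      · have := keyC i false p o' h1 hi hs hbox (fun l' h => (hr l' h).2) hl
        simpa using this
      · have hi' : i = w.length + 1 := by omega
        subst hi'
        exact keyE p o' hs hbox hl
    · intro hs
      by_cases hi : i ≤ w.length
      · obtain ⟨a, _, ha'⟩ := cell_box (M := M) Act (i := i) (w := w) h1 hi
        rw [ha'] at hbox
        have h3 : o' = Out.rgt (some (Sum.inr p)) := by
          simpa only [comp, pass, Bool.false_eq_true, ↓reduceIte, Option.some.injEq] using hbox.symm
        exact (hr _ h3).2 hs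
      · have hi' : i = w.length + 1 := by omega
        subst hi'
        rw [chainOf_last] at hbox
        have h3 : o' = Out.lft (some (Sum.inl p)) := by
          simpa only [comp, Option.some.injEq] using hbox.symm
        have h4 := hl _ h3 (by simpa using hs)
        have h5 : p.1.1 = true := by simpa using hs
        rw [h5]
        exact h4
  have keyL : ∀ (i : ℕ) (l : CState Act) (o' : Out Unit (CState Act)),
      i ≤ w.length → chainOf (comp Act M) w i true l = some o' →
      (∀ l', o' = Out.rgt l' → BB M Act w (i + 1) false l') →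
      (∀ l', o' = Out.lft l' → 1 ≤ i ∧ BB M Act w i true l') →
      BB M Act w (i + 1) true l := by
    intro i l o' h2 hbox hr hl
    rcases l with _ | (p | p)
    · trivial
    · intro hs
      by_cases hi : 1 ≤ i
      · have := keyC i true p o' hi h2 hs hbox hr (fun l' h => (hl l' h).2)
        simpa using this
      · have hi' : i = 0 := by omega
        subst hi'
        exact keyS p o' hs hbox hr
    · intro hs
      by_cases hi : 1 ≤ i
      · obtain ⟨a, _, ha'⟩ := cell_box (M := M) Act (i := i) (w := w) hi h2
        rw [ha'] at hbox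
        have h3 : o' = Out.lft (some (Sum.inr p)) := by
          simpa only [comp, pass, ↓reduceIte, Option.some.injEq] using hbox.symm
        exact (hl _ h3).2 hs
      · have hi' : i = 0 := by omega
        subst hi'
        rw [chainOf_zero] at hbox
        have h3 : o' = Out.rgt (some (Sum.inl p)) := by
          simpa only [comp, Option.some.injEq] using hbox.symm
        have h4 := hr _ h3 (by simpa using hs)
        have h5 : p.1.1 = false := by simpa using hs
        rw [h5]
        exact h4
  induction h with
  | exitR _ => intro _ _ h; simp at h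
  | exitL _ => intro _ _ h; simp at h
  | @stopR i q k h1 h2 =>
    intro h3 h4 _
    exact keyR i q _ h3 h4 h2 (by simp) (by simp)
  | @rr i q q' o h1 h2 h3 ih =>
    intro h4 h5 h6
    have h8 : i ≤ w.length := by
      by_contra hc
      have h9 : i + 1 = w.length + 2 := by omega
      rw [h9, h6] at h3
      exact not_stop_hi h3
    refine keyR i q _ h4 h5 h2 ?_ (by simp)
    intro q1 hq1
    simp only [Out.rgt.injEq] at hq1
    subst hq1
    exact ⟨h8, ih (by omega) (by omega) h6⟩
  | @rl i q q' o h1 h2 h3 ih =>
    intro h4 h5 h6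
    refine keyR i q _ h4 h5 h2 (by simp) ?_
    intro q1 hq1
    simp only [Out.lft.injEq] at hq1
    subst hq1
    exact ih h4 h5 h6
  | @stopL i j q k hj h1 h2 =>
    intro h3 h4 _
    subst hj
    exact keyL i q _ (by omega) h2 (by simp) (by simp)
  | @ll i j q q' o hj h1 h2 h3 ih =>
    intro h4 h5 h6
    subst hj
    have h8 : 1 ≤ i := by
      by_contra hc
      have h9 : i = 0 := by omega
      subst h9
      rw [h6] at h3
      exact not_stop_lo h3
    refine keyL i q _ (by omega) h2 (by simp) ?_
    intro q1 hq1
    simp only [Out.lft.injEq] at hq1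
    subst hq1
    exact ⟨h8, ih h8 (by omega) h6⟩
  | @lr i j q q' o hj h1 h2 h3 ih =>
    intro h4 h5 h6
    subst hj
    refine keyL i q _ (by omega) h2 ?_ (by simp)
    intro q1 hq1
    simp only [Out.rgt.injEq] at hq1
    subst hq1
    exact ih h4 h5 h6

include hbl hbr hGr hGl hpass in
theorem comp_acc (w : List α) : (comp Act M).Acc w ↔ M.Acc w := by
  rw [acc_iff_ev, acc_iff_ev]
  constructor
  · intro h
    have h' : Ev (chainOf (comp Act M) w) 0 (w.length + 2) 0 false none (Out.stop ()) := h
    have hB : ∀ l', Ev (chainOf (comp Act M) w) 0 (w.length + 2) 1 false l' (Out.stop ()) →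
        BB M Act w 1 false l' := fun l' h => bwd hbl hbr hGr hGl hpass h le_rfl (by omega) rfl
    have key : ∀ o', endL Act M (M.bl false M.start) = some o' →
        (∀ l', o' = Out.rgt l' → BB M Act w 1 false l') →
        Ev (chainOf M w) 0 (w.length + 2) 0 false M.start (Out.stop ()) := by
      intro o' hbox hr
      rcases endL_cases hbox with ⟨h3, _⟩ | ⟨q', hq, h3, h4⟩ | ⟨q', k, ⟨hn, h3, hm⟩, hk⟩
      · exact Ev.stopR (by omega) (by rw [chainOf_zero]; exact h3)
      · have h5 := hr _ h4 rfl
        exact Ev.rr (by omega) (by rw [chainOf_zero]; exact h3) h5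
      · have hP : (false, q') ∈ P := hbl _ _ q' h3
        have hK : KOK M Act w k := by
          intro p' hp'
          rcases hk with ⟨hk, _⟩ | ⟨p'', hk, ⟨h5, h6⟩ | ⟨h5, h6⟩⟩
          · rw [hk] at hp'; simp at hp'
          · rw [hk] at hp'
            simp only [Option.some.injEq] at hp'
            subst hp'
            exact hr _ h6 (by simpa using h5)
          · rw [hk] at hp'
            simp only [Option.some.injEq] at hp'
            subst hp'
            have := hr _ h6 h5
            rw [h5]
            exact this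
        exact Ev.rr (by omega) (by rw [chainOf_zero]; exact h3)
          (midB hbl hbr hpass hm k rfl hK hP hn _ (by omega) (by omega))
    cases h' with
    | stopR h1 h2 =>
      rw [chainOf_zero] at h2
      exact key _ h2 (by simp)
    | @rr _ _ l' _ h1 h2 h3 =>
      rw [chainOf_zero] at h2
      refine key _ h2 ?_
      intro l1 hl1
      simp only [Out.rgt.injEq] at hl1
      subst hl1
      exact hB _ h3
    | @rl _ _ l' _ h1 h2 h3 => exact (not_stop_lo h3).elim
  · intro h
    show Ev (chainOf (comp Act M) w) 0 (w.length + 2) 0 false none (Out.stop ())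
    have key : ∀ o, M.bl false M.start = some o → (∀ q', o ≠ Out.lft q') →
        (∀ q', o = Out.rgt q' → FF M Act w 1 false q') →
        Ev (chainOf (comp Act M) w) 0 (w.length + 2) 0 false none (Out.stop ()) := by
      intro o ho h1 h2
      have := use_endL (M := M) (Act := Act) (w := w) (s := false) (l := none) (o := o)
        (by rw [← ho]; rfl) h1 h2
      simpa using this
    cases h with
    | stopR h1 h2 =>
      rw [chainOf_zero] at h2
      exact key _ h2 (by simp) (by simp)
    | @rr _ _ q' _ h1 h2 h3 =>
      rw [chainOf_zero] at h2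
      refine key _ h2 (by simp) ?_
      intro q1 hq1
      simp only [Out.rgt.injEq] at hq1
      subst hq1
      exact fwd hbl hbr hGr hGl hpass h3 le_rfl (by omega) rfl (hbl _ _ _ h2)
    | @rl _ _ q' _ h1 h2 h3 => exact (not_stop_lo h3).elim

end proofs

/-- Removing the passive strands. -/
theorem compress {α Q : Type} [Fintype Q] (M : BA α Q) (P Act : Finset (Bool × Q)) (_ : Act ⊆ P)
    (hbl : ∀ s q q', M.bl s q = some (Out.rgt q') → (false, q') ∈ P)
    (hbr : ∀ s q q', M.br s q = some (Out.lft q') → (true, q') ∈ P)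
    (hGr : ∀ a s q q', M.G a s q = some (Out.rgt q') → (false, q') ∈ P)
    (hGl : ∀ a s q q', M.G a s q = some (Out.lft q') → (true, q') ∈ P)
    (hpass : ∀ a, ∀ p ∈ P, p ∉ Act → M.G a p.1 p.2 = some (pass p.1 p.2)) :
    ∃ (Q' : Type) (_ : Fintype Q') (M' : BA α Q'), Fintype.card Q' = 2 * Act.card + 1 ∧
      ∀ w, M'.Acc w ↔ M.Acc w := by
  classical
  refine ⟨CState Act, inferInstance, comp Act M, ?_, fun w => comp_acc hbl hbr hGr hGl hpass w⟩
  rw [Fintype.card_option, Fintype.card_sum, Fintype.card_coe]
  omega

end Box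
end Vale.Agent.P343
end
end

section

section

namespace Vale.Agent.P343

/-- One-way nondeterministic automata with `n` states can need exponentially many (in the square
root of `n`) states in every equivalent two-way deterministic automaton. -/
theorem exponential_lower (n j : ℕ) (hn : 100 * (j + 1) ^ 2 + 1 ≤ n) :
    ∃ (α : Type) (_ : Finite α) (A : TwoNFA α (Fin n)), A.OneWay ∧
      ∀ (s : ℕ) (B : TwoNFA α (Fin s)), B.Deterministic → Equivalent A B → 2 ^ j ≤ s :=
  Box.exp_lower Box.words (fun M P Act h1 h2 h3 h4 h5 h6 => Box.compress M P Act h1 h2 h3 h4 h5 h6)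
    n j hn

theorem no_polynomial_oneWay :
    ¬ ∃ p : Polynomial ℝ, ∀ (α : Type) (_ : Finite α) (n : ℕ) (A : TwoNFA α (Fin n)), A.OneWay →
      ∃ s : ℕ, (s : ℝ) ≤ p.eval (n : ℝ) ∧
        ∃ B : TwoNFA α (Fin s), B.Deterministic ∧ Equivalent A B :=
  Box.no_poly exponential_lower

theorem no_polynomial :
    ¬ ∃ p : Polynomial ℝ, ∀ (α : Type) (_ : Finite α) (n : ℕ) (A : TwoNFA α (Fin n)),
      ∃ s : ℕ, (s : ℝ) ≤ p.eval (n : ℝ) ∧
        ∃ B : TwoNFA α (Fin s), B.Deterministic ∧ Equivalent A B := by
  rintro ⟨p, hp⟩
  exact no_polynomial_oneWay ⟨p, fun α hα n A _ => hp α hα n A⟩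

end Vale.Agent.P343
end
end

section

section

namespace Vale.Agent.P343
namespace Box

variable {Q : Type}

/-- Number of positions at which a predicate holds. -/
theorem card_pos_pred {A : Type} (L : List A) (r : A → Bool) (S : Finset ℕ)
    (hS : ∀ i, i ∈ S ↔ ∃ h : i < L.length, r L[i] = true) :
    S.card = L.countP r := by
  induction L generalizing S with
  | nil =>
    have : S = ∅ := by
      apply Finset.eq_empty_of_forall_notMem
      intro i hi
      obtain ⟨h, _⟩ := (hS i).1 hi
      simp at h
    rw [this]; rfl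
  | cons a L ih =>
    classical
    rw [List.countP_cons]
    set S' : Finset ℕ := (S.erase 0).image (fun i => i - 1) with hS'
    have h1 : S'.card = (S.erase 0).card := by
      apply Finset.card_image_of_injOn
      intro i hi j hj hij
      have hi' : i ≠ 0 := (Finset.mem_erase.1 (Finset.mem_coe.1 hi)).1
      have hj' : j ≠ 0 := (Finset.mem_erase.1 (Finset.mem_coe.1 hj)).1
      simp only at hij
      omega
    have h2 : S'.card = L.countP r := by
      apply ih
      intro i
      rw [hS', Finset.mem_image]
      constructor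
      · rintro ⟨j, hj, hij⟩
        rw [Finset.mem_erase] at hj
        obtain ⟨hl, hr⟩ := (hS j).1 hj.2
        obtain ⟨k, rfl⟩ := Nat.exists_eq_succ_of_ne_zero hj.1
        have : i = k := by simpa only [Nat.succ_eq_add_one, add_tsub_cancel_right] using hij.symm
        subst this
        exact ⟨by simpa using hl, by simpa using hr⟩
      · rintro ⟨hl, hr⟩
        refine ⟨i + 1, ?_, by simp only [add_tsub_cancel_right]⟩
        rw [Finset.mem_erase]
        refine ⟨by omega, (hS (i + 1)).2 ⟨by simpa using hl, by simpa using hr⟩⟩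
    have h3 : (0 ∈ S) ↔ r a = true := by
      rw [hS 0]
      constructor
      · rintro ⟨_, h⟩; simpa using h
      · intro h; exact ⟨by simp, by simpa using h⟩
    by_cases ha : r a = true
    · rw [← h2, h1, if_pos ha, Finset.card_erase_of_mem (h3.2 ha)]
      have : 0 < S.card := Finset.card_pos.2 ⟨0, h3.2 ha⟩
      omega
    · rw [← h2, h1, if_neg ha, Finset.erase_eq_of_notMem (fun h => ha (h3.1 h))]
      simp

open Classical in
/-- The predicate that selects the toggle `t`. -/
noncomputable def isT {A T : Type} (t : T) : A ⊕ T → Bool :=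
  Sum.elim (fun _ => false) (fun t' => decide (t' = t))

theorem isT_iff {A T : Type} {t : T} {p : A ⊕ T} : isT t p = true ↔ p = Sum.inr t := by
  classical
  rcases p with a | t'
  · simp [isT]
  · simp [isT]

open Classical in
/-- The active ports of a list of pieces, toggle by toggle. -/
theorem active_fine {T : Type} [Fintype Q] (τ0 τ1 : Box Unit Q) (L : List (Box Unit Q ⊕ T))
    (x0 : T → Bool) (P : Finset (Bool × Q))
    (hP : ∀ p ∈ P, pval τ0 τ1 x0 L p.1 p.2 = some (pass p.1 p.2)) :
    ∃ Act : T → Finset (Bool × Q),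
      (∀ t, (Act t).card ≤ L.countP (isT t) * (ports τ1 τ0).card) ∧
      ∀ p ∈ P, ∀ x : T → Bool, (∀ t, x t ≠ x0 t → p ∉ Act t) →
        pval τ0 τ1 x L p.1 p.2 = some (pass p.1 p.2) := by
  let c : (T → Bool) → ℕ → Box Unit Q :=
    fun x => chain (baseAt τ0 L) (baseAt τ1 L) (bitAt x L)
  let I : T → Finset ℕ := fun t => (Finset.range L.length).filter
    (fun i => ∃ h : i < L.length, isT t L[i] = true)
  have hI : ∀ t i, i ∈ I t ↔ ∃ h : i < L.length, isT t L[i] = true := by
    intro t i
    show i ∈ (Finset.range L.length).filter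
      (fun i => ∃ h : i < L.length, isT t L[i] = true) ↔ _
    rw [Finset.mem_filter, Finset.mem_range]
    constructor
    · rintro ⟨_, h⟩; exact h
    · rintro ⟨h, h'⟩; exact ⟨h, h, h'⟩
  let Dt : T → Finset (ℕ × Bool × Q) := fun t => I t ×ˢ ports τ1 τ0
  have hDt : ∀ t, (Dt t).card = L.countP (isT t) * (ports τ1 τ0).card := by
    intro t
    show (I t ×ˢ ports τ1 τ0).card = _
    rw [Finset.card_product, card_pos_pred L (isT t) (I t) (hI t)]
  have hstart : ∀ p : Bool × Q, (if p.1 = true then L.length else 0) ≤ L.length := by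
    intro p; split <;> omega
  have hx : ∀ (x : T → Bool) (p : Bool × Q), pval τ0 τ1 x L p.1 p.2 = some (pass p.1 p.2) ↔
      Ev (c x) 0 L.length (if p.1 = true then L.length else 0) p.1 p.2 (pass p.1 p.2) := by
    intro x p
    rw [pval_eq, evalBox_eq_some]
  -- chains as trivial families
  have hch0 : ∀ (b b' : ℕ → Box Unit Q), chain b b' (fun _ => false) = b := by
    intro b b'; funext i; simp [chain]
  have hch1 : ∀ (b b' : ℕ → Box Unit Q), chain b b' (fun _ => true) = b' := by
    intro b b'; funext i; simp [chain]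
  let vis : Bool × Q → ℕ × Bool × Q → Prop := fun p d =>
    ∃ (D : Finset (ℕ × Bool × Q)) (hd : d ∈ D),
      Ev (chk D (c x0)) 0 L.length (if p.1 = true then L.length else 0) p.1 p.2
        (Out.stop (some ⟨d, hd⟩))
  -- the future after a visited checkpoint
  have key : ∀ p ∈ P, ∀ d, vis p d → EvAt (c x0) L.length d (pass p.1 p.2) := by
    rintro p hp d ⟨D, hd, h1⟩
    have h2 := (hx x0 p).1 (hP p hp)
    have h2' : Ev (chain (c x0) (c x0) (fun _ => false)) 0 L.length
        (if p.1 = true then L.length else 0) p.1 p.2 (pass p.1 p.2) := by rw [hch0]; exact h2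
    rcases forward (D := D) (fun _ _ _ _ _ => rfl) h2' (hstart p) with h3 | ⟨d', hd', h3, h4⟩
    · exact absurd (h3.det h1) pass_ne_stop
    · have h5 := h3.det h1
      simp only [Out.stop.injEq, Option.some.injEq, Subtype.mk.injEq] at h5
      rw [hch0] at h4
      rw [← h5]; exact h4
  refine ⟨fun t => P.filter (fun p => ∃ d ∈ Dt t, vis p d), ?_, ?_⟩
  · intro t
    rw [← hDt]
    have hch : ∀ p ∈ P.filter (fun p => ∃ d ∈ Dt t, vis p d), ∃ d, d ∈ Dt t ∧ vis p d := by
      intro p hp
      obtain ⟨d, h1, h2⟩ := (Finset.mem_filter.1 hp).2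
      exact ⟨d, h1, h2⟩
    choose! f hf using hch
    apply Finset.card_le_card_of_injOn f
    · intro p hp
      exact (hf p hp).1
    · intro p hp p' hp' hpp
      have h1 := key p (Finset.mem_filter.1 hp).1 _ (hf p hp).2
      have h2 := key p' (Finset.mem_filter.1 hp').1 _ (hf p' hp').2
      rw [hpp] at h1
      exact pass_inj (Ev.det h1 h2)
  · intro p hp x hxt
    rw [hx]
    -- checkpoints at the changed toggles
    set D : Finset (ℕ × Bool × Q) :=
      ((Finset.range L.length) ×ˢ ports τ1 τ0).filter
        (fun d => ∃ t, x t ≠ x0 t ∧ d ∈ Dt t) with hDdef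
    have hD : ∀ i s q, i < L.length → (i, s, q) ∉ D → c x0 i s q = c x i s q := by
      intro i s q hi hn
      show chain _ _ _ i s q = chain _ _ _ i s q
      rw [chain_get τ0 τ1 x0 L i hi, chain_get τ0 τ1 x L i hi]
      rcases h1 : L[i] with b | t
      · rfl
      · simp only [Sum.elim_inr]
        by_cases hxe : x t = x0 t
        · rw [hxe]
        · have hport : (s, q) ∉ ports τ1 τ0 := by
            intro hport
            apply hn
            rw [hDdef, Finset.mem_filter]
            have hmem : (i, s, q) ∈ Dt t := by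
              show (i, s, q) ∈ I t ×ˢ ports τ1 τ0
              rw [Finset.mem_product]
              exact ⟨(hI t i).2 ⟨hi, isT_iff.2 h1⟩, hport⟩
            exact ⟨Finset.mem_product.2 ⟨Finset.mem_range.2 hi, hport⟩, t, hxe, hmem⟩
          rw [mem_ports, not_not] at hport
          simp only at hport
          cases h3 : x t <;> cases h4 : x0 t <;> simp_all
    have h2 := (hx x0 p).1 (hP p hp)
    have h2' : Ev (chain (c x0) (c x) (fun _ => false)) 0 L.length
        (if p.1 = true then L.length else 0) p.1 p.2 (pass p.1 p.2) := by rw [hch0]; exact h2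
    rcases forward hD h2' (hstart p) with h3 | ⟨d, hd, h3, h4⟩
    · have h5 := follow (x := fun _ => true) hD h3 (pass p.1 p.2) (hstart p)
        (fun o1 h => lift_inj h) (fun r hr h => absurd h pass_ne_stop)
      rw [hch1] at h5
      exact h5
    · exfalso
      obtain ⟨_, t, ht, hdt⟩ := Finset.mem_filter.1 (hDdef ▸ hd)
      exact hxt t ht (Finset.mem_filter.2 ⟨hp, d, hdt, D, hd, h3⟩)

end Box
end Vale.Agent.P343
end
end

section

section

namespace Vale.Agent.P343
namespace Box

/-- What the words part of the linear version has to provide. -/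
def LinWordsStmt : Prop :=
  ∀ {V : Type} [Fintype V] {Q : Type} [Fintype Q] (n : ℕ) (_ : 0 < n)
    (g : Sym (Ext V n) → Box Unit Q) (P U : Finset (Bool × Q))
    (_ : ∀ s q o, g (idSym (Ext V n)) s q = some o ↔ (s, q) ∈ P ∧ o = pass s q)
    (_ : ∀ c, c < n * n → ∀ p ∈ P, p ∉ U → g (edgeN V n c) p.1 p.2 = some (pass p.1 p.2)),
    ∃ (L0 L1 : List (Sym (Ext V n))) (C : List (Sym (Ext V n) ⊕ (Fin 3 × V))),
      word g L0 * word g L0 = word g L0 ∧ word g L1 * word g L1 = word g L1 ∧
      word g L0 * word g L1 = word g L1 ∧ word g L1 * word g L0 = word g L1 ∧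
      n * n * (rank (word g L0) - rank (word g L1)) ≤ U.card ∧
      (∀ t, C.countP (isT t) = 1) ∧
      ∀ (a : Sym V) (A : Set V),
        acts (expand L0 L1 (bits a) C) (Sum.inl '' A) = Sum.inl '' (a.act A)

/-- A box automaton in normal form with activity at most `a`. -/
def Norm {V Q : Type} (M : BA (Sym V) Q) (a : ℕ) : Prop :=
  ∃ (P : Finset (Bool × Q)) (Act : Fin 3 × V → Finset (Bool × Q)),
    (∀ t, (Act t).card ≤ a) ∧
    (∀ s q o, M.G (idSym V) s q = some o ↔ (s, q) ∈ P ∧ o = pass s q) ∧
    (∀ σ s q, (s, q) ∉ P → M.G σ s q = none) ∧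
    (∀ σ, ∀ p ∈ P, (∀ t, bits σ t ≠ bits (idSym V) t → p ∉ Act t) →
      M.G σ p.1 p.2 = some (pass p.1 p.2))

end Box
end Vale.Agent.P343
end
end

section

section

namespace Vale.Agent.P343
namespace Box

theorem countP_isT_pieces {α T Q : Type} [Fintype Q] (g : α → Box Unit Q) (e : Box Unit Q)
    (c : List (α ⊕ T)) (t : T) :
    (c.flatMap (piece g e)).countP (isT t) = c.countP (isT t) := by
  induction c with
  | nil => rfl
  | cons p c ih =>
    rw [List.flatMap_cons, List.countP_append, ih, List.countP_cons]
    rcases p with s | t'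
    · simp [piece, isT]
    · have : (piece g e (Sum.inr t' : α ⊕ T)).countP (isT t) =
          if isT t (Sum.inr t' : α ⊕ T) = true then 1 else 0 := by
        by_cases h : t' = t
        · simp [piece, isT, h]
        · simp [piece, isT, h]
      rw [this]
      omega

theorem bits_idSym {V : Type} (t : Fin 3 × V) :
    bits (idSym V) t = decide (t.1 ≠ 0 ∧ t.1 ≠ 1) := by
  unfold bits idSym
  by_cases h0 : t.1 = 0
  · simp [h0]
  · by_cases h1 : t.1 = 1
    · simp [h1]
    · simp [h0, h1]

open Classical in
/-- Localization: from a box automaton and words `m a` such that the word of the identity letter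
has the box `e`, and `e` is the box of a word `Y` that does nothing. -/
theorem localize {V W : Type} {s0 f0 : V} {ι : V → W} (hι : Function.Injective ι) {Q : Type}
    [Fintype Q] (M : BA (Sym W) Q) (hM : ∀ w, M.Acc w ↔ RLang (ι s0) (ι f0) w)
    (Y : List (Sym W)) (m : Sym V → List (Sym W))
    (hY : ∀ S : Set V, acts Y (ι '' S) = ι '' S)
    (hm : ∀ (a : Sym V) (S : Set V), acts (m a) (ι '' S) = ι '' (a.act S)) (ws : List (Sym V)) :
    (BA.mk (fun a => toLoc (word M.G Y) (word M.G (m a))) (M.bl * splitU (word M.G Y))
      (splitV (word M.G Y) * M.br) M.start).Acc ws ↔ RLang s0 f0 ws := by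
  have h1 : (BA.mk (fun a => toLoc (word M.G Y) (word M.G (m a))) (M.bl * splitU (word M.G Y))
      (splitV (word M.G Y) * M.br) M.start).Acc ws ↔
      M.Acc (Y ++ ws.flatMap (fun a => m a ++ Y)) := by
    unfold BA.Acc
    have h2 := sandwich M.G Y ws m
    have h3 : M.bl * splitU (word M.G Y) *
          (ws.map (fun a => toLoc (word M.G Y) (word M.G (m a)))).prod *
          (splitV (word M.G Y) * M.br) =
        M.bl * (splitU (word M.G Y) *
          (ws.map (fun a => toLoc (word M.G Y) (word M.G (m a)))).prod *
          splitV (word M.G Y)) * M.br := by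
      simp only [mul_assoc]
    show (M.bl * splitU (word M.G Y) *
          (ws.map (fun a => toLoc (word M.G Y) (word M.G (m a)))).prod *
          (splitV (word M.G Y) * M.br)) false M.start = _ ↔ _
    rw [h3, h2]
    rfl
  rw [h1, hM]
  unfold RLang
  rw [← Set.image_singleton, acts_macro ι Y m hY hm]
  exact hι.mem_set_image

open Classical in
/-- The ports of an idempotent. -/
noncomputable def dom {Q : Type} [Fintype Q] (e : Box Unit Q) : Finset (Bool × Q) :=
  Finset.univ.filter (fun p => if p.1 = true then p.2 ∈ imL e else p.2 ∈ imR e)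

theorem mem_dom_false {Q : Type} [Fintype Q] {e : Box Unit Q} {q : Q} :
    (false, q) ∈ dom e ↔ q ∈ imR e := by simp only [dom, Finset.mem_filter, Finset.mem_univ, Bool.false_eq_true, ↓reduceIte, true_and]

theorem mem_dom_true {Q : Type} [Fintype Q] {e : Box Unit Q} {q : Q} :
    (true, q) ∈ dom e ↔ q ∈ imL e := by simp only [dom, Finset.mem_filter, Finset.mem_univ, ↓reduceIte, true_and]

theorem loc_iff {Q : Type} [Fintype Q] {e : Box Unit Q} (he : e * e = e) (s : Bool) (q : Q)
    (o : Out Unit Q) : loc e s q = some o ↔ (s, q) ∈ dom e ∧ o = pass s q := by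
  cases s with
  | false => rw [loc_false he, mem_dom_false]; rfl
  | true => rw [loc_true he, mem_dom_true]; rfl

theorem toLoc_none {Q : Type} [Fintype Q] {e z : Box Unit Q} {s : Bool} {q : Q}
    (h : (s, q) ∉ dom e) : toLoc e z s q = none := by
  cases s with
  | false => exact toLoc_none_false (fun h' => h (mem_dom_false.2 h'))
  | true => exact toLoc_none_true (fun h' => h (mem_dom_true.2 h'))

open Classical in
/-- One level of the recursion. -/
theorem norm_step (hw : LinWordsStmt) {V : Type} [Fintype V] {s0 f0 : V} {n : ℕ} (hn : 0 < n)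
    {Q : Type} [Fintype Q] (M : BA (Sym (Ext V n)) Q)
    (hM : ∀ w, M.Acc w ↔ RLang (Sum.inl s0 : Ext V n) (Sum.inl f0) w)
    {a : ℕ} (hNorm : Norm M a) :
    ∃ (M1 : BA (Sym V) Q) (a' : ℕ), Norm M1 a' ∧ n * a' ≤ 4 * a ∧
      ∀ w, M1.Acc w ↔ RLang s0 f0 w := by
  obtain ⟨P, Act, hAct, hid, hnone, hpass⟩ := hNorm
  -- the ports touched by the chain
  set U : Finset (Bool × Q) :=
    Finset.univ.biUnion (fun i : Fin n => Act (0, trkW V i) ∪ Act (1, trkP V i)) with hU
  have hUcard : U.card ≤ n * (2 * a) := by
    rw [hU]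
    refine Finset.card_biUnion_le.trans ?_
    calc ∑ i : Fin n, (Act (0, trkW V i) ∪ Act (1, trkP V i)).card
        ≤ ∑ _i : Fin n, 2 * a := by
          apply Finset.sum_le_sum
          intro i _
          refine (Finset.card_union_le _ _).trans ?_
          have h1 := hAct (0, trkW V i)
          have h2 := hAct (1, trkP V i)
          omega
      _ = n * (2 * a) := by simp only [Finset.sum_const, Finset.card_univ, Fintype.card_fin, smul_eq_mul]
  have hUpass : ∀ c, c < n * n → ∀ p ∈ P, p ∉ U →
      M.G (edgeN V n c) p.1 p.2 = some (pass p.1 p.2) := by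
    intro c _ p hp hpU
    apply hpass _ p hp
    rintro ⟨k, y⟩ hne hmem
    apply hpU
    rw [hU, Finset.mem_biUnion]
    rw [bits_idSym] at hne
    unfold bits edgeN at hne
    simp only at hne
    by_cases h0 : k = 0
    · subst h0
      simp only [if_true, ne_eq, not_true_eq_false, false_and, decide_false,
        Bool.not_eq_false] at hne
      obtain ⟨i, rfl, _⟩ := isW_iff.1 hne
      exact ⟨i, Finset.mem_univ _, Finset.mem_union_left _ hmem⟩
    · by_cases h1 : k = 1
      · subst h1
        simp only [one_ne_zero, if_false, if_true, ne_eq, not_false_eq_true, not_true_eq_false,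
          and_false, decide_false, Bool.not_eq_false] at hne
        obtain ⟨i, rfl, _⟩ := isP_iff.1 hne
        exact ⟨i, Finset.mem_univ _, Finset.mem_union_right _ hmem⟩
      · simp [h0, h1] at hne
  obtain ⟨L0, L1, c, he, hf, hef, hfe, hrk, hcount, hact⟩ :=
    hw (V := V) n hn M.G P U hid hUpass
  set e := word M.G L0 with hedef
  set f := word M.G L1 with hfdef
  have hports := card_ports_toLoc he hef hfe hf
  set τ0 := loc e
  set τ1 := toLoc e f
  have hrk' : rank f ≤ rank e := by rw [← hef]; exact rank_mul_le_left _ _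
  have hN : n * (ports τ1 τ0).card ≤ 4 * a := by
    have h1 : (ports τ1 τ0).card ≤ 2 * (rank e - rank f) := by omega
    have h2 : n * (n * (ports τ1 τ0).card) ≤ n * (4 * a) := by
      calc n * (n * (ports τ1 τ0).card) ≤ n * (n * (2 * (rank e - rank f))) := by (clear * - h1; gcongr)
        _ = 2 * (n * n * (rank e - rank f)) := by ring
        _ ≤ 2 * U.card := Nat.mul_le_mul_left _ hrk
        _ ≤ 2 * (n * (2 * a)) := Nat.mul_le_mul_left _ hUcard
        _ = n * (4 * a) := by ring
    exact Nat.le_of_mul_le_mul_left h2 hn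
  -- the cells
  let w : Sym V → List (Sym (Ext V n)) := fun a => expand L0 L1 (bits a) c
  let w0 := w (idSym V)
  obtain ⟨k, hk, hidem⟩ := exists_pow_idem (word M.G w0)
  set e' := word M.G (rep w0 k) with he'def
  have he'pow : e' = word M.G w0 ^ k := word_rep _ _ _
  have he' : e' * e' = e' := by rw [he'pow]; exact hidem
  let m : Sym V → List (Sym (Ext V n)) := fun a => w a ++ rep w0 (k - 1)
  have hm0 : word M.G (m (idSym V)) = e' := by
    show word M.G (w0 ++ rep w0 (k - 1)) = e'
    rw [word_append, word_rep, ← pow_succ', he'pow]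
    congr 1
    omega
  have hact0 : ∀ S : Set V, acts w0 (Sum.inl '' S) = Sum.inl '' S := by
    intro S
    show acts (expand L0 L1 (bits (idSym V)) c) (Sum.inl '' S) = Sum.inl '' S
    rw [hact, idSym_act]
  have hactY : ∀ S : Set V, acts (rep w0 k) (Sum.inl '' S) = (Sum.inl '' S : Set (Ext V n)) :=
    fun S => acts_rep1 _ _ hact0 k S
  have hactm : ∀ (a : Sym V) (S : Set V),
      acts (m a) (Sum.inl '' S) = (Sum.inl '' (a.act S) : Set (Ext V n)) := by
    intro a S
    show acts (w a ++ rep w0 (k - 1)) (Sum.inl '' S) = _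
    rw [acts_append]
    show acts (rep w0 (k - 1)) (acts (expand L0 L1 (bits a) c) (Sum.inl '' S)) = _
    rw [hact, acts_rep1 _ _ hact0]
  let Lp : List (Box Unit Q ⊕ (Fin 3 × V)) :=
    [Sum.inl (splitV e')] ++ c.flatMap (piece M.G e) ++
      [Sum.inl (word M.G (rep w0 (k - 1))), Sum.inl (splitU e')]
  have hLpval : ∀ a : Sym V, pval τ0 τ1 (bits a) Lp = toLoc e' (word M.G (m a)) := by
    intro a
    show pval τ0 τ1 (bits a) ([Sum.inl (splitV e')] ++ c.flatMap (piece M.G e) ++
      [Sum.inl (word M.G (rep w0 (k - 1))), Sum.inl (splitU e')]) = _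
    rw [pval_append, pval_append, pval_pieces M.G L0 L1 he hef hfe]
    have h1 : pval τ0 τ1 (bits a) [Sum.inl (splitV e')] = splitV e' := by simp [pval]
    have h2 : pval τ0 τ1 (bits a) [Sum.inl (word M.G (rep w0 (k - 1))), Sum.inl (splitU e')] =
        word M.G (rep w0 (k - 1)) * splitU e' := by simp only [pval, List.map_cons, Sum.elim_inl, id_eq, List.map_nil, List.prod_cons, List.prod_nil, mul_one]
    rw [h1, h2]
    unfold toLoc
    have h3 : word M.G (m a) = word M.G (expand L0 L1 (bits a) c) *
        word M.G (rep w0 (k - 1)) := word_append _ _ _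
    rw [h3]
    simp only [mul_assoc]
  have hLpcount : ∀ t, Lp.countP (isT t) = 1 := by
    intro t
    show ([Sum.inl (splitV e')] ++ c.flatMap (piece M.G e) ++
      [Sum.inl (word M.G (rep w0 (k - 1))), Sum.inl (splitU e')] :
        List (Box Unit Q ⊕ (Fin 3 × V))).countP (isT t) = _
    rw [List.countP_append, List.countP_append, countP_isT_pieces, hcount]
    simp only [isT, Sum.elim_inl, Bool.false_eq_true, not_false_eq_true, List.countP_cons_of_neg, List.countP_nil, zero_add, add_zero]
  obtain ⟨Act', hAct'card, hAct'pass⟩ := active_fine τ0 τ1 Lp (bits (idSym V)) (dom e') (by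
    rintro ⟨s, q⟩ hp
    rw [hLpval, hm0, toLoc_self e' he']
    exact (loc_iff he' s q _).2 ⟨hp, rfl⟩)
  refine ⟨⟨fun a => toLoc e' (word M.G (m a)), M.bl * splitU e', splitV e' * M.br, M.start⟩,
    (ports τ1 τ0).card, ⟨dom e', Act', ?_, ?_, ?_, ?_⟩, hN, ?_⟩
  · intro t
    have := hAct'card t
    rwa [hLpcount, one_mul] at this
  · intro s q o
    show toLoc e' (word M.G (m (idSym V))) s q = some o ↔ _
    rw [hm0, toLoc_self e' he']
    exact loc_iff he' s q o
  · intro σ s q h
    exact toLoc_none h
  · intro σ p hp h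
    have := hAct'pass p hp (bits σ) h
    rw [hLpval] at this
    exact this
  · exact localize Sum.inl_injective M hM (rep w0 k) m hactY hactm

/-- The bottom of the recursion. -/
theorem norm_base {V : Type} {s0 f0 : V} (hne : s0 ≠ f0) {Q : Type} (M : BA (Sym V) Q)
    (hM : ∀ w, M.Acc w ↔ RLang s0 f0 w) {a : ℕ} (hNorm : Norm M a) : 1 ≤ a := by
  classical
  obtain ⟨P, Act, hAct, hid, hnone, hpass⟩ := hNorm
  by_contra ha
  have ha0 : a = 0 := by omega
  have hemp : ∀ t, Act t = ∅ := by
    intro t
    have := hAct t
    rw [ha0] at this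
    exact Finset.card_eq_zero.1 (by omega)
  have hG : ∀ σ, M.G σ = M.G (idSym V) := by
    intro σ
    apply ext'
    intro s q
    by_cases hp : (s, q) ∈ P
    · rw [(hid s q _).2 ⟨hp, rfl⟩]
      exact hpass σ (s, q) hp (fun t _ => by rw [hemp]; simp)
    · rw [hnone σ s q hp, hnone (idSym V) s q hp]
  let a1 : Sym V := ⟨fun x => decide (x = s0), fun x => decide (x = f0), fun _ => true⟩
  have h1 : M.Acc [a1] := by
    rw [hM]
    show f0 ∈ a1.act {s0}
    simp only [Sym.act, Set.mem_singleton_iff, decide_eq_true_eq, and_self, exists_eq, and_true, Set.mem_ofPred_eq, or_true, a1]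
  have h2 : ¬ M.Acc [idSym V] := by
    rw [hM]
    show ¬ f0 ∈ (idSym V).act {s0}
    rw [idSym_act]
    exact fun h => hne (by simpa using h.symm)
  apply h2
  unfold BA.Acc at h1 ⊢
  rw [List.map_cons, hG] at h1
  exact h1

theorem acts_idSym {V : Type} (k : ℕ) (S : Set V) :
    acts (rep [idSym V] k) (id '' S) = id '' S :=
  acts_rep1 id _ (by
    intro S
    show (idSym V).act (id '' S) = _
    rw [idSym_act]) k S

/-- The top of the recursion. -/
theorem norm_top {V : Type} {s0 f0 : V} {Q : Type} [Fintype Q] (M : BA (Sym V) Q)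
    (hM : ∀ w, M.Acc w ↔ RLang s0 f0 w) :
    ∃ M1 : BA (Sym V) Q, Norm M1 (2 * Fintype.card Q) ∧ ∀ w, M1.Acc w ↔ RLang s0 f0 w := by
  classical
  obtain ⟨k, hk, hidem⟩ := exists_pow_idem (word M.G [idSym V])
  set e' := word M.G (rep [idSym V] k) with he'def
  have he'pow : e' = word M.G [idSym V] ^ k := word_rep _ _ _
  have he' : e' * e' = e' := by rw [he'pow]; exact hidem
  let m : Sym V → List (Sym V) := fun a => [a] ++ rep [idSym V] (k - 1)
  have hm0 : word M.G (m (idSym V)) = e' := by
    show word M.G ([idSym V] ++ rep [idSym V] (k - 1)) = e'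
    rw [word_append, word_rep, ← pow_succ', he'pow]
    congr 1
    omega
  have hactm : ∀ (a : Sym V) (S : Set V), acts (m a) (id '' S) = id '' (a.act S) := by
    intro a S
    show acts (rep [idSym V] (k - 1)) (a.act (id '' S)) = _
    have := acts_idSym (k - 1) (a.act S)
    rw [Set.image_id] at this ⊢
    rw [Set.image_id]
    exact this
  refine ⟨⟨fun a => toLoc e' (word M.G (m a)), M.bl * splitU e', splitV e' * M.br, M.start⟩,
    ⟨dom e', fun _ => dom e', ?_, ?_, ?_, ?_⟩, ?_⟩
  · intro _
    refine (Finset.card_le_univ _).trans ?_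
    rw [Fintype.card_prod, Fintype.card_bool]
  · intro s q o
    show toLoc e' (word M.G (m (idSym V))) s q = some o ↔ _
    rw [hm0, toLoc_self e' he']
    exact loc_iff he' s q o
  · intro σ s q h
    exact toLoc_none h
  · intro σ p hp h
    have hσ : σ = idSym V := by
      by_contra hne
      apply hne
      have h' : ∀ t, bits σ t = bits (idSym V) t := by
        intro t
        by_contra h1
        exact h t h1 hp
      cases σ with
      | mk s d kp =>
        have h0 : ∀ x, s x = false := by
          intro x; have := h' (0, x); simpa [bits, idSym] using this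
        have h1 : ∀ x, d x = false := by
          intro x; have := h' (1, x); simpa [bits, idSym] using this
        have h2 : ∀ x, kp x = true := by
          intro x; have := h' (2, x); simpa [bits, idSym] using this
        unfold idSym
        congr 1
        · funext x; exact h0 x
        · funext x; exact h1 x
        · funext x; exact h2 x
    rw [hσ]
    show toLoc e' (word M.G (m (idSym V))) p.1 p.2 = _
    rw [hm0, toLoc_self e' he']
    exact (loc_iff he' p.1 p.2 _).2 ⟨hp, rfl⟩
  · exact localize (ι := id) Function.injective_id M hM (rep [idSym V] k) m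
      (fun S => acts_idSym k S) hactm

/-- The tower. -/
theorem tower (hw : LinWordsStmt) (j : ℕ) : ∃ (V : Type) (_ : Fintype V) (s0 f0 : V), s0 ≠ f0 ∧
    Fintype.card V = 17 * j + 2 ∧
    ∀ (Q : Type) [Fintype Q] (M : BA (Sym V) Q), (∀ w, M.Acc w ↔ RLang s0 f0 w) →
      ∀ a, Norm M a → 2 ^ j ≤ a := by
  induction j with
  | zero =>
    refine ⟨Bool, inferInstance, false, true, by simp, by simp, ?_⟩
    intro Q _ M hM a ha
    rw [pow_zero]
    exact norm_base (by simp) M hM ha
  | succ j ih =>
    obtain ⟨V, hV, s0, f0, hne, hcard, hrec⟩ := ih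
    refine ⟨Ext V 8, inferInstance, Sum.inl s0, Sum.inl f0,
      fun h => hne (Sum.inl_injective h), ?_, ?_⟩
    · rw [Fintype.card_sum, Fintype.card_sum, Fintype.card_sum, Fintype.card_fin,
        Fintype.card_unit, hcard]
      ring
    · intro Q _ M hM a ha
      obtain ⟨M1, a', h1, h2, h3⟩ := norm_step hw (by norm_num) M hM ha
      have h4 := hrec Q M1 h3 a' h1
      rw [pow_succ]
      omega

/-- The linear version of the lower bound. -/
theorem lin_LB (hw : LinWordsStmt) (j : ℕ) (V : Type) [Fintype V] (s0 f0 : V) (hne : s0 ≠ f0)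
    (hV : 17 * j + 2 ≤ Fintype.card V) : LB V s0 f0 (2 ^ (j - 1)) := by
  obtain ⟨V', hV', s0', f0', hne', hcard, hrec⟩ := tower hw j
  obtain ⟨i, hi1, hi2⟩ := exists_embedding (X := V') (Y := V) (by omega) hne' hne
  rw [← hi1, ← hi2]
  apply LB_mono
  intro Q _ M hM
  obtain ⟨M1, h1, h2⟩ := norm_top M hM
  have h3 := hrec Q M1 h2 _ h1
  cases j with
  | zero =>
    rw [show 0 - 1 = 0 by rfl, pow_zero]
    exact Fintype.card_pos_iff.2 ⟨M.start⟩
  | succ j =>
    rw [show j + 1 - 1 = j by rfl]
    rw [pow_succ] at h3
    omega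

end Box
end Vale.Agent.P343
end
end

section

section

namespace Vale.Agent.P343
namespace Box

/-! ### Passing -/

section Pass

variable {Q : Type}

theorem pass_mul {f g : Box Unit Q} {s : Bool} {q : Q} (hf : f s q = some (pass s q))
    (hg : g s q = some (pass s q)) : (f * g) s q = some (pass s q) := by
  rw [mul_eq_some]
  cases s with
  | false => exact Comp.midR (by simpa [pass] using hf) (Mid.outR (by simpa [pass] using hg))
  | true => exact Comp.midL (by simpa [pass] using hg) (Mid.outL (by simpa [pass] using hf))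

theorem pass_pow {f : Box Unit Q} {s : Bool} {q : Q} (hf : f s q = some (pass s q)) (k : ℕ) :
    (f ^ (k + 1)) s q = some (pass s q) := by
  induction k with
  | zero => rw [pow_one]; exact hf
  | succ k ih => rw [pow_succ]; exact pass_mul ih hf

/-- A partial identity is idempotent. -/
theorem partial_id_mul {i : Box Unit Q} {P : Finset (Bool × Q)}
    (hi : ∀ s q o, i s q = some o ↔ (s, q) ∈ P ∧ o = pass s q) : i * i = i := by
  apply ext_some
  intro s q o
  constructor
  · intro h
    have h1 : (s, q) ∈ P := by
      rw [mul_eq_some] at h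
      cases h with
      | stopR h1 => exact ((hi _ _ _).1 h1).1
      | lftR h1 => exact ((hi _ _ _).1 h1).1
      | midR h1 _ => exact ((hi _ _ _).1 h1).1
      | stopL h1 => exact ((hi _ _ _).1 h1).1
      | rgtL h1 => exact ((hi _ _ _).1 h1).1
      | midL h1 _ => exact ((hi _ _ _).1 h1).1
    have h2 : i s q = some (pass s q) := (hi _ _ _).2 ⟨h1, rfl⟩
    rw [pass_mul h2 h2] at h
    rw [h2]; exact h
  · intro h
    obtain ⟨h1, rfl⟩ := (hi _ _ _).1 h
    exact pass_mul h h

open Classical in
theorem rank_partial_id [Fintype Q] {i : Box Unit Q} {P : Finset (Bool × Q)}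
    (hi : ∀ s q o, i s q = some o ↔ (s, q) ∈ P ∧ o = pass s q) : rank i ≤ P.card := by
  have h1 : (imR i).image (fun q => (false, q)) ∪ (imL i).image (fun q => (true, q)) ⊆ P := by
    intro p hp
    rw [Finset.mem_union, Finset.mem_image, Finset.mem_image] at hp
    rcases hp with ⟨q, hq, rfl⟩ | ⟨q, hq, rfl⟩
    · obtain ⟨q', h⟩ := mem_imR.1 hq
      obtain ⟨h1, h2⟩ := (hi _ _ _).1 h
      simp only [pass, Bool.false_eq_true, if_false, Out.rgt.injEq] at h2
      subst h2; exact h1
    · obtain ⟨q', h⟩ := mem_imL.1 hq
      obtain ⟨h1, h2⟩ := (hi _ _ _).1 h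
      simp only [pass, if_true, Out.lft.injEq] at h2
      subst h2; exact h1
  have h2 := Finset.card_le_card h1
  rw [Finset.card_union_of_disjoint, Finset.card_image_of_injective,
    Finset.card_image_of_injective] at h2
  · exact h2
  · intro a b h; simpa using h
  · intro a b h; simpa using h
  · rw [Finset.disjoint_left]
    intro p hp hp'
    rw [Finset.mem_image] at hp hp'
    obtain ⟨q, _, rfl⟩ := hp
    obtain ⟨q', _, h⟩ := hp'
    simp at h

open Classical in
theorem rank_of_pass [Fintype Q] {f : Box Unit Q} {P U : Finset (Bool × Q)}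
    (hf : ∀ p ∈ P, p ∉ U → f p.1 p.2 = some (pass p.1 p.2)) : P.card - U.card ≤ rank f := by
  have h1 : P \ U ⊆ (imR f).image (fun q => (false, q)) ∪ (imL f).image (fun q => (true, q)) := by
    rintro ⟨s, q⟩ hp
    rw [Finset.mem_sdiff] at hp
    have h2 := hf _ hp.1 hp.2
    rw [Finset.mem_union, Finset.mem_image, Finset.mem_image]
    cases s with
    | false => exact Or.inl ⟨q, mem_imR.2 ⟨q, by simpa [pass] using h2⟩, rfl⟩
    | true => exact Or.inr ⟨q, mem_imL.2 ⟨q, by simpa [pass] using h2⟩, rfl⟩
  have h2 := Finset.card_le_card h1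
  have h3 := Finset.card_union_le ((imR f).image (fun q => (false, q)))
    ((imL f).image (fun q => (true, q)))
  have h4 : ((imR f).image (fun q => (false, q))).card ≤ (imR f).card := Finset.card_image_le
  have h5 : ((imL f).image (fun q => (true, q))).card ≤ (imL f).card := Finset.card_image_le
  have h6 : P.card - U.card ≤ (P \ U).card := Finset.le_card_sdiff U P
  unfold rank
  omega

end Pass

/-! ### The chain -/

section ChainF

variable {V Q : Type} {n : ℕ} [Fintype Q]

/-- The chain of words that starts with the identity letter. -/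
noncomputable def chainF (g : Sym (Ext V n) → Box Unit Q) : ℕ → List (Sym (Ext V n))
  | 0 => [idSym (Ext V n)]
  | c + 1 => rep (chainF g c ++ [edgeN V n c] ++ chainF g c)
      (idemExp (word g (chainF g c ++ [edgeN V n c] ++ chainF g c)))

theorem chainF_zero (g : Sym (Ext V n) → Box Unit Q) : chainF g 0 = [idSym (Ext V n)] := rfl

theorem chainF_succ (g : Sym (Ext V n) → Box Unit Q) (c : ℕ) :
    chainF g (c + 1) = rep (chainF g c ++ [edgeN V n c] ++ chainF g c)
      (idemExp (word g (chainF g c ++ [edgeN V n c] ++ chainF g c))) := rfl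

variable {g : Sym (Ext V n) → Box Unit Q} {P U : Finset (Bool × Q)}
    (hid : ∀ s q o, g (idSym (Ext V n)) s q = some o ↔ (s, q) ∈ P ∧ o = pass s q)

include hid

theorem chainF_idem (c : ℕ) :
    word g (chainF g c) * word g (chainF g c) = word g (chainF g c) := by
  cases c with
  | zero =>
    rw [chainF_zero, word_singleton]
    exact partial_id_mul hid
  | succ c =>
    rw [chainF_succ, word_rep]
    exact idemExp_idem _

theorem chainF_left (c : ℕ) :
    word g (chainF g c) * word g (chainF g (c + 1)) = word g (chainF g (c + 1)) := by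
  rw [chainF_succ, word_rep]
  have hk := idemExp_pos (word g (chainF g c ++ [edgeN V n c] ++ chainF g c))
  obtain ⟨k, hk'⟩ := Nat.exists_eq_succ_of_ne_zero (Nat.pos_iff_ne_zero.1 hk)
  rw [hk', pow_succ', word_append, word_append]
  simp only [← mul_assoc]
  rw [chainF_idem hid]

theorem chainF_right (c : ℕ) :
    word g (chainF g (c + 1)) * word g (chainF g c) = word g (chainF g (c + 1)) := by
  rw [chainF_succ, word_rep]
  have hk := idemExp_pos (word g (chainF g c ++ [edgeN V n c] ++ chainF g c))
  obtain ⟨k, hk'⟩ := Nat.exists_eq_succ_of_ne_zero (Nat.pos_iff_ne_zero.1 hk)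
  rw [hk', pow_succ, word_append, word_append]
  simp only [mul_assoc]
  rw [chainF_idem hid]

omit hid in
theorem acts_chainF (g : Sym (Ext V n) → Box Unit Q) (hn : 0 < n) (c : ℕ)
    (S : Set (Ext V n)) :
    acts (chainF g c) S = addE (fun i j => i.val * n + j.val < c) S := by
  induction c generalizing S with
  | zero =>
    rw [chainF_zero, acts_cons, acts_nil]
    ext y
    rw [mem_act]
    simp [addE, idSym]
  | succ c ih =>
    rw [chainF_succ]
    apply acts_rep _ _ (idemExp_pos _)
    intro S
    rw [acts_append, acts_append, ih, ih, acts_cons, acts_nil, act_edgeN, addE_addE, addE_addE]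
    apply addE_congr
    intro i j
    have h1 : (i.val = c / n ∧ j.val = c % n) ↔ i.val * n + j.val = c := by
      constructor
      · rintro ⟨h1, h2⟩
        rw [h1, h2]
        have := Nat.div_add_mod c n
        rw [Nat.mul_comm] at this
        exact this
      · intro h
        have hj := j.2
        constructor
        · rw [← h, Nat.add_comm, Nat.add_mul_div_right _ _ hn, Nat.div_eq_of_lt hj, Nat.zero_add]
        · rw [← h, Nat.add_comm, Nat.add_mul_mod_self_right, Nat.mod_eq_of_lt hj]
    rw [h1]
    omega

theorem rank_chainF_mono (c : ℕ) :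
    rank (word g (chainF g (c + 1))) ≤ rank (word g (chainF g c)) := by
  rw [← chainF_left hid c]
  exact rank_mul_le_left _ _

theorem pass_chainF
    (hedge : ∀ c, c < n * n → ∀ p ∈ P, p ∉ U → g (edgeN V n c) p.1 p.2 = some (pass p.1 p.2))
    (c : ℕ) (hc : c ≤ n * n) (p : Bool × Q) (hp : p ∈ P) (hU : p ∉ U) :
    word g (chainF g c) p.1 p.2 = some (pass p.1 p.2) := by
  induction c with
  | zero =>
    rw [chainF_zero, word_singleton]
    exact (hid _ _ _).2 ⟨hp, rfl⟩
  | succ c ih =>
    have ih' := ih (by omega)
    rw [chainF_succ, word_rep]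
    have hk := idemExp_pos (word g (chainF g c ++ [edgeN V n c] ++ chainF g c))
    obtain ⟨k, hk'⟩ := Nat.exists_eq_succ_of_ne_zero (Nat.pos_iff_ne_zero.1 hk)
    rw [hk']
    apply pass_pow
    rw [word_append, word_append, word_singleton]
    exact pass_mul (pass_mul ih' (hedge c (by omega) p hp hU)) ih'

end ChainF

/-! ### Counting toggles -/

theorem countP_isT_flatMap3 {X W K : Type} [DecidableEq W] [DecidableEq K] (vs : List W) (f h : W → X) (k : K)
    (t : K × W) :
    (vs.flatMap (fun x => [(Sum.inl (f x) : X ⊕ (K × W)), Sum.inr (k, x), Sum.inl (h x)])).countP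
      (isT t) = if k = t.1 then vs.count t.2 else 0 := by
  classical
  induction vs with
  | nil => simp
  | cons x vs ih =>
    rw [List.flatMap_cons, List.countP_append, ih]
    obtain ⟨t1, t2⟩ := t
    by_cases h1 : k = t1
    · subst h1
      by_cases h2 : x = t2
      · subst h2
        simp only [isT, Sum.elim_inl, Bool.false_eq_true, not_false_eq_true, List.countP_cons_of_neg, Sum.elim_inr, decide_true, List.countP_cons_of_pos, List.countP_nil, zero_add, ↓reduceIte, List.count_cons_self]
        omega
      · simp [isT, List.countP_cons, h2]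
    · simp [isT, List.countP_cons, h1]

theorem countP_isT_cellP {V : Type} {n : ℕ} (i0 j0 : Fin n) (vs : List V) (hnd : vs.Nodup)
    (hvs : ∀ v, v ∈ vs) (t : Fin 3 × V) : (cellP i0 j0 vs).countP (isT t) = 1 := by
  classical
  unfold cellP phase1 phase2 phase3
  rw [List.countP_append, List.countP_append, List.countP_append, countP_isT_flatMap3,
    countP_isT_flatMap3, countP_isT_flatMap3]
  obtain ⟨k, v⟩ := t
  have h1 : vs.count v = 1 := List.count_eq_one_of_mem hnd (hvs v)
  simp only [h1]
  fin_cases k <;> simp [isT]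

theorem lin_words : LinWordsStmt := by
  intro V _ Q _ n hn g P U hid hedge
  classical
  obtain ⟨c, hc, hdrop⟩ := row_select (m := n * n) (Nat.mul_pos hn hn)
    (fun c => rank (word g (chainF g c)) - (P.card - U.card))
    (fun c => Nat.sub_le_sub_right (rank_chainF_mono hid c) _)
  have hi : c / n < n := Nat.div_lt_of_lt_mul hc
  have hj : c % n < n := Nat.mod_lt _ hn
  have hcn : c / n * n + c % n = c := by
    have := Nat.div_add_mod c n
    rwa [Nat.mul_comm] at this
  refine ⟨chainF g c, chainF g (c + 1), cellP ⟨c / n, hi⟩ ⟨c % n, hj⟩ Finset.univ.toList,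
    chainF_idem hid c, chainF_idem hid (c + 1), chainF_left hid c, chainF_right hid c,
    ?_, ?_, ?_⟩
  · have h1 : P.card - U.card ≤ rank (word g (chainF g (c + 1))) :=
      rank_of_pass (fun p hp hU => pass_chainF hid hedge (c + 1) (by omega) p hp hU)
    have h0 : rank (word g (chainF g 0)) ≤ P.card := by
      rw [chainF_zero, word_singleton]
      exact rank_partial_id hid
    have h2 : rank (word g (chainF g c)) - rank (word g (chainF g (c + 1))) =
        (rank (word g (chainF g c)) - (P.card - U.card)) -
          (rank (word g (chainF g (c + 1))) - (P.card - U.card)) := by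
      (clear * - h1; omega)
    rw [h2]
    refine hdrop.trans ?_
    show rank (word g (chainF g 0)) - (P.card - U.card) ≤ U.card
    (clear * - h1 h0; omega)
  · intro t
    exact countP_isT_cellP _ _ _ (Finset.nodup_toList _)
      (fun v => Finset.mem_toList.2 (Finset.mem_univ v)) t
  · intro a A
    apply acts_cellP (P0 := fun i j => i.val * n + j.val < c)
      (P1 := fun i j => i.val * n + j.val < c + 1)
      (fun S => acts_chainF g hn c S) (fun S => acts_chainF g hn (c + 1) S)
    · simp only [hcn]; omega
    · simp only [hcn]; omega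
    · intro v
      exact Finset.mem_toList.2 (Finset.mem_univ v)

end Box
end Vale.Agent.P343
end
end

section

section

namespace Vale.Agent.P343

/-- One-way nondeterministic automata with `n` states can need exponentially many (in `n`) states
in every equivalent two-way deterministic automaton. -/
theorem linear_lower (n j : ℕ) (hn : 17 * j + 20 ≤ n) :
    ∃ (α : Type) (_ : Finite α) (A : TwoNFA α (Fin n)), A.OneWay ∧
      ∀ (s : ℕ) (B : TwoNFA α (Fin s)), B.Deterministic → Equivalent A B → 2 ^ j ≤ s := by
  obtain ⟨k, rfl⟩ : ∃ k, n = k + 3 := ⟨n - 3, by omega⟩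
  refine ⟨Box.Sym (Fin (k + 2)), inferInstance, Box.RAut k, Box.RAut_oneWay k, ?_⟩
  intro s B hB heq
  have h := Box.lin_LB Box.lin_words (j + 1) (Fin (k + 2)) 0 1 (by
    intro h
    have h1 := congrArg Fin.val h
    simp at h1) (by rw [Fintype.card_fin]; omega)
  exact Box.card_ge_of_LB h s B hB heq

end Vale.Agent.P343
end
end
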